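import Vale.Agent.P045.Baer.Pins

/-!
# P045: assembly
-/

namespace Vale.P045.Baer

theorem main_of_modules (geo : GeoStmt) (model : ModelStmt)
    (eb : EvBasicStmt) (eg : EvGridStmt) (es : EvSampleStmt) (ep : EvPairsStmt)
    (nc : NoCoverStmt) : MainStmt := by
  intro R
  obtain ⟨P1, h1⟩ := eb
  obtain ⟨P2, h2⟩ := eg
  obtain ⟨P3, h3⟩ := es
  obtain ⟨P4, h4⟩ := ep
  obtain ⟨P5, h5⟩ := nc
  obtain ⟨p, hp, hpp⟩ := Nat.exists_infinite_primes (P1 + P2 + P3 + P4 + P5 + R + 8)
  obtain ⟨C, hCp, hC⟩ := geo p hpp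
  subst hCp
  obtain ⟨h, hhp, hl, hu⟩ := Nat.exists_prime_lt_and_le_two_mul (C.p / 4) (by omega)
  have : NeZero h := ⟨hhp.ne_zero⟩
  have hS : Setting C h := ⟨hC, hhp, by omega, by omega⟩
  have hne : Nonempty C.Pt := by
    refine Fintype.card_pos_iff.mp ?_
    rw [hC.card_pt]; omega
  have a1 := h1 C h hS (by omega)
  have a2 := h2 C h hS (by omega)
  have a3 := h3 C h hS (by omega)
  have a4 := h4 C h hS (by omega)
  obtain ⟨ω, hω⟩ : ∃ ω : Omega C h, C.Ev ω := by
    classical
    by_contra hno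
    push Not at hno
    simp only [Nat.card_eq_fintype_card, Fintype.card_subtype] at a1 a2 a3 a4
    have hcov : (Finset.univ : Finset (Omega C h)) ⊆
        (((Finset.univ.filter fun ω => ¬ C.EvBasic ω) ∪
          (Finset.univ.filter fun ω => ¬ C.EvGrid ω)) ∪
          (Finset.univ.filter fun ω => ¬ C.EvSample ω)) ∪
          (Finset.univ.filter fun ω => ¬ C.EvPairs ω) := by
      intro ω _
      have := hno ω
      simp only [Finset.mem_union, Finset.mem_filter, Finset.mem_univ, true_and]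
      by_cases b1 : C.EvBasic ω
      · by_cases b2 : C.EvGrid ω
        · by_cases b3 : C.EvSample ω
          · by_cases b4 : C.EvPairs ω
            · exact absurd ⟨b1, b2, b3, b4⟩ this
            · exact Or.inr b4
          · exact Or.inl (Or.inr b3)
        · exact Or.inl (Or.inl (Or.inr b2))
      · exact Or.inl (Or.inl (Or.inl b1))
    have hc := (Finset.card_le_card hcov).trans ((Finset.card_union_le _ _).trans
      (Nat.add_le_add_right ((Finset.card_union_le _ _).trans
        (Nat.add_le_add_right (Finset.card_union_le _ _) _)) _))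
    have hpos : 0 < Fintype.card (Omega C h) := Fintype.card_pos
    rw [Finset.card_univ] at hc
    omega
  have hX : (C.X ω).Nonempty := by
    by_contra hempty
    have hK := h5 C h hS (by omega) ω hω ∅ (fun z hz => absurd ⟨z, hz⟩ hempty)
    simp at hK
  refine ⟨C.q + 1 + h, ?_, model C h hC hhp ω hX (h5 C h hS (by omega) ω hω)⟩
  have : C.p ≤ C.q := by
    show C.p ≤ C.p ^ 2
    exact Nat.le_self_pow (by norm_num) _
  omega

/-- The main theorem refutes Ryser's inequality. -/
theorem not_ryser_of_main (hm : MainStmt) :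
    ¬ ∀ r, 2 ≤ r → ∀ (m : ℕ) (part : Fin m → Fin r) (E : Finset (Finset (Fin m))),
      (∀ e ∈ E, ∀ i : Fin r, ∃! v, v ∈ e ∧ part v = i) →
      ∃ (T : Finset (Fin m)) (M : Finset (Finset (Fin m))),
        M ⊆ E ∧ (∀ e ∈ M, ∀ e' ∈ M, e ≠ e' → Disjoint e e') ∧
        (∀ e ∈ E, ∃ v ∈ T, v ∈ e) ∧ T.card ≤ (r - 1) * M.card := by
  intro H
  obtain ⟨r, hr, m, part, E, -, hpart, hint, hcov⟩ := hm 2
  obtain ⟨T, M, hME, hdis, hT, hle⟩ := H r hr m part E hpart
  have h1 : M.card ≤ 1 := by
    rw [Finset.card_le_one]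
    intro e he e' he'
    by_contra hne
    obtain ⟨v, hv, hv'⟩ := hint e (hME he) e' (hME he')
    exact Finset.disjoint_left.mp (hdis e he e' he' hne) hv hv'
  have h2 := hcov T hT
  have h3 : (r - 1) * M.card ≤ r - 1 :=
    (Nat.mul_le_mul_left (r - 1) h1).trans_eq (Nat.mul_one _)
  omega

end Vale.P045.Baer
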