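import Vale.Agent.P045.Baer.CaseP.Rest
import Vale.Agent.P045.Baer.CaseP.Final

/-!
# P045: no small cover has a very rich point

A very rich point leaves few lines outside its pencil, hence at most two missing lines of the
pencil (its lines in `A` and `B`); the class count on these two lines finishes.
-/

namespace Vale.P045.Baer

open Finset

/-- Arithmetic for the number of missing lines. -/
theorem caseP_lam {n l h R : ℝ} (hn : 0 < n) (hR : R ≤ l + h)
    (hW : 9 / 10 * n * l ≤ R * (n / 4)) : 26 * l ≤ 10 * h := by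
  have h1 := mul_le_mul_of_nonneg_right hR (by linarith : (0 : ℝ) ≤ n / 4)
  refine le_of_mul_le_mul_left ?_ hn
  linarith

theorem caseP (hp : PencilStmt) (hf : FactsStmt) (hc : CountStmt) : CasePStmt := by
  obtain ⟨P1, hrest⟩ := rest_le hp
  obtain ⟨P2, hc⟩ := hc
  obtain ⟨P3, hlg⟩ := lg_ge 1
  obtain ⟨P4, hpow⟩ := lg_pow_le 6000 30
  refine ⟨P1 + P2 + P3 + P4 + 1000000, fun C h _ _ hset hP ω hev K hK hKc z0 => ?_⟩
  classical
  by_contra hrich
  rw [not_lt] at hrich
  have : Fact h.Prime := ⟨hset.h_prime⟩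
  have hC := hset.valid
  have hF := hf C hC
  have hb := hev.basic
  obtain ⟨hlow, hupp, -, hovc⟩ := hc C h hset (by omega) ω hev K hK hKc
  set U := C.linesOf K with hUdef
  have hUo : U ⊆ C.ordinary := Finset.filter_subset _ _
  have hrestU := hrest C h hset (by omega) ω hev U hUo hovc z0 hrich
  set F := C.linesIn U z0 with hFdef
  have hFU : F ⊆ U := Finset.filter_subset _ _
  -- parameters
  have hp6 : (1000000 : ℝ) ≤ (C.p : ℝ) := by
    have : (1000000 : ℕ) ≤ C.p := by omega
    exact_mod_cast this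
  have hp0 : (0 : ℝ) < (C.p : ℝ) := by linarith
  have hL : 1 ≤ C.lg := hlg C (by omega)
  have hM := hpow C (by omega)
  have hhl : (C.p : ℝ) ≤ 4 * h := by exact_mod_cast hset.h_lower.le
  have hhu : 2 * (h : ℝ) ≤ (C.p : ℝ) := by exact_mod_cast hset.h_upper
  have hh0 : (0 : ℝ) < h := by linarith
  have hn : C.nn = (C.p : ℝ) ^ 2 / 128 := by rw [Cfg.nn, C.q_cast]
  have hn0 : 0 < C.nn := by rw [hn]; positivity
  have hpp : (1000000 : ℝ) * C.p ≤ (C.p : ℝ) ^ 2 := by
    rw [sq]; exact mul_le_mul_of_nonneg_right hp6 hp0.le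
  have hmu_mul : C.mu h * h = C.nn := by
    rw [Cfg.mu, div_mul_cancel₀ _ hh0.ne']
  have hmu0 : 0 ≤ C.mu h := by rw [Cfg.mu]; positivity
  have hmu_up : C.mu h ≤ (C.p : ℝ) / 32 := by
    rw [Cfg.mu, hn, div_le_div_iff₀ hh0 (by norm_num)]
    nlinarith
  have hmu_lo : (C.p : ℝ) / 64 ≤ C.mu h := by
    rw [Cfg.mu, hn, div_le_div_iff₀ (by norm_num) hh0]
    nlinarith
  set s := Real.sqrt (C.p : ℝ) with hs
  have hs0 : 0 ≤ s := Real.sqrt_nonneg _
  have hss : s * s = (C.p : ℝ) := Real.mul_self_sqrt hp0.le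
  have hs3 : 1000 ≤ s := by
    rw [hs, Real.le_sqrt' (by norm_num)]
    linarith
  have hsp : 1000 * s ≤ (C.p : ℝ) := by
    rw [← hss]; exact mul_le_mul_of_nonneg_right hs3 hs0
  have hL30 : C.lg ≤ C.lg ^ 30 := le_self_pow₀ hL (by norm_num)
  have hL2 : C.lg ^ 2 ≤ C.lg ^ 30 := pow_le_pow_right₀ hL (by norm_num)
  have hpL : (C.p : ℝ) * C.lg + 1 ≤ C.nn / 10 := by
    have h1 := mul_le_mul_of_nonneg_left (hL30.trans (show C.lg ^ 30 ≤ (C.p : ℝ) / 6000 by
      linarith)) hp0.le
    rw [hn]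
    linarith
  -- every line but `inf` carries many edges besides the centre
  have hload : ∀ l, l ≠ C.inf →
      9 / 10 * C.nn ≤ (((C.X ω ∩ C.pts l).erase z0).card : ℝ) := by
    intro l hl
    have h1 := (abs_le.1 (hb.load l hl)).1
    rw [C.sqrt_q] at h1
    have h2 : (C.X ω ∩ C.pts l).card ≤ ((C.X ω ∩ C.pts l).erase z0).card + 1 := by
      have h4 := Finset.pred_card_le_card_erase (s := C.X ω ∩ C.pts l) (a := z0)
      omega
    have h3 : (C.load ω l : ℝ) ≤ (((C.X ω ∩ C.pts l).erase z0).card : ℝ) + 1 := by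
      exact_mod_cast h2
    linarith
  -- the pencil
  set T := (univ : Finset C.Ln).filter fun l => z0 ∈ C.pts l with hT
  have hTcard : T.card = C.q + 1 := hC.card_thru z0
  have hFT : F ⊆ T := fun l hl =>
    Finset.mem_filter.2 ⟨Finset.mem_univ _, (Finset.mem_filter.1 hl).2⟩
  set P0 := (T \ F).erase C.inf with hP0
  have hinfF : C.inf ∉ F := fun hh => (Finset.mem_filter.1 (hUo (hFU hh))).2.2.2 rfl
  have hTF : (T \ F).card + F.card = C.q + 1 := by
    rw [Finset.card_sdiff_add_card_eq_card hFT, hTcard]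
  have hP0mem : ∀ l, l ∈ P0 ↔ l ≠ C.inf ∧ z0 ∈ C.pts l ∧ l ∉ F := by
    intro l
    simp [hP0, hT]
  have hP0up : P0.card ≤ (T \ F).card := Finset.card_le_card (Finset.erase_subset _ _)
  have hP0lo : (T \ F).card ≤ P0.card + 1 := by
    have h4 := Finset.pred_card_le_card_erase (s := T \ F) (a := C.inf)
    rw [← hP0] at h4
    omega
  have hP0fin : z0 ∉ C.pts C.inf → (T \ F).card = P0.card := fun hfin => by
    rw [hP0, Finset.erase_eq_of_notMem]
    simp [hT, hfin]
  -- the other vertices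
  set R := K \ F.image Sum.inl with hRdef
  have hFK : (F.image Sum.inl : Finset (Vx C h)) ⊆ K := by
    intro x hx
    obtain ⟨l, hl, rfl⟩ := Finset.mem_image.1 hx
    exact (Finset.mem_filter.1 (hFU hl)).2
  have hRcard : R.card + F.card = K.card := by
    have h1 := Finset.card_sdiff_add_card_eq_card hFK
    rwa [Finset.card_image_of_injective _ Sum.inl_injective] at h1
  have hlines : ∀ m, (Sum.inl m : Vx C h) ∈ R → m ∈ C.ordinary → z0 ∉ C.pts m := by
    intro m hm hmo hz
    obtain ⟨hmK, hmF⟩ := Finset.mem_sdiff.1 hm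
    exact hmF (Finset.mem_image_of_mem _
      (Finset.mem_filter.2 ⟨Finset.mem_filter.2 ⟨hmo, hmK⟩, hz⟩))
  have hcovP : ∀ l ∈ P0, ∀ z ∈ C.X ω, z ≠ z0 → z ∈ C.pts l → ∃ x ∈ R, C.Mem ω z x := by
    intro l hl z hzX hne hzl
    obtain ⟨x, hx, hxm⟩ := hK z hzX
    refine ⟨x, Finset.mem_sdiff.2 ⟨hx, fun hxF => ?_⟩, hxm⟩
    obtain ⟨m, hm, rfl⟩ := Finset.mem_image.1 hxF
    obtain ⟨-, hl0, hlF⟩ := (hP0mem l).1 hl
    exact hne ((hC.meet l m (fun e => hlF (e ▸ hm))).unique ⟨hzl, hxm.2⟩
      ⟨hl0, (Finset.mem_filter.1 hm).2⟩)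
  -- few missing lines
  have hlam_big : (P0.card : ℝ) ≤ 3 * ((C.p : ℝ) * C.lg ^ 30) := by
    rw [C.sqrt_q, C.q_cast] at hlow
    have h1 : (P0.card : ℝ) + (F.card : ℝ) ≤ (C.p : ℝ) ^ 2 + 1 := by
      rw [← C.q_cast]
      exact_mod_cast (show P0.card + F.card ≤ C.q + 1 by omega)
    have h2 : ((U \ F).card : ℝ) + (F.card : ℝ) = (U.card : ℝ) := by
      exact_mod_cast Finset.card_sdiff_add_card_eq_card hFU
    have h3 : (1 : ℝ) ≤ (C.p : ℝ) * C.lg ^ 30 :=
      one_le_mul_of_one_le_of_one_le (by linarith) (hL.trans hL30)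
    linarith [mul_le_mul_of_nonneg_left hL2 hp0.le]
  have hlam_n : (P0.card : ℝ) ≤ C.nn / 4 := by
    refine hlam_big.trans ?_
    have h1 := mul_le_mul_of_nonneg_left hM hp0.le
    rw [hn]
    linarith
  have hR_le : (R.card : ℝ) ≤ (P0.card : ℝ) + h := by
    exact_mod_cast (show R.card ≤ P0.card + h by omega)
  have hsmall : 26 * (P0.card : ℝ) ≤ 10 * h := by
    refine caseP_lam hn0 hR_le ?_
    set W := P0.biUnion fun l => (C.X ω ∩ C.pts l).erase z0 with hW
    have hdis : (P0 : Set C.Ln).PairwiseDisjoint fun l => (C.X ω ∩ C.pts l).erase z0 := by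
      intro l hl l' hl' hne
      refine Finset.disjoint_left.2 fun z hz hz' => ?_
      simp only [Finset.mem_erase, Finset.mem_inter] at hz hz'
      exact hz.1 ((hC.meet l l' hne).unique ⟨hz.2.2, hz'.2.2⟩
        ⟨((hP0mem l).1 hl).2.1, ((hP0mem l').1 hl').2.1⟩)
    have hlowW : 9 / 10 * C.nn * (P0.card : ℝ) ≤ (W.card : ℝ) := by
      rw [hW, Finset.card_biUnion hdis, Nat.cast_sum, mul_comm, ← nsmul_eq_mul]
      exact Finset.card_nsmul_le_sum _ _ _ fun l hl => hload l ((hP0mem l).1 hl).1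
    refine hlowW.trans (Cfg.cover_card_le W R (Cfg.items ω) _ ?_ ?_)
    · intro z hz
      obtain ⟨l, hl, hzl⟩ := Finset.mem_biUnion.1 hz
      simp only [Finset.mem_erase, Finset.mem_inter] at hzl
      obtain ⟨x, hx, hxm⟩ := hcovP l hl z hzl.2.1 hzl.1 hzl.2.2
      exact ⟨x, hx, Finset.mem_filter.2 ⟨hzl.2.1, hxm⟩⟩
    · intro x hx
      rcases x with m | ⟨g, v⟩ | ⟨j, c, v, v'⟩
      · by_cases hm : m ∈ C.ordinary
        · have hz0m := hlines m hx hm
          refine le_trans ?_ hlam_n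
          refine Nat.cast_le.2 ?_
          refine (Finset.card_le_card (t := P0.biUnion fun l => C.pts l ∩ C.pts m) ?_).trans
            ((Finset.card_biUnion_le_card_mul _ _ 1 fun l hl => ?_).trans_eq (Nat.mul_one _))
          · intro z hz
            simp only [Cfg.items, hW, Finset.mem_inter, Finset.mem_filter, Finset.mem_biUnion,
              Finset.mem_erase] at hz ⊢
            obtain ⟨⟨-, -, hzm⟩, l, hl, -, -, hzl⟩ := hz
            exact ⟨l, hl, hzl, hzm⟩
          · refine Finset.card_le_one.2 fun z hz z' hz' => ?_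
            rw [Finset.mem_inter] at hz hz'
            exact (hC.meet l m fun e => hz0m (e ▸ ((hP0mem l).1 hl).2.1)).unique hz hz'
        · rw [Cfg.items_inl hm, Finset.empty_inter, Finset.card_empty, Nat.cast_zero]
          positivity
      · refine le_trans (Nat.cast_le.2 (Finset.card_le_card Finset.inter_subset_left))
          ((Cfg.items_own hF hC.disj hb hmu0 g v).trans ?_)
        rw [hn]
        linarith
      · refine le_trans (Nat.cast_le.2 (Finset.card_le_card Finset.inter_subset_left))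
          ((Cfg.items_box hF hb j c v v').trans ?_)
        rw [hn]
        linarith [mul_le_mul hmu_up hmu_up hmu0 (by positivity), sq_nonneg (C.p : ℝ)]
  -- the centre is simple
  have hAB : ∀ S : Finset C.Ln, C.IsBaer S → S ⊆ C.A ∪ C.B → C.deg S z0 = 1 := by
    intro S hS hSsub
    have h1 := hS.cover z0
    by_contra hne
    have h2 := hS.special_deg z0 (by omega)
    have hsub : C.linesIn S z0 ⊆ P0 := by
      intro l hl
      obtain ⟨hlS, hlz⟩ := Finset.mem_filter.1 hl
      refine (hP0mem l).2 ⟨?_, hlz, fun hlF => ?_⟩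
      · intro e
        rcases Finset.mem_union.1 (hSsub hlS) with h | h
        · exact hC.inf_notA (e ▸ h)
        · exact hC.inf_notB (e ▸ h)
      · obtain ⟨hlA, hlB, -⟩ := (Finset.mem_filter.1 (hUo (hFU hlF))).2
        rcases Finset.mem_union.1 (hSsub hlS) with h | h
        · exact hlA h
        · exact hlB h
    have h3 : C.p + 1 ≤ P0.card := h2 ▸ Finset.card_le_card hsub
    have h4 : (C.p : ℝ) + 1 ≤ (P0.card : ℝ) := by exact_mod_cast h3
    linarith
  have hA1 := hAB C.A hC.baerA Finset.subset_union_left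
  have hB1 := hAB C.B hC.baerB Finset.subset_union_right
  set a0 := C.aOf z0
  set b0 := C.bOf z0
  obtain ⟨haA, hza⟩ := hF.aOf_mem z0
  obtain ⟨hbB, hzb⟩ := hF.bOf_mem z0
  have hainf : a0 ≠ C.inf := fun e => hC.inf_notA (e ▸ haA)
  have hbinf : b0 ≠ C.inf := fun e => hC.inf_notB (e ▸ hbB)
  have haP : a0 ∈ P0 := (hP0mem a0).2 ⟨hainf, hza, fun hh =>
    (Finset.mem_filter.1 (hUo (hFU hh))).2.1 haA⟩
  have hbP : b0 ∈ P0 := (hP0mem b0).2 ⟨hbinf, hzb, fun hh =>
    (Finset.mem_filter.1 (hUo (hFU hh))).2.2.1 hbB⟩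
  -- no third missing line
  have htwo : P0 ⊆ {a0, b0} := by
    intro l hl
    by_contra hne
    simp only [Finset.mem_insert, Finset.mem_singleton, not_or] at hne
    obtain ⟨hlinf, hlz, hlF⟩ := (hP0mem l).1 hl
    have hlo : l ∈ C.ordinary := by
      refine Finset.mem_filter.2 ⟨Finset.mem_univ _, fun hh => ?_, fun hh => ?_, hlinf⟩
      · exact hne.1 (hF.aOf_unique z0 hA1 l hh hlz).symm
      · exact hne.2 (hF.bOf_unique z0 hB1 l hh hlz).symm
    have hle := Cfg.cover_card_le ((C.X ω ∩ C.pts l).erase z0) R (Cfg.items ω) s ?_ ?_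
    · have h1 := hload l hlinf
      have h2 : (R.card : ℝ) * s ≤ (C.p : ℝ) * s :=
        mul_le_mul_of_nonneg_right (by linarith) hs0
      have h3 := mul_le_mul_of_nonneg_left hsp hp0.le
      have h4 : (0 : ℝ) < (C.p : ℝ) ^ 2 := by positivity
      rw [hn] at h1
      linarith
    · intro z hz
      simp only [Finset.mem_erase, Finset.mem_inter] at hz
      obtain ⟨x, hx, hxm⟩ := hcovP l hl z hz.2.1 hz.1 hz.2.2
      exact ⟨x, hx, Finset.mem_filter.2 ⟨hz.2.1, hxm⟩⟩
    · intro x hx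
      have hpt : ∀ g, g ≠ l → (Cfg.items ω x ∩ (C.X ω ∩ C.pts l).erase z0 ⊆ C.pts g) →
          ((Cfg.items ω x ∩ (C.X ω ∩ C.pts l).erase z0).card : ℝ) ≤ s := by
        intro g hg hsub
        have h1 : (Cfg.items ω x ∩ (C.X ω ∩ C.pts l).erase z0).card ≤ 1 := by
          refine Finset.card_le_one.2 fun z hz z' hz' => ?_
          have hzl := (Finset.mem_inter.1 (Finset.mem_of_mem_erase (Finset.mem_inter.1 hz).2)).2
          have hzl' := (Finset.mem_inter.1 (Finset.mem_of_mem_erase (Finset.mem_inter.1 hz').2)).2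
          exact (hC.meet g l hg).unique ⟨hsub hz, hzl⟩ ⟨hsub hz', hzl'⟩
        have h2 : ((Cfg.items ω x ∩ (C.X ω ∩ C.pts l).erase z0).card : ℝ) ≤ 1 := by
          exact_mod_cast h1
        linarith
      rcases x with m | ⟨g, v⟩ | ⟨j, c, v, v'⟩
      · by_cases hm : m ∈ C.ordinary
        · refine hpt m (fun e => hlines m hx hm (e ▸ hlz)) fun z hz => ?_
          exact (Finset.mem_filter.1 (Finset.mem_inter.1 hz).1).2.2
        · rw [Cfg.items_inl hm, Finset.empty_inter, Finset.card_empty, Nat.cast_zero]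
          exact hs0
      · by_cases hgl : g = l
        · have hempty : Cfg.items ω (Sum.inr (Sum.inl (g, v)) : Vx C h) = ∅ := by
            rw [Cfg.items, Finset.filter_eq_empty_iff]
            rintro z - (⟨hA, -⟩ | ⟨hB, -⟩)
            · exact (Finset.mem_filter.1 hlo).2.1 (hgl ▸ hA)
            · exact (Finset.mem_filter.1 hlo).2.2.1 (hgl ▸ hB)
          rw [hempty, Finset.empty_inter, Finset.card_empty, Nat.cast_zero]
          exact hs0
        · refine hpt g hgl fun z hz => ?_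
          rcases (Finset.mem_filter.1 (Finset.mem_inter.1 hz).1).2 with ⟨-, e, -⟩ | ⟨-, e, -⟩
          · exact e ▸ (hF.aOf_mem z).2
          · exact e ▸ (hF.bOf_mem z).2
      · refine le_trans (Nat.cast_le.2 (Finset.card_le_card ?_)) (hb.box l hlo j c v v')
        intro z hz
        obtain ⟨h1, h2⟩ := Finset.mem_inter.1 hz
        exact Finset.mem_filter.2
          ⟨Finset.mem_of_mem_erase h2, (Finset.mem_filter.1 h1).2⟩
  have hlam2 : P0.card ≤ 2 := (Finset.card_le_card htwo).trans Finset.card_le_two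
  refine Cfg.two_lines_false hC hF hb z0 a0 b0 haA hbB hza hzb hA1 hB1 R (by omega)
    (fun hfin => by have := hP0fin hfin; omega) hlines ?_ ?_ ?_ ?_
  · rintro z hzX hne (hzl | hzl)
    · exact hcovP a0 haP z hzX hne hzl
    · exact hcovP b0 hbP z hzX hne hzl
  · rintro l (rfl | rfl)
    · exact hload _ hainf
    · exact hload _ hbinf
  · linarith
  · have h1 := mul_le_mul_of_nonneg_right hs3 hs0
    linarith

end Vale.P045.Baer
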