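import Vale.Agent.P045.Baer.Large

/-!
Counting for a cover of size at most `q + h`: it consists almost entirely of lines, and its
excess is controlled by the deviation of the loads of these lines.
-/

namespace Vale.P045.Baer

open Finset

namespace Cfg

variable {C : Cfg} {h : ℕ} {ω : Omega C h}

open Classical in
/-- The edges covered by a vertex. -/
noncomputable def items (ω : Omega C h) (x : Vx C h) : Finset C.Pt :=
  (C.X ω).filter fun z => C.Mem ω z x

lemma mem_X {z : C.Pt} : z ∈ C.X ω ↔ z ∈ C.good ∧ ω.1 (C.v1 z) = ω.1 (C.v2 z) + c0 :=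
  Finset.mem_filter

lemma items_inl {l : C.Ln} (hl : l ∉ C.ordinary) : items ω (Sum.inl l : Vx C h) = ∅ := by
  classical
  rw [items, Finset.filter_eq_empty_iff]
  exact fun z _ hz => hl hz.1

/-- An own vertex covers at most `21 / 20 · mu` edges. -/
lemma items_own (hf : Facts C) (hd : Disjoint C.A C.B) (hev : C.EvBasic ω) (hmu : 0 ≤ C.mu h)
    (l : C.Ln) (v : ZMod h) :
    ((items ω (Sum.inr (Sum.inl (l, v)) : Vx C h)).card : ℝ) ≤ 21 / 20 * C.mu h := by
  classical
  by_cases hl : l ∈ C.A ∪ C.B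
  · have hsub : items ω (Sum.inr (Sum.inl (l, v)) : Vx C h) ⊆
        (C.X ω ∩ C.pts l).filter fun z => form none (ω.2 (C.other l z)) = v := by
      intro z hz
      rw [items, Finset.mem_filter] at hz
      obtain ⟨hzX, hzm⟩ := hz
      rcases hzm with ⟨hA, ha, hv⟩ | ⟨hB, hb, hv⟩
      · refine Finset.mem_filter.2 ⟨Finset.mem_inter.2 ⟨hzX, ha ▸ (hf.aOf_mem z).2⟩, ?_⟩
        rwa [other, if_pos hA]
      · refine Finset.mem_filter.2 ⟨Finset.mem_inter.2 ⟨hzX, hb ▸ (hf.bOf_mem z).2⟩, ?_⟩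
        rwa [other, if_neg (Finset.disjoint_right.1 hd hB)]
    have h1 := (abs_le.1 (hev.cls l hl none v)).2
    have h2 : ((items ω (Sum.inr (Sum.inl (l, v)) : Vx C h)).card : ℝ) ≤ _ :=
      Nat.cast_le.2 (Finset.card_le_card hsub)
    linarith
  · have hempty : items ω (Sum.inr (Sum.inl (l, v)) : Vx C h) = ∅ := by
      rw [items, Finset.filter_eq_empty_iff]
      rintro z _ (⟨hA, -⟩ | ⟨hB, -⟩)
      · exact hl (Finset.mem_union_left _ hA)
      · exact hl (Finset.mem_union_right _ hB)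
    rw [hempty]
    simpa using mul_nonneg (by norm_num : (0 : ℝ) ≤ 21 / 20) hmu

/-- A box covers at most `(21 / 20 · mu) ^ 2` edges. -/
lemma items_box (hf : Facts C) (hev : C.EvBasic ω) (j : ZMod h) (c : Gam) (v v' : ZMod h) :
    ((items ω (Sum.inr (Sum.inr (j, c, v, v')) : Vx C h)).card : ℝ) ≤
      (21 / 20 * C.mu h) * (21 / 20 * C.mu h) := by
  classical
  set SA := C.A.filter fun a => C.colA ω a = c ∧ form (some j) (ω.2 a) = v
  set SB := C.B.filter fun b => C.colB ω b = c ∧ form (some j) (ω.2 b) = v'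
  have hle : (items ω (Sum.inr (Sum.inr (j, c, v, v')) : Vx C h)).card ≤ (SA ×ˢ SB).card := by
    refine Finset.card_le_card_of_injOn (fun z => (C.aOf z, C.bOf z)) ?_ ?_
    · intro z hz
      simp only [Finset.mem_coe, items, Finset.mem_filter] at hz
      obtain ⟨hzX, hc, hv, hv'⟩ := hz
      simp only [Finset.mem_coe, Finset.mem_product, SA, SB, Finset.mem_filter]
      refine ⟨⟨(hf.aOf_mem z).1, hc, hv⟩, (hf.bOf_mem z).1, ?_, hv'⟩
      exact (mem_X.1 hzX).2.symm.trans hc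
    · intro z hz w hw he
      simp only [Finset.mem_coe, items, Finset.mem_filter] at hz hw
      simp only [Prod.mk.injEq] at he
      exact hf.pair_inj z (mem_X.1 hz.1).1 w (mem_X.1 hw.1).1 he.1 he.2
  have h1 : ((items ω (Sum.inr (Sum.inr (j, c, v, v')) : Vx C h)).card : ℝ) ≤
      (SA.card : ℝ) * SB.card := by
    rw [← Nat.cast_mul, ← Finset.card_product]
    exact Nat.cast_le.2 hle
  exact h1.trans (mul_le_mul (hev.clsA c (some j) v) (hev.clsB c (some j) v')
    (Nat.cast_nonneg _) ((Nat.cast_nonneg _).trans (hev.clsA c (some j) v)))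

open Classical in
lemma card_linesOf_add (K : Finset (Vx C h)) :
    (C.linesOf K).card + (K \ (C.linesOf K).image Sum.inl).card = K.card := by
  classical
  have hsub : ((C.linesOf K).image Sum.inl : Finset (Vx C h)) ⊆ K := by
    intro x hx
    obtain ⟨l, hl, rfl⟩ := Finset.mem_image.1 hx
    exact (Finset.mem_filter.1 hl).2
  have h2 := Finset.card_le_card hsub
  have hc : ((C.linesOf K).image Sum.inl : Finset (Vx C h)).card = (C.linesOf K).card :=
    Finset.card_image_of_injective _ Sum.inl_injective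
  rw [Finset.card_sdiff_of_subset hsub, hc]
  omega

open Classical in
/-- Edges plus excess are counted by the lines and the other vertices of a cover. -/
lemma card_X_add_Ov_le (K : Finset (Vx C h)) (hK : C.IsCover ω K) :
    (C.X ω).card + C.Ov ω (C.linesOf K) ≤
      (∑ l ∈ C.linesOf K, C.load ω l) +
        ∑ x ∈ K \ (C.linesOf K).image Sum.inl, (items ω x).card := by
  classical
  set U := C.linesOf K
  set R := K \ U.image Sum.inl
  have e1 : (∑ l ∈ U, C.load ω l) = ∑ z ∈ C.X ω, C.f U z := by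
    have := Finset.sum_card_bipartiteAbove_eq_sum_card_bipartiteBelow
      (fun (z : C.Pt) l => z ∈ C.pts l) (s := C.X ω) (t := U)
    simp only [Finset.bipartiteAbove, Finset.bipartiteBelow] at this
    simp only [load, f, deg, linesIn]
    rw [this]
    exact Finset.sum_congr rfl fun l _ => by rw [Finset.filter_mem_eq_inter]
  have e2 : (∑ x ∈ R, (items ω x).card) = ∑ z ∈ C.X ω, (R.filter fun x => C.Mem ω z x).card := by
    simp only [items]
    exact (Finset.sum_card_bipartiteAbove_eq_sum_card_bipartiteBelow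
      (fun (z : C.Pt) x => C.Mem ω z x) (s := C.X ω) (t := R)).symm
  rw [e1, e2, Ov, Finset.card_eq_sum_ones, ← Finset.sum_add_distrib, ← Finset.sum_add_distrib]
  refine Finset.sum_le_sum fun z hz => ?_
  rcases Nat.eq_zero_or_pos (C.f U z) with h0 | h0
  · obtain ⟨x, hx, hxm⟩ := hK z hz
    have hxR : x ∈ R := by
      refine Finset.mem_sdiff.2 ⟨hx, fun hxU => ?_⟩
      obtain ⟨l, hl, rfl⟩ := Finset.mem_image.1 hxU
      have : 0 < C.f U z := Finset.card_pos.2 ⟨l, Finset.mem_filter.2 ⟨hl, hxm.2⟩⟩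
      omega
    have : 0 < (R.filter fun x => C.Mem ω z x).card :=
      Finset.card_pos.2 ⟨x, Finset.mem_filter.2 ⟨hxR, hxm⟩⟩
    omega
  · omega

end Cfg

/-- Counting for a small cover. -/
theorem count (hf : FactsStmt) : CountStmt := by
  obtain ⟨P1, hlg⟩ := lg_ge 600
  refine ⟨P1 + 100, fun C h _ _ hset hp ω hev K hK hKc => ?_⟩
  classical
  have hF := hf C hset.valid
  have hb := hev.basic
  set U := C.linesOf K with hUdef
  set R := K \ U.image Sum.inl with hRdef
  have hKcard := Cfg.card_linesOf_add K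
  rw [← hUdef, ← hRdef] at hKcard
  -- the real parameters
  have hL : 600 ≤ C.lg := hlg C (by omega)
  have hp100 : (100 : ℝ) ≤ (C.p : ℝ) := by
    have : 100 ≤ C.p := by omega
    exact_mod_cast this
  have hhl : (C.p : ℝ) ≤ 4 * h := by exact_mod_cast hset.h_lower.le
  have hhu : 2 * (h : ℝ) ≤ C.p := by exact_mod_cast hset.h_upper
  have hn : C.nn = (C.p : ℝ) ^ 2 / 128 := by rw [Cfg.nn, C.q_cast]
  have hh0 : (0 : ℝ) < h := by linarith
  have hmu0 : 0 ≤ C.mu h := by rw [Cfg.mu, hn]; positivity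
  have hmu : C.mu h ≤ (C.p : ℝ) / 32 := by
    rw [Cfg.mu, hn, div_le_div_iff₀ hh0 (by norm_num)]
    nlinarith
  -- every other vertex covers at most `n / 4` edges
  have hR : ∀ x ∈ R, ((Cfg.items ω x).card : ℝ) ≤ C.nn / 4 := by
    intro x hx
    rcases x with l | ⟨l, v⟩ | ⟨j, c, v, v'⟩
    · have hl : l ∉ C.ordinary := fun hl => (Finset.mem_sdiff.1 hx).2
        (Finset.mem_image.2 ⟨l, Finset.mem_filter.2 ⟨hl, (Finset.mem_sdiff.1 hx).1⟩, rfl⟩)
      rw [Cfg.items_inl hl, Finset.card_empty, hn]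
      simp only [Nat.cast_zero]
      positivity
    · refine (Cfg.items_own hF hset.valid.disj hb hmu0 l v).trans ?_
      rw [hn]
      nlinarith
    · refine (Cfg.items_box hF hb j c v v').trans ?_
      rw [hn]
      nlinarith [mul_le_mul hmu hmu hmu0 (by positivity)]
  -- the main inequality
  have hmain : ((C.X ω).card : ℝ) + (C.Ov ω U : ℝ) ≤
      (U.card : ℝ) * C.nn + C.Dev ω U + (R.card : ℝ) * (C.nn / 4) := by
    have h1 : ((C.X ω).card : ℝ) + (C.Ov ω U : ℝ) ≤
        (∑ l ∈ U, (C.load ω l : ℝ)) + ∑ x ∈ R, ((Cfg.items ω x).card : ℝ) := by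
      exact_mod_cast Cfg.card_X_add_Ov_le K hK
    have h2 := Finset.sum_le_card_nsmul R _ _ hR
    have h3 : C.Dev ω U = (∑ l ∈ U, (C.load ω l : ℝ)) - (U.card : ℝ) * C.nn := by
      rw [Cfg.Dev, Finset.sum_sub_distrib, Finset.sum_const, nsmul_eq_mul]
    rw [nsmul_eq_mul] at h2
    linarith
  have hUq : U.card ≤ C.q + h := by omega
  have hUR : (U.card : ℝ) + R.card ≤ (C.p : ℝ) ^ 2 + h := by
    rw [← C.q_cast]; exact_mod_cast (show U.card + R.card ≤ C.q + h by omega)
  have hmass := (abs_le.1 hb.mass).1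
  have hdev : C.Dev ω U ≤ (U.card : ℝ) * ((C.p : ℝ) * C.lg) := by
    rw [← nsmul_eq_mul]
    refine Finset.sum_le_card_nsmul U _ _ fun l hl => ?_
    have hlo : l ≠ C.inf := (Finset.mem_filter.1 (Finset.mem_filter.1 hl).1).2.2.2
    have h := (abs_le.1 (hb.load l hlo)).2
    rwa [C.sqrt_q] at h
  have hs0 := Real.sqrt_nonneg (C.p : ℝ)
  have hsp : Real.sqrt (C.p : ℝ) ≤ C.p := by
    rw [Real.sqrt_le_left (by linarith)]
    nlinarith
  have hOv0 : (0 : ℝ) ≤ C.Ov ω U := Nat.cast_nonneg _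
  have hU0 : (0 : ℝ) ≤ U.card := Nat.cast_nonneg _
  have hR0 : (0 : ℝ) ≤ R.card := Nat.cast_nonneg _
  rw [C.q_cast, hn] at hmass
  rw [hn] at hmain
  -- lower bound on the number of lines
  have hlower : (C.p : ℝ) ^ 2 ≤ (U.card : ℝ) + C.p * C.lg ^ 2 := by
    have hu2 : (U.card : ℝ) ≤ 2 * (C.p : ℝ) ^ 2 := by nlinarith
    have h5 := mul_le_mul_of_nonneg_right hu2 (by positivity : 0 ≤ (C.p : ℝ) * C.lg)
    have h6 := mul_le_mul_of_nonneg_right hUR (by positivity : (0 : ℝ) ≤ (C.p : ℝ) ^ 2 / 512)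
    have h7 : (C.p : ℝ) ^ 2 * ((C.p : ℝ) ^ 2 - U.card) ≤
        (C.p : ℝ) ^ 2 * (171 * C.p + 342 * (C.p * C.lg) + h) := by
      have h8 := mul_le_mul_of_nonneg_left hsp (sq_nonneg (C.p : ℝ))
      have h9 : (0 : ℝ) ≤ (C.p : ℝ) ^ 2 * h := by positivity
      have h10 : (0 : ℝ) ≤ (C.p : ℝ) ^ 3 := by positivity
      have h11 : (0 : ℝ) ≤ (C.p : ℝ) ^ 3 * C.lg := by positivity
      linarith
    have h12 := le_of_mul_le_mul_left h7 (by positivity)
    have h13 : 600 * ((C.p : ℝ) * C.lg) ≤ C.lg * ((C.p : ℝ) * C.lg) :=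
      mul_le_mul_of_nonneg_right hL (by positivity)
    have h14 : 600 * (C.p : ℝ) ≤ C.lg * C.p := mul_le_mul_of_nonneg_right hL (by positivity)
    linarith
  have hov : (C.Ov ω U : ℝ) ≤
      (h : ℝ) * ((C.p : ℝ) ^ 2 / 128) + C.Dev ω U + (C.p : ℝ) ^ 2 * Real.sqrt C.p := by
    have h6 := mul_le_mul_of_nonneg_right hUR (by positivity : (0 : ℝ) ≤ (C.p : ℝ) ^ 2 / 128)
    have h7 : (0 : ℝ) ≤ (R.card : ℝ) * (C.p : ℝ) ^ 2 := by positivity
    linarith
  refine ⟨?_, hUq, ?_, ?_⟩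
  · rwa [C.sqrt_q, C.q_cast]
  · rwa [hn, C.q_cast]
  · rw [C.sqrt_q, C.q_cast]
    have hu : (U.card : ℝ) ≤ (C.p : ℝ) ^ 2 + h := by linarith
    have h5 := mul_le_mul_of_nonneg_right hu (by positivity : 0 ≤ (C.p : ℝ) * C.lg)
    have h6 := mul_le_mul_of_nonneg_left hsp (sq_nonneg (C.p : ℝ))
    have h7 := mul_le_mul_of_nonneg_left hhu (sq_nonneg (C.p : ℝ))
    have h8 : (h : ℝ) * ((C.p : ℝ) * C.lg) ≤ (C.p : ℝ) ^ 2 * C.lg / 2 := by nlinarith
    have h9 : 600 * (C.p : ℝ) ^ 3 ≤ C.lg * (C.p : ℝ) ^ 3 :=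
      mul_le_mul_of_nonneg_right hL (by positivity)
    have h10 : (C.p : ℝ) ^ 2 * C.lg * 100 ≤ (C.p : ℝ) ^ 2 * C.lg * C.p :=
      mul_le_mul_of_nonneg_left hp100 (by positivity)
    linarith

end Vale.P045.Baer
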