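import Mathlib

/-!
# P045: disproof of Ryser's conjecture - basic definitions

See scratch/P045Baer/PROOF16.md (branch helper16) for the proof plan.
-/

namespace Vale.P045.Baer

open Finset

/-- A projective plane of order `q = p ^ 2` with two Baer line sets and a further line. -/
structure Cfg where
  p : ℕ
  Pt : Type
  Ln : Type
  [fPt : Fintype Pt]
  [fLn : Fintype Ln]
  [dPt : DecidableEq Pt]
  [dLn : DecidableEq Ln]
  pts : Ln → Finset Pt
  A : Finset Ln
  B : Finset Ln
  inf : Ln

attribute [instance] Cfg.fPt Cfg.fLn Cfg.dPt Cfg.dLn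

/-- The colour group, with 128 elements. -/
abbrev Gam : Type := Fin 7 → ZMod 2

/-- A nonzero colour shift. -/
def c0 : Gam := fun _ => 1

namespace Cfg

variable (C : Cfg)

/-- The order of the plane. -/
def q : ℕ := C.p ^ 2

/-- Lines of `S` through a point. -/
def linesIn (S : Finset C.Ln) (z : C.Pt) : Finset C.Ln := S.filter fun l => z ∈ C.pts l

/-- Number of lines of `S` through a point. -/
def deg (S : Finset C.Ln) (z : C.Pt) : ℕ := (C.linesIn S z).card

/-- Axioms for one Baer line set. -/
structure IsBaer (S : Finset C.Ln) : Prop where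
  card_eq : S.card = C.q + C.p + 1
  cover : ∀ z, 1 ≤ C.deg S z
  special_deg : ∀ z, 2 ≤ C.deg S z → C.deg S z = C.p + 1
  card_special : (univ.filter fun z => 2 ≤ C.deg S z).card = C.q + C.p + 1
  special_out : ∀ l, l ∉ S → ((C.pts l).filter fun z => 2 ≤ C.deg S z).card ≤ 1
  special_in : ∀ l ∈ S, ((C.pts l).filter fun z => 2 ≤ C.deg S z).card = C.p + 1

/-- All axioms on a configuration. -/
structure Valid : Prop where
  p_prime : C.p.Prime
  card_pt : Fintype.card C.Pt = C.q ^ 2 + C.q + 1
  card_ln : Fintype.card C.Ln = C.q ^ 2 + C.q + 1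
  card_pts : ∀ l, (C.pts l).card = C.q + 1
  card_thru : ∀ z, C.deg univ z = C.q + 1
  join : ∀ z w, z ≠ w → ∃! l, z ∈ C.pts l ∧ w ∈ C.pts l
  meet : ∀ l m, l ≠ m → ∃! z, z ∈ C.pts l ∧ z ∈ C.pts m
  baerA : C.IsBaer C.A
  baerB : C.IsBaer C.B
  disj : Disjoint C.A C.B
  inf_notA : C.inf ∉ C.A
  inf_notB : C.inf ∉ C.B

open Classical in
/-- A line of `A` through a point. -/
noncomputable def aOf (z : C.Pt) : C.Ln :=
  if h : (C.linesIn C.A z).Nonempty then h.choose else C.inf

open Classical in
/-- A line of `B` through a point. -/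
noncomputable def bOf (z : C.Pt) : C.Ln :=
  if h : (C.linesIn C.B z).Nonempty then h.choose else C.inf

open Classical in
/-- The meeting point of two lines (arbitrary for equal lines). -/
noncomputable def meetPt [Nonempty C.Pt] (l m : C.Ln) : C.Pt :=
  if h : (C.pts l ∩ C.pts m).Nonempty then h.choose else Classical.arbitrary C.Pt

open Classical in
/-- The line through two points (arbitrary for equal points). -/
noncomputable def joinLn (z w : C.Pt) : C.Ln :=
  if h : ∃ l, z ∈ C.pts l ∧ w ∈ C.pts l then h.choose else C.inf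

/-- A point off both special point sets. -/
def Simple (z : C.Pt) : Prop := C.deg C.A z = 1 ∧ C.deg C.B z = 1

/-- Good points: finite and simple. -/
def good : Finset C.Pt :=
  univ.filter fun z => z ∉ C.pts C.inf ∧ C.deg C.A z = 1 ∧ C.deg C.B z = 1

/-- Ordinary lines: those that may be vertices as whole lines. -/
def ordinary : Finset C.Ln := univ.filter fun l => l ∉ C.A ∧ l ∉ C.B ∧ l ≠ C.inf

/-- Random coordinates. -/
abbrev Var : Type := C.Ln ⊕ C.Ln

open Classical in
/-- The coordinate attached to a line of `B`. -/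
noncomputable def var (b : C.Ln) : C.Var :=
  if h : ∃ w, w ∈ C.pts b ∧ w ∈ C.pts C.inf ∧ C.deg C.A w = 1 ∧ C.deg C.B w = 1
    then Sum.inl (C.aOf h.choose) else Sum.inr b

/-- The first coordinate of a point. -/
noncomputable def v1 (z : C.Pt) : C.Var := Sum.inl (C.aOf z)

/-- The second coordinate of a point. -/
noncomputable def v2 (z : C.Pt) : C.Var := C.var (C.bOf z)

/-- Number of lines of `U` through a point. -/
def f (U : Finset C.Ln) (z : C.Pt) : ℕ := C.deg U z

end Cfg

/-- The random data. -/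
abbrev Omega (C : Cfg) (h : ℕ) : Type := (C.Var → Gam) × (C.Ln → ZMod h × ZMod h)

namespace Cfg

variable (C : Cfg) {h : ℕ} (ω : Omega C h)

/-- Colour of a line of `A`. -/
def colA (a : C.Ln) : Gam := ω.1 (Sum.inl a)

/-- Colour of a line of `B`. -/
noncomputable def colB (b : C.Ln) : Gam := ω.1 (C.var b) + c0

/-- The forms on the index plane: `none` is `u`, `some j` is `w - j * u`. -/
def form (δ : Option (ZMod h)) (i : ZMod h × ZMod h) : ZMod h :=
  match δ with
  | none => i.1
  | some j => i.2 - j * i.1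

/-- The edges of the hypergraph, as a set of points. -/
noncomputable def X : Finset C.Pt :=
  C.good.filter fun z => ω.1 (C.v1 z) = ω.1 (C.v2 z) + c0

/-- Number of edges on a line. -/
noncomputable def load (l : C.Ln) : ℕ := (C.X ω ∩ C.pts l).card

/-- The other Baer line at a point of a line of `A` or `B`. -/
noncomputable def other (l : C.Ln) (z : C.Pt) : C.Ln := if l ∈ C.A then C.bOf z else C.aOf z

end Cfg

/-- The vertices: whole lines, (line, class), and boxes. -/
abbrev Vx (C : Cfg) (h : ℕ) : Type :=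
  C.Ln ⊕ (C.Ln × ZMod h) ⊕ (ZMod h × Gam × ZMod h × ZMod h)

namespace Cfg

variable (C : Cfg) {h : ℕ} (ω : Omega C h)

/-- Incidence between vertices and edges. -/
def Mem (z : C.Pt) : Vx C h → Prop
  | Sum.inl l => l ∈ C.ordinary ∧ z ∈ C.pts l
  | Sum.inr (Sum.inl (l, v)) =>
      (l ∈ C.A ∧ C.aOf z = l ∧ form none (ω.2 (C.bOf z)) = v) ∨
      (l ∈ C.B ∧ C.bOf z = l ∧ form none (ω.2 (C.aOf z)) = v)
  | Sum.inr (Sum.inr (j, c, v, v')) =>
      ω.1 (C.v1 z) = c ∧ form (some j) (ω.2 (C.aOf z)) = v ∧
      form (some j) (ω.2 (C.bOf z)) = v'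

/-- A vertex set that meets every edge. -/
def IsCover (K : Finset (Vx C h)) : Prop := ∀ z ∈ C.X ω, ∃ x ∈ K, C.Mem ω z x

open Classical in
/-- The ordinary lines of a vertex set. -/
noncomputable def linesOf (K : Finset (Vx C h)) : Finset C.Ln :=
  C.ordinary.filter fun l => (Sum.inl l : Vx C h) ∈ K

/-- Excess of a line set on the edges. -/
noncomputable def Ov (U : Finset C.Ln) : ℕ := ∑ z ∈ C.X ω, (C.f U z - 1)

/-- `n = q / 128`. -/
noncomputable def nn : ℝ := (C.q : ℝ) / 128

/-- Deviation of the total load of a line set. -/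
noncomputable def Dev (U : Finset C.Ln) : ℝ := ∑ l ∈ U, ((C.load ω l : ℝ) - C.nn)

/-- `lg = log q`. -/
noncomputable def lg : ℝ := Real.log (C.q : ℝ)

end Cfg

end Vale.P045.Baer
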