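import Vale.Agent.P045.Baer.Pins

/-!
Counting facts that hold in every valid configuration.
-/

namespace Vale.P045.Baer

open Finset

namespace Cfg

variable {C : Cfg}

lemma mem_linesIn {S : Finset C.Ln} {z : C.Pt} {l : C.Ln} :
    l ∈ C.linesIn S z ↔ l ∈ S ∧ z ∈ C.pts l := Finset.mem_filter

namespace IsBaer

variable {S : Finset C.Ln}

lemma nonempty_lines (hS : C.IsBaer S) (z : C.Pt) : (C.linesIn S z).Nonempty :=
  Finset.card_pos.1 (hS.cover z)

lemma deg_one_or_special (hS : C.IsBaer S) (z : C.Pt) : C.deg S z = 1 ∨ 2 ≤ C.deg S z := by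
  have := hS.cover z
  omega

end IsBaer

lemma aOf_spec (hC : C.Valid) (z : C.Pt) : C.aOf z ∈ C.A ∧ z ∈ C.pts (C.aOf z) := by
  rw [aOf, dif_pos (hC.baerA.nonempty_lines z)]
  exact mem_linesIn.1 (hC.baerA.nonempty_lines z).choose_spec

lemma bOf_spec (hC : C.Valid) (z : C.Pt) : C.bOf z ∈ C.B ∧ z ∈ C.pts (C.bOf z) := by
  rw [bOf, dif_pos (hC.baerB.nonempty_lines z)]
  exact mem_linesIn.1 (hC.baerB.nonempty_lines z).choose_spec

lemma aOf_eq (hC : C.Valid) {z : C.Pt} (hd : C.deg C.A z = 1) {a : C.Ln} (ha : a ∈ C.A)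
    (hz : z ∈ C.pts a) : C.aOf z = a :=
  Finset.card_le_one.1 hd.le _ (mem_linesIn.2 (aOf_spec hC z)) _ (mem_linesIn.2 ⟨ha, hz⟩)

lemma bOf_eq (hC : C.Valid) {z : C.Pt} (hd : C.deg C.B z = 1) {b : C.Ln} (hb : b ∈ C.B)
    (hz : z ∈ C.pts b) : C.bOf z = b :=
  Finset.card_le_one.1 hd.le _ (mem_linesIn.2 (bOf_spec hC z)) _ (mem_linesIn.2 ⟨hb, hz⟩)

lemma meet_unique (hC : C.Valid) {l m : C.Ln} {z w : C.Pt} (hne : l ≠ m) (h1 : z ∈ C.pts l)
    (h2 : z ∈ C.pts m) (h3 : w ∈ C.pts l) (h4 : w ∈ C.pts m) : z = w :=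
  (hC.meet l m hne).unique ⟨h1, h2⟩ ⟨h3, h4⟩

lemma A_ne_B (hC : C.Valid) {a b : C.Ln} (ha : a ∈ C.A) (hb : b ∈ C.B) : a ≠ b :=
  fun h => Finset.disjoint_left.1 hC.disj ha (h ▸ hb)

lemma A_ne_inf (hC : C.Valid) {a : C.Ln} (ha : a ∈ C.A) : a ≠ C.inf :=
  fun h => hC.inf_notA (h ▸ ha)

lemma B_ne_inf (hC : C.Valid) {b : C.Ln} (hb : b ∈ C.B) : b ≠ C.inf :=
  fun h => hC.inf_notB (h ▸ hb)

/-- The value of `var` on a line of `B`. -/
lemma var_cases (b : C.Ln) :
    (C.var b = Sum.inr b) ∨ ∃ w, w ∈ C.pts b ∧ w ∈ C.pts C.inf ∧ C.deg C.A w = 1 ∧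
      C.deg C.B w = 1 ∧ C.var b = Sum.inl (C.aOf w) := by
  unfold var
  split_ifs with h
  · obtain ⟨h1, h2, h3, h4⟩ := h.choose_spec
    exact Or.inr ⟨h.choose, h1, h2, h3, h4, rfl⟩
  · exact Or.inl rfl

lemma var_injective (hC : C.Valid) {b b' : C.Ln} (hb : b ∈ C.B) (hb' : b' ∈ C.B)
    (h : C.var b = C.var b') : b = b' := by
  rcases var_cases b with e | ⟨w, hw, hwi, -, hwB, e⟩ <;>
    rcases var_cases b' with e' | ⟨w', hw', hwi', -, -, e'⟩ <;> rw [e, e'] at h
  · exact Sum.inr.inj h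
  · exact absurd h (by simp)
  · exact absurd h (by simp)
  · have ha : C.aOf w = C.aOf w' := Sum.inl.inj h
    have hww : w = w' := meet_unique hC (A_ne_inf hC (aOf_spec hC w).1) (aOf_spec hC w).2 hwi
      (ha ▸ (aOf_spec hC w').2) hwi'
    subst hww
    rw [← bOf_eq hC hwB hb hw, ← bOf_eq hC hwB hb' hw']

lemma mem_good {z : C.Pt} :
    z ∈ C.good ↔ z ∉ C.pts C.inf ∧ C.deg C.A z = 1 ∧ C.deg C.B z = 1 := by
  simp [good]

lemma card_good_pts_ge (hC : C.Valid) {l : C.Ln} (hl : l ≠ C.inf) :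
    C.q + 1 ≤ (C.pts l ∩ C.good).card + 1 + ((C.pts l).filter fun z => 2 ≤ C.deg C.A z).card +
      ((C.pts l).filter fun z => 2 ≤ C.deg C.B z).card := by
  classical
  have hinf : (C.pts l ∩ C.pts C.inf).card ≤ 1 := by
    rw [Finset.card_le_one]
    intro z hz w hw
    rw [Finset.mem_inter] at hz hw
    exact meet_unique hC hl hz.1 hz.2 hw.1 hw.2
  have hsub : C.pts l ⊆ ((C.pts l ∩ C.good) ∪ (C.pts l ∩ C.pts C.inf)) ∪
      ((C.pts l).filter fun z => 2 ≤ C.deg C.A z) ∪
      ((C.pts l).filter fun z => 2 ≤ C.deg C.B z) := by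
    intro z hz
    rcases hC.baerA.deg_one_or_special z with hA | hA
    · rcases hC.baerB.deg_one_or_special z with hB | hB
      · by_cases hi : z ∈ C.pts C.inf <;> simp [mem_good, hz, hA, hB, hi]
      · simp [hz, hB]
    · simp [hz, hA]
  have h := Finset.card_le_card hsub
  rw [hC.card_pts] at h
  refine h.trans ?_
  refine (Finset.card_union_le _ _).trans (Nat.add_le_add_right ?_ _)
  refine (Finset.card_union_le _ _).trans (Nat.add_le_add_right ?_ _)
  exact (Finset.card_union_le _ _).trans (Nat.add_le_add_left hinf _)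

end Cfg

open Cfg in
/-- The counting facts hold. -/
theorem facts : FactsStmt := by
  classical
  intro C hC
  refine ⟨fun l hl => ?_, fun l hl => ?_, ?_, fun z => aOf_spec hC z, fun z => bOf_spec hC z,
    fun z hd a ha hz => aOf_eq hC hd ha hz, fun z hd b hb hz => bOf_eq hC hd hb hz, ?_,
    fun b hb b' hb' h => var_injective hC hb hb' h, ?_, ?_, ?_⟩
  · -- ordinary lines
    simp only [Cfg.ordinary, Finset.mem_filter, Finset.mem_univ, true_and] at hl
    have h := card_good_pts_ge hC hl.2.2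
    have h1 := hC.baerA.special_out l hl.1
    have h2 := hC.baerB.special_out l hl.2.1
    omega
  · -- lines of the two sets
    rcases Finset.mem_union.1 hl with hl | hl
    · have h := card_good_pts_ge hC (A_ne_inf hC hl)
      have h1 := hC.baerA.special_in l hl
      have h2 := hC.baerB.special_out l (Finset.disjoint_left.1 hC.disj hl)
      omega
    · have h := card_good_pts_ge hC (B_ne_inf hC hl)
      have h1 := hC.baerA.special_out l (Finset.disjoint_right.1 hC.disj hl)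
      have h2 := hC.baerB.special_in l hl
      omega
  · -- number of good points
    have hsub : (univ : Finset C.Pt) ⊆ ((C.good ∪ C.pts C.inf) ∪
        univ.filter fun z => 2 ≤ C.deg C.A z) ∪ univ.filter fun z => 2 ≤ C.deg C.B z := by
      intro z _
      rcases hC.baerA.deg_one_or_special z with hA | hA
      · rcases hC.baerB.deg_one_or_special z with hB | hB
        · by_cases hi : z ∈ C.pts C.inf <;> simp [mem_good, hA, hB, hi]
        · simp [hB]
      · simp [hA]
    have h := (Finset.card_le_card hsub).trans ((Finset.card_union_le _ _).trans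
      (Nat.add_le_add_right ((Finset.card_union_le _ _).trans
        (Nat.add_le_add_right (Finset.card_union_le _ _) _)) _))
    rw [Finset.card_univ, hC.card_pt, hC.card_pts, hC.baerA.card_special,
      hC.baerB.card_special] at h
    omega
  · -- a good point is determined by its two lines
    intro z _ w _ ha hb
    exact meet_unique hC (A_ne_B hC (aOf_spec hC z).1 (bOf_spec hC z).1) (aOf_spec hC z).2
      (bOf_spec hC z).2 (ha ▸ (aOf_spec hC w).2) (hb ▸ (bOf_spec hC w).2)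
  · -- the two coordinates differ
    intro z hz h
    rw [mem_good] at hz
    unfold Cfg.v1 Cfg.v2 at h
    rcases var_cases (C.bOf z) with e | ⟨w, hw, hwi, -, -, e⟩ <;> rw [e] at h
    · simp at h
    · have ha : C.aOf z = C.aOf w := Sum.inl.inj h
      have hzw : z = w := meet_unique hC (A_ne_B hC (aOf_spec hC z).1 (bOf_spec hC z).1)
        (aOf_spec hC z).2 (bOf_spec hC z).2 (ha ▸ (aOf_spec hC w).2) hw
      exact hz.1 (hzw ▸ hwi)
  · -- the lines carrying the users of a coordinate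
    intro v
    obtain ⟨a0, ha0⟩ : C.A.Nonempty := by
      rw [← Finset.card_pos, hC.baerA.card_eq]; omega
    obtain ⟨g, hg, hg'⟩ : ∃ g ∈ C.A ∪ C.B, ∀ z, C.v1 z = v → z ∈ C.pts g := by
      rcases v with a | b
      · by_cases ha : a ∈ C.A
        · exact ⟨a, Finset.mem_union_left _ ha, fun z hz => Sum.inl.inj hz ▸ (aOf_spec hC z).2⟩
        · exact ⟨a0, Finset.mem_union_left _ ha0, fun z hz =>
            absurd (Sum.inl.inj hz ▸ (aOf_spec hC z).1) ha⟩
      · exact ⟨a0, Finset.mem_union_left _ ha0, fun z hz => absurd hz (by simp [Cfg.v1])⟩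
    by_cases hex : ∃ b ∈ C.B, C.var b = v
    · obtain ⟨b, hb, hbv⟩ := hex
      refine ⟨g, b, hg, Finset.mem_union_right _ hb, fun z _ h => h.imp (hg' z) fun h2 => ?_⟩
      rw [← var_injective hC (bOf_spec hC z).1 hb (h2.trans hbv.symm)]
      exact (bOf_spec hC z).2
    · exact ⟨g, g, hg, hg, fun z _ h => h.imp (hg' z) fun h2 =>
        absurd ⟨C.bOf z, (bOf_spec hC z).1, h2⟩ hex⟩
  · -- the two coordinates agree at simple points at infinity
    intro z hz hA hB
    obtain ⟨hbB, hzb⟩ := bOf_spec hC z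
    unfold Cfg.v1 Cfg.v2
    rcases var_cases (C.bOf z) with e | ⟨w, hw, hwi, -, -, e⟩
    · unfold Cfg.var at e
      rw [dif_pos ⟨z, hzb, hz, hA, hB⟩] at e
      simp at e
    · rw [e, meet_unique hC (B_ne_inf hC hbB) hzb hz hw hwi]

end Vale.P045.Baer
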