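import Vale.Agent.P045.Baer.EvLine
import Vale.Agent.P045.Baer.Facts

/-!
# P045: the box event is likely

Colours are independent on `A`, and on `B` as the coordinate map is injective there; labels are
independent. The boxes on an ordinary line are rare given the loads.
-/

namespace Vale.P045.Baer

open Finset

namespace EvBox

variable {C : Cfg} {h : ℕ} [NeZero h]

open Classical in
/-- Colour classes of a family of lines with different coordinates. -/
lemma colour_tails (hc : ChernoffStmt) (L : Finset C.Ln) (w : C.Ln → C.Var)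
    (hw : Set.InjOn w ↑L) (c : Gam) (d : ℝ) (hd : 0 < d) (hd1 : d ≤ 1) :
    ((univ.filter fun χ : C.Var → Gam =>
        d * ((L.card : ℝ) / 128) < |((L.filter fun l => χ (w l) = c).card : ℝ) - (L.card : ℝ) / 128|
      ).card : ℝ) ≤
      2 * Real.exp (-(d ^ 2 * ((L.card : ℝ) / 128)) / 3) * (Fintype.card (C.Var → Gam) : ℝ) := by
  have H := hc C.Var ↥L Gam (fun e χ => χ (w e) = c) (fun e => {w e}) 1 (fun _ => (1 : ℝ) / 128)
    one_pos (fun e x y hxy => by rw [hxy _ (Finset.mem_singleton_self _)])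
    (fun i => by
      rw [Finset.card_le_one]
      intro a ha b hb
      simp only [Finset.mem_filter, Finset.mem_singleton] at ha hb
      exact Subtype.ext (hw a.2 b.2 (ha.2.symm.trans hb.2)))
    (fun e => by
      have h0 := EvLine.card_coord (H := Gam) (w (e : C.Ln)) ({c} : Finset Gam)
      simp only [Finset.mem_singleton, Finset.card_singleton, Nat.cast_one, one_mul] at h0
      have hG : Fintype.card Gam = 128 := by simp
      rw [hG] at h0
      push_cast at h0
      rw [div_mul_eq_mul_div, eq_div_iff (by norm_num : (128 : ℝ) ≠ 0), one_mul]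
      convert h0)
  obtain ⟨h1, h2⟩ := H.1 d hd hd1
  simp only [Finset.sum_const, Finset.card_univ, Fintype.card_coe, nsmul_eq_mul, Nat.cast_one,
    mul_one, mul_one_div] at h1 h2
  have hcount : ∀ χ : C.Var → Gam, (univ.filter fun e : ↥L => χ (w e) = c).card =
      (L.filter fun l => χ (w l) = c).card := by
    intro χ
    refine Finset.card_bij (fun e _ => (e : C.Ln)) (fun e he => ?_)
      (fun a _ b _ hab => Subtype.ext hab) (fun z hz => ?_)
    · exact Finset.mem_filter.2 ⟨e.2, (Finset.mem_filter.1 he).2⟩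
    · exact ⟨⟨z, (Finset.mem_filter.1 hz).1⟩,
        Finset.mem_filter.2 ⟨Finset.mem_univ _, (Finset.mem_filter.1 hz).2⟩, rfl⟩
  simp only [← hcount]
  refine le_trans (Nat.cast_le (α := ℝ).2 ((Finset.card_le_card (t :=
    (univ.filter fun χ : C.Var → Gam => ((univ.filter fun e : ↥L => χ (w e) = c).card : ℝ) ≤
      (1 - d) * ((L.card : ℝ) / 128)) ∪
    (univ.filter fun χ : C.Var → Gam => (1 + d) * ((L.card : ℝ) / 128) ≤
      ((univ.filter fun e : ↥L => χ (w e) = c).card : ℝ))) ?_).trans
    (Finset.card_union_le _ _))) ?_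
  · intro χ hχ
    simp only [Finset.mem_filter, Finset.mem_univ, true_and] at hχ
    simp only [Finset.mem_union, Finset.mem_filter, Finset.mem_univ, true_and]
    rcases lt_abs.1 hχ with h' | h'
    · right; linarith
    · left; linarith
  · rw [Nat.cast_add, mul_assoc, two_mul]
    exact add_le_add (by convert h1 <;> rfl) (by convert h2 <;> rfl)

open Classical in
/-- Labels on a set of lines: upper tail. -/
lemma label_upper (hc : ChernoffStmt) (L : Finset C.Ln) (S : Finset (ZMod h × ZMod h))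
    (hS : S.card = h) (d : ℝ) (hd : 0 < d) (hd1 : d ≤ 1) :
    ((univ.filter fun ι : C.Ln → ZMod h × ZMod h =>
        (1 + d) * ((L.card : ℝ) / h) ≤ ((L.filter fun l => ι l ∈ S).card : ℝ)).card : ℝ) ≤
      Real.exp (-(d ^ 2 * ((L.card : ℝ) / h)) / 3) *
        (Fintype.card (C.Ln → ZMod h × ZMod h) : ℝ) := by
  have hh : (0 : ℝ) < (h : ℝ) := by exact_mod_cast Nat.pos_of_ne_zero (NeZero.ne h)
  have H := hc C.Ln ↥L (ZMod h × ZMod h) (fun e ι => ι e ∈ S) (fun e => {(e : C.Ln)}) 1
    (fun _ => (1 : ℝ) / h) one_pos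
    (fun e x y hxy => by rw [hxy _ (Finset.mem_singleton_self _)])
    (fun i => by
      rw [Finset.card_le_one]
      intro a ha b hb
      simp only [Finset.mem_filter, Finset.mem_singleton] at ha hb
      exact Subtype.ext (ha.2.symm.trans hb.2))
    (fun e => by
      have h0 := EvLine.card_coord (e : C.Ln) S
      rw [Fintype.card_prod, ZMod.card, Nat.cast_mul, hS] at h0
      rw [div_mul_eq_mul_div, eq_div_iff hh.ne', one_mul]
      refine mul_right_cancel₀ hh.ne' ?_
      rw [mul_assoc, mul_comm ((Fintype.card (C.Ln → ZMod h × ZMod h) : ℝ))]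
      convert h0)
  have hcount : ∀ ι : C.Ln → ZMod h × ZMod h, (univ.filter fun e : ↥L => ι e ∈ S).card =
      (L.filter fun l => ι l ∈ S).card := by
    intro ι
    refine Finset.card_bij (fun e _ => (e : C.Ln)) (fun e he => ?_)
      (fun a _ b _ hab => Subtype.ext hab) (fun z hz => ?_)
    · exact Finset.mem_filter.2 ⟨e.2, (Finset.mem_filter.1 he).2⟩
    · exact ⟨⟨z, (Finset.mem_filter.1 hz).1⟩,
        Finset.mem_filter.2 ⟨Finset.mem_univ _, (Finset.mem_filter.1 hz).2⟩, rfl⟩
  obtain ⟨-, h2⟩ := H.1 d hd hd1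
  simp only [Finset.sum_const, Finset.card_univ, Fintype.card_coe, nsmul_eq_mul, Nat.cast_one,
    mul_one, mul_one_div] at h2
  simp only [← hcount]
  convert h2

open Classical in
/-- Pairs of labels on disjoint pairs of lines: large deviations. -/
lemma pair_tail (hc : ChernoffStmt) (Z : Finset C.Pt) (a b : C.Pt → C.Ln)
    (ha : Set.InjOn a ↑Z) (hb : Set.InjOn b ↑Z) (hab : ∀ z ∈ Z, a z ≠ b z)
    (S T : Finset (ZMod h × ZMod h)) (hS : S.card = h) (hT : T.card = h) (R : ℝ) (hR : 0 < R)
    (hR8 : 8 * ((Z.card : ℝ) / ((h : ℝ) * h)) ≤ R) :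
    ((univ.filter fun ι : C.Ln → ZMod h × ZMod h =>
        R ≤ ((Z.filter fun z => ι (a z) ∈ S ∧ ι (b z) ∈ T).card : ℝ)).card : ℝ) ≤
      Real.exp (-R / 4) * (Fintype.card (C.Ln → ZMod h × ZMod h) : ℝ) := by
  have hh : (0 : ℝ) < (h : ℝ) := by exact_mod_cast Nat.pos_of_ne_zero (NeZero.ne h)
  have H := hc C.Ln ↥Z (ZMod h × ZMod h) (fun e ι => ι (a e) ∈ S ∧ ι (b e) ∈ T)
    (fun e => {a e, b e}) 2 (fun _ => (1 : ℝ) / ((h : ℝ) * h)) two_pos
    (fun e x y hxy => by
      rw [hxy _ (Finset.mem_insert_self _ _),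
        hxy _ (Finset.mem_insert_of_mem (Finset.mem_singleton_self _))])
    (fun i => by
      refine le_trans (Finset.card_le_card (t :=
        (univ.filter fun e : ↥Z => a e = i) ∪ (univ.filter fun e : ↥Z => b e = i)) ?_) ?_
      · intro e he
        simp only [Finset.mem_filter, Finset.mem_insert, Finset.mem_singleton, Finset.mem_univ,
          true_and] at he
        simp only [Finset.mem_union, Finset.mem_filter, Finset.mem_univ, true_and]
        rcases he with he | he
        · exact Or.inl he.symm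
        · exact Or.inr he.symm
      · refine le_trans (Finset.card_union_le _ _) ?_
        refine le_trans (add_le_add (Finset.card_le_one.2 ?_) (Finset.card_le_one.2 ?_)) le_rfl
        · intro x hx y hy
          simp only [Finset.mem_filter] at hx hy
          exact Subtype.ext (ha x.2 y.2 (hx.2.trans hy.2.symm))
        · intro x hx y hy
          simp only [Finset.mem_filter] at hx hy
          exact Subtype.ext (hb x.2 y.2 (hx.2.trans hy.2.symm)))
    (fun e => ?_)
  · have hcount : ∀ ι : C.Ln → ZMod h × ZMod h,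
        (univ.filter fun e : ↥Z => ι (a e) ∈ S ∧ ι (b e) ∈ T).card =
        (Z.filter fun z => ι (a z) ∈ S ∧ ι (b z) ∈ T).card := by
      intro ι
      refine Finset.card_bij (fun e _ => (e : C.Pt)) (fun e he => ?_)
        (fun x _ y _ hxy => Subtype.ext hxy) (fun z hz => ?_)
      · exact Finset.mem_filter.2 ⟨e.2, (Finset.mem_filter.1 he).2⟩
      · exact ⟨⟨z, (Finset.mem_filter.1 hz).1⟩,
          Finset.mem_filter.2 ⟨Finset.mem_univ _, (Finset.mem_filter.1 hz).2⟩, rfl⟩
    have h3 := H.2 R hR (by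
      simp only [Finset.sum_const, Finset.card_univ, Fintype.card_coe, nsmul_eq_mul, mul_one_div]
      exact hR8)
    simp only [← hcount]
    rw [show -R / 4 = -R / (2 * ((2 : ℕ) : ℝ)) by norm_num]
    convert h3
  · set u := (e : C.Pt)
    have hne : a u ≠ b u := hab u e.2
    have hbij : ((univ.filter fun x : C.Ln → ZMod h × ZMod h => x (a u) ∈ S ∧ x (b u) ∈ T) ×ˢ
        ((univ : Finset (ZMod h × ZMod h)) ×ˢ (univ : Finset (ZMod h × ZMod h)))).card =
        ((S ×ˢ T) ×ˢ (univ : Finset (C.Ln → ZMod h × ZMod h))).card := by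
      refine Finset.card_bij'
        (fun p _ => ((p.1 (a u), p.1 (b u)),
          Function.update (Function.update p.1 (a u) p.2.1) (b u) p.2.2))
        (fun p _ => (Function.update (Function.update p.2 (a u) p.1.1) (b u) p.1.2,
          (p.2 (a u), p.2 (b u)))) ?_ ?_ ?_ ?_
      · intro p hp
        simpa using hp
      · intro p hp
        simpa [hne, hne.symm] using hp
      · intro p _
        obtain ⟨x, i, j⟩ := p
        refine Prod.ext ?_ (Prod.ext ?_ ?_)
        · funext l
          by_cases hl : l = b u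
          · subst hl; simp
          · by_cases hl' : l = a u
            · subst hl'; simp [hne]
            · simp [hl, hl']
        · simp [hne]
        · simp
      · intro p _
        obtain ⟨⟨i, j⟩, x⟩ := p
        refine Prod.ext (Prod.ext ?_ ?_) ?_
        · simp [hne]
        · simp
        · funext l
          by_cases hl : l = b u
          · subst hl; simp
          · by_cases hl' : l = a u
            · subst hl'; simp [hne]
            · simp [hl, hl']
    simp only [Finset.card_product, Finset.card_univ, Fintype.card_prod, ZMod.card, hS, hT] at hbij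
    have hbij' : ((univ.filter fun x : C.Ln → ZMod h × ZMod h =>
        x (a u) ∈ S ∧ x (b u) ∈ T).card : ℝ) * (((h : ℝ) * h) * ((h : ℝ) * h)) =
        ((h : ℝ) * h) * (Fintype.card (C.Ln → ZMod h × ZMod h) : ℝ) := by
      exact_mod_cast hbij
    rw [div_mul_eq_mul_div, one_mul, eq_div_iff (by positivity)]
    refine mul_right_cancel₀ (b := ((h : ℝ) * h)) (by positivity) ?_
    rw [mul_assoc, mul_comm ((Fintype.card (C.Ln → ZMod h × ZMod h) : ℝ)), ← hbij']
    congr!

open Classical in
/-- The event `this class is too large` is unlikely, for lines with different coordinates. -/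
lemma class_bad (hc : ChernoffStmt) (hset : Setting C h) (L : Finset C.Ln)
    (hLc : L.card = C.q + C.p + 1) (w : C.Ln → C.Var) (hw : Set.InjOn w ↑L) (c : Gam)
    (δ : Option (ZMod h)) (v : ZMod h) (e : ℝ) (hp : 1000 ≤ C.p)
    (he : Real.exp (-((C.p : ℝ) / 1000000)) ≤ e) :
    ((univ.filter fun ω : Omega C h => 21 / 20 * C.mu h <
        ((L.filter fun l => ω.1 (w l) = c ∧ Cfg.form δ (ω.2 l) = v).card : ℝ)).card : ℝ) ≤
      3 * e * (Fintype.card (Omega C h) : ℝ) := by
  have hp0 : (1000 : ℝ) ≤ (C.p : ℝ) := by exact_mod_cast hp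
  have hh0 : (0 : ℝ) < (h : ℝ) := by exact_mod_cast Nat.pos_of_ne_zero (NeZero.ne h)
  have hhu : 2 * (h : ℝ) ≤ C.p := by exact_mod_cast hset.h_upper
  have hN : (L.card : ℝ) = (C.p : ℝ) ^ 2 + C.p + 1 := by
    rw [hLc]; push_cast [C.q_cast]; ring
  have he0 : (0 : ℝ) ≤ e := le_trans (Real.exp_pos _).le he
  set N : ℝ := (L.card : ℝ) / 128 with hNdef
  have hN1 : (C.p : ℝ) ^ 2 / 128 ≤ N := by rw [hNdef, hN]; linarith
  have hN2 : N ≤ 501 / 500 * ((C.p : ℝ) ^ 2 / 128) := by
    rw [hNdef, hN]; nlinarith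
  have hmu : C.mu h = (C.p : ℝ) ^ 2 / 128 / h := by rw [Cfg.mu, Cfg.nn, C.q_cast]
  let P : (C.Var → Gam) → Prop := fun χ =>
    |((L.filter fun l => χ (w l) = c).card : ℝ) - N| ≤ 1 / 100 * N
  let Q : Omega C h → Prop := fun ω => 21 / 20 * C.mu h <
    ((L.filter fun l => ω.1 (w l) = c ∧ Cfg.form δ (ω.2 l) = v).card : ℝ)
  have hstage1 : ((univ.filter fun ω : Omega C h => ¬ P ω.1).card : ℝ) ≤
      2 * e * (Fintype.card (Omega C h) : ℝ) := by
    have h1 := EvLine.card_fiber (α := C.Ln → ZMod h × ZMod h) (β := C.Var → Gam)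
      (fun _ => True) (fun x => ¬ P x.2) (2 * e) (by linarith) (fun _ _ => by
        refine le_trans (le_trans (le_of_eq ?_) (colour_tails hc L w hw c (1 / 100) (by norm_num)
          (by norm_num))) (mul_le_mul_of_nonneg_right ?_ (Nat.cast_nonneg _))
        · congr! 4 with χ
          simp only [P, not_le]
          rfl
        · refine mul_le_mul_of_nonneg_left (le_trans (Real.exp_le_exp.2 ?_) he) (by norm_num)
          have : (1000 : ℝ) * C.p ≤ (C.p : ℝ) ^ 2 := by
            rw [sq]; exact mul_le_mul_of_nonneg_right hp0 (by linarith)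
          linarith)
    have h2 : (univ.filter fun ω : Omega C h => ¬ P ω.1).card =
        (univ.filter fun x : (C.Ln → ZMod h × ZMod h) × (C.Var → Gam) =>
          True ∧ ¬ P x.2).card := by
      refine Finset.card_bij' (fun ω _ => (ω.2, ω.1)) (fun x _ => (x.2, x.1)) ?_ ?_ ?_ ?_ <;>
        intro x hx <;> simp at hx ⊢ <;> exact hx
    rw [h2]
    refine le_trans (le_of_eq ?_) (h1.trans (le_of_eq ?_))
    · congr!
    · rw [Fintype.card_prod, Fintype.card_prod, Nat.mul_comm]
  have hstage2 : ((univ.filter fun ω : Omega C h => P ω.1 ∧ Q ω).card : ℝ) ≤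
      e * (Fintype.card (Omega C h) : ℝ) := by
    refine EvLine.card_fiber P Q e he0 fun χ hχ => ?_
    set M := L.filter fun l => χ (w l) = c with hMdef
    obtain ⟨hM1, hM2⟩ := abs_le.1 (hχ : |(M.card : ℝ) - N| ≤ 1 / 100 * N)
    have hS : (univ.filter fun i : ZMod h × ZMod h => Cfg.form δ i = v).card = h :=
      EvLine.card_form h δ v
    refine le_trans (Nat.cast_le.2 (Finset.card_le_card ?_))
      (le_trans (label_upper hc M _ hS (1 / 50) (by norm_num) (by norm_num))
        (mul_le_mul_of_nonneg_right (le_trans (Real.exp_le_exp.2 ?_) he) (Nat.cast_nonneg _)))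
    · intro ι hι
      simp only [Finset.mem_filter, Finset.mem_univ, true_and] at hι ⊢
      have hcnt : (L.filter fun l => χ (w l) = c ∧ Cfg.form δ (ι l) = v) =
          M.filter fun l => Cfg.form δ (ι l) = v := by
        rw [hMdef, Finset.filter_filter]
      simp only [Q, hcnt] at hι
      have h1 : (M.card : ℝ) / h ≤ 101 / 100 * (501 / 500) * C.mu h := by
        rw [hmu, ← mul_div_assoc]
        refine div_le_div_of_nonneg_right ?_ hh0.le
        linarith
      have hmu0 : 0 ≤ C.mu h := by rw [hmu]; positivity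
      linarith
    · have h1 : (C.p : ℝ) / 64 * (99 / 100) ≤ (M.card : ℝ) / h := by
        rw [le_div_iff₀ hh0]
        have := mul_le_mul_of_nonneg_left hhu (by positivity : (0 : ℝ) ≤ (C.p : ℝ) / 64 * (99 / 100))
        nlinarith
      linarith
  have hsub : (univ.filter fun ω : Omega C h => Q ω) ⊆
      (univ.filter fun ω : Omega C h => ¬ P ω.1) ∪
      (univ.filter fun ω : Omega C h => P ω.1 ∧ Q ω) := by
    intro ω hω
    simp only [Finset.mem_filter, Finset.mem_univ, true_and] at hω
    simp only [Finset.mem_union, Finset.mem_filter, Finset.mem_univ, true_and]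
    by_cases hP : P ω.1
    · exact Or.inr ⟨hP, hω⟩
    · exact Or.inl hP
  refine le_trans (Nat.cast_le.2 (Finset.card_le_card hsub)) ?_
  refine le_trans (Nat.cast_le.2 (Finset.card_union_le _ _)) ?_
  rw [Nat.cast_add]
  linarith

end EvBox

open EvLine EvBox in
/-- The box event is likely. -/
theorem evBox (hc : ChernoffStmt) (hf : FactsStmt) : EvBoxStmt := by
  obtain ⟨P1, hpow1⟩ := lg_pow_le (100000000 : ℝ) 1
  obtain ⟨P2, hpow2⟩ := lg_pow_le (40000 : ℝ) 2
  obtain ⟨P3, hlg⟩ := lg_ge 5
  refine ⟨P1 + P2 + P3 + 1000, fun C h _ _ hset hp => ?_⟩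
  classical
  have hF := hf C hset.valid
  -- the real parameters
  have hL : 5 ≤ C.lg := hlg C (by omega)
  have hb1 : 100000000 * C.lg ≤ (C.p : ℝ) := by simpa using hpow1 C (by omega)
  have hb2 : 40000 * C.lg ^ 2 ≤ (C.p : ℝ) := hpow2 C (by omega)
  have hp1000 : (1000 : ℕ) ≤ C.p := by omega
  have hp0 : (1000 : ℝ) ≤ (C.p : ℝ) := by exact_mod_cast hp1000
  have hhl : (C.p : ℝ) ≤ 4 * h := by exact_mod_cast hset.h_lower.le
  have hh0 : (0 : ℝ) < h := by linarith
  have hn : C.nn = (C.p : ℝ) ^ 2 / 128 := by rw [Cfg.nn, C.q_cast]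
  let Lok : (C.Var → Gam) → Prop := fun χ => ∀ l, l ≠ C.inf →
    |(C.load (h := h) (χ, fun _ => 0) l : ℝ) - C.nn| ≤ Real.sqrt (C.q : ℝ) * C.lg
  let Z : (C.Var → Gam) → C.Ln → Gam → Finset C.Pt := fun χ l c =>
    (C.X (h := h) (χ, fun _ => 0) ∩ C.pts l).filter fun z => χ (C.v1 z) = c
  let S : ZMod h → ZMod h → Finset (ZMod h × ZMod h) := fun j v =>
    univ.filter fun i => Cfg.form (some j) i = v
  let J : Type := (Gam × Option (ZMod h) × ZMod h) ⊕ (Gam × Option (ZMod h) × ZMod h) ⊕
    (↥C.ordinary × ZMod h × Gam × ZMod h × ZMod h)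
  let bad : J → Omega C h → Prop := fun i ω =>
    Sum.elim
      (fun x => 21 / 20 * C.mu h < ((C.A.filter fun a => ω.1 (Sum.inl a) = x.1 ∧
        Cfg.form x.2.1 (ω.2 a) = x.2.2).card : ℝ))
      (Sum.elim
        (fun x => 21 / 20 * C.mu h < ((C.B.filter fun b => ω.1 (C.var b) = x.1 - c0 ∧
          Cfg.form x.2.1 (ω.2 b) = x.2.2).card : ℝ))
        (fun x => Lok ω.1 ∧ Real.sqrt (C.p : ℝ) <
          (((Z ω.1 x.1 x.2.2.1).filter fun z => ω.2 (C.aOf z) ∈ S x.2.1 x.2.2.2.1 ∧
            ω.2 (C.bOf z) ∈ S x.2.1 x.2.2.2.2).card : ℝ))) i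
  refine union_bound 15 _ bad (3 * Real.exp (-(5 * C.lg + 5))) ?_ ?_ ?_
  · -- every bad outcome is one of the bad events
    rintro ω ⟨hload, hbox⟩
    have hX : C.X (h := h) (ω.1, fun _ => 0) = C.X ω := X_congr _ _ rfl
    unfold BoxEvent at hbox
    rw [not_and_or, not_and_or] at hbox
    rcases hbox with hbox | hbox | hbox
    · push Not at hbox
      obtain ⟨c, δ, v, hlt⟩ := hbox
      refine ⟨Sum.inl (c, δ, v), ?_⟩
      simp only [bad, Sum.elim_inl]
      refine hlt.trans_le (Nat.cast_le.2 (Finset.card_le_card fun a ha => ?_))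
      obtain ⟨h1, h2⟩ := Finset.mem_filter.1 ha
      exact Finset.mem_filter.2 ⟨h1, by simpa [Cfg.colA] using h2⟩
    · push Not at hbox
      obtain ⟨c, δ, v, hlt⟩ := hbox
      refine ⟨Sum.inr (Sum.inl (c, δ, v)), ?_⟩
      simp only [bad, Sum.elim_inl, Sum.elim_inr]
      refine hlt.trans_le (Nat.cast_le.2 (Finset.card_le_card fun a ha => ?_))
      obtain ⟨h1, h2⟩ := Finset.mem_filter.1 ha
      exact Finset.mem_filter.2 ⟨h1, by simpa [Cfg.colB, eq_sub_iff_add_eq] using h2⟩
    · push Not at hbox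
      obtain ⟨l, hl, j, c, v, v', hlt⟩ := hbox
      refine ⟨Sum.inr (Sum.inr (⟨l, hl⟩, j, c, v, v')), fun l' hl' => ?_, ?_⟩
      · simpa [Cfg.load, hX] using hload.1 l' hl'
      · refine hlt.trans_le (Nat.cast_le.2 (Finset.card_le_card fun z hz => ?_))
        obtain ⟨h1, h2⟩ := Finset.mem_filter.1 hz
        refine Finset.mem_filter.2 ⟨Finset.mem_filter.2 ⟨by simpa [hX] using h1, h2.1⟩, ?_⟩
        exact ⟨Finset.mem_filter.2 ⟨Finset.mem_univ _, h2.2.1⟩,
          Finset.mem_filter.2 ⟨Finset.mem_univ _, h2.2.2⟩⟩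
  · -- each bad event is unlikely
    have he : Real.exp (-((C.p : ℝ) / 1000000)) ≤ Real.exp (-(5 * C.lg + 5)) :=
      Real.exp_le_exp.2 (by linarith)
    rintro (⟨c, δ, v⟩ | ⟨c, δ, v⟩ | ⟨⟨l, hl⟩, j, c, v, v'⟩)
    · refine le_trans (le_of_eq ?_) (class_bad hc hset C.A hset.valid.baerA.card_eq Sum.inl
        (Sum.inl_injective.injOn) c δ v _ hp1000 he)
      congr!
    · refine le_trans (le_of_eq ?_) (class_bad hc hset C.B hset.valid.baerB.card_eq C.var
        (fun b hb b' hb' hbb => hF.var_inj b hb b' hb' hbb) (c - c0) δ v _ hp1000 he)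
      congr!
    · have hlo := Finset.mem_filter.1 hl
      have hfib := card_fiber (α := C.Var → Gam) (β := C.Ln → ZMod h × ZMod h) Lok
        (fun ω => Real.sqrt (C.p : ℝ) < (((Z ω.1 l c).filter fun z => ω.2 (C.aOf z) ∈ S j v ∧
            ω.2 (C.bOf z) ∈ S j v').card : ℝ))
        (3 * Real.exp (-(5 * C.lg + 5))) (by positivity)
      refine le_trans (le_of_eq ?_) (hfib fun χ hχ => ?_)
      · congr!
      have hcard : ((Z χ l c).card : ℝ) ≤ C.nn + (C.p : ℝ) * C.lg := by
        have h1 := (abs_le.1 (hχ l hlo.2.2.2)).2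
        rw [C.sqrt_q] at h1
        have h2 : ((Z χ l c).card : ℝ) ≤ (C.load (h := h) (χ, fun _ => 0) l : ℝ) :=
          Nat.cast_le.2 (Finset.card_filter_le _ _)
        linarith
      have hmem : ∀ z ∈ Z χ l c, z ∈ C.pts l := fun z hz =>
        (Finset.mem_inter.1 (Finset.mem_filter.1 hz).1).2
      have ha : Set.InjOn C.aOf ↑(Z χ l c) := fun z hz w hw hzw =>
        Cfg.meet_unique hset.valid (fun e : l = C.aOf z => hlo.2.1 (e ▸ (hF.aOf_mem z).1))
          (hmem z hz) (hF.aOf_mem z).2 (hmem w hw) (hzw ▸ (hF.aOf_mem w).2)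
      have hb : Set.InjOn C.bOf ↑(Z χ l c) := fun z hz w hw hzw =>
        Cfg.meet_unique hset.valid (fun e : l = C.bOf z => hlo.2.2.1 (e ▸ (hF.bOf_mem z).1))
          (hmem z hz) (hF.bOf_mem z).2 (hmem w hw) (hzw ▸ (hF.bOf_mem w).2)
      have hab : ∀ z ∈ Z χ l c, C.aOf z ≠ C.bOf z := fun z _ =>
        Cfg.A_ne_B hset.valid (hF.aOf_mem z).1 (hF.bOf_mem z).1
      have hs10 : 10 ≤ Real.sqrt (C.p : ℝ) := by
        rw [Real.le_sqrt' (by norm_num)]; linarith
      have hs2 : 200 * C.lg ≤ Real.sqrt (C.p : ℝ) := by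
        rw [Real.le_sqrt' (by linarith)]; nlinarith
      have hm : ((Z χ l c).card : ℝ) / ((h : ℝ) * h) ≤ 1 := by
        rw [div_le_one (by positivity)]
        have h1 := mul_le_mul hhl hhl (by linarith) (by positivity)
        have h2 := mul_le_mul_of_nonneg_left hb1 (by linarith : (0 : ℝ) ≤ (C.p : ℝ))
        nlinarith
      have hT := pair_tail hc (Z χ l c) C.aOf C.bOf ha hb hab (S j v) (S j v')
        (card_form h _ _) (card_form h _ _) (Real.sqrt (C.p : ℝ)) (by linarith) (by linarith)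
      refine le_trans (Nat.cast_le.2 (Finset.card_le_card ?_))
        (hT.trans (mul_le_mul_of_nonneg_right ?_ (Nat.cast_nonneg _)))
      · intro ι hι
        simp only [Finset.mem_filter, Finset.mem_univ, true_and] at hι ⊢
        exact hι.le
      · have h5 : Real.exp (-Real.sqrt (C.p : ℝ) / 4) ≤ Real.exp (-(5 * C.lg + 5)) :=
          Real.exp_le_exp.2 (by linarith)
        linarith [Real.exp_pos (-(5 * C.lg + 5))]
  · -- the number of events
    have hcard : Fintype.card J ≤ C.p ^ 8 := by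
      have h1 : Fintype.card J = 128 * ((h + 1) * h) + (128 * ((h + 1) * h) +
          C.ordinary.card * (h * (128 * (h * h)))) := by
        simp [J]
      have h2 : C.ordinary.card ≤ C.q ^ 2 + C.q + 1 := by
        rw [← hset.valid.card_ln]
        exact Finset.card_le_univ _
      have hu := hset.h_upper
      have h3 : C.q ^ 2 + C.q + 1 ≤ 3 * C.p ^ 4 := by
        have e1 : C.p ^ 2 ≤ C.p ^ 4 := Nat.pow_le_pow_right (by omega) (by norm_num)
        have e2 : 1 ≤ C.p ^ 4 := Nat.one_le_pow _ _ (by omega)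
        unfold Cfg.q
        rw [← pow_mul]
        norm_num
        omega
      have h4 : (h + 1) * h ≤ C.p ^ 2 := by
        rw [sq]
        exact Nat.mul_le_mul (by omega) (by omega)
      have h5 : h * (128 * (h * h)) ≤ C.p * (128 * (C.p * C.p)) := by
        gcongr <;> omega
      have h6 : C.p ^ 2 ≤ C.p ^ 7 := Nat.pow_le_pow_right (by omega) (by norm_num)
      rw [h1]
      calc 128 * ((h + 1) * h) + (128 * ((h + 1) * h) + C.ordinary.card * (h * (128 * (h * h))))
          ≤ 128 * C.p ^ 2 + (128 * C.p ^ 2 + 3 * C.p ^ 4 * (C.p * (128 * (C.p * C.p)))) := by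
            gcongr
            exact h2.trans h3
        _ = 256 * C.p ^ 2 + 384 * C.p ^ 7 := by ring
        _ ≤ 640 * C.p ^ 7 := by omega
        _ ≤ C.p * C.p ^ 7 := Nat.mul_le_mul_right _ (by omega)
        _ = C.p ^ 8 := by ring
    have hP8 : (C.p : ℝ) ^ 8 = Real.exp (4 * C.lg) := by
      rw [C.lg_eq, show 4 * (2 * Real.log (C.p : ℝ)) = ((8 : ℕ) : ℝ) * Real.log (C.p : ℝ) by
        push_cast; ring, Real.exp_nat_mul, Real.exp_log (by linarith)]
    have hJ : (Fintype.card J : ℝ) ≤ Real.exp (4 * C.lg) := by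
      rw [← hP8]; exact_mod_cast hcard
    have h45 : (45 : ℝ) ≤ Real.exp (C.lg + 5) := by
      have h' := Real.quadratic_le_exp_of_nonneg (x := C.lg + 5) (by linarith)
      nlinarith
    have hkey : Real.exp (4 * C.lg) * Real.exp (-(5 * C.lg + 5)) * Real.exp (C.lg + 5) = 1 := by
      rw [← Real.exp_add, ← Real.exp_add, Real.exp_eq_one_iff]; ring
    have h46 := mul_le_mul_of_nonneg_left h45
      (mul_nonneg (Real.exp_pos (4 * C.lg)).le (Real.exp_pos (-(5 * C.lg + 5))).le)
    have h47 := mul_le_mul_of_nonneg_right hJ (Real.exp_pos (-(5 * C.lg + 5))).le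
    push_cast
    linarith

end Vale.P045.Baer
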