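import Vale.Agent.P045.Baer.Pins

/-!
# P045: growth facts for large `p`
-/

namespace Vale.P045.Baer

open Filter

namespace Cfg

variable (C : Cfg)

theorem q_cast : (C.q : ℝ) = (C.p : ℝ) ^ 2 := by
  simp [Cfg.q]

theorem sqrt_q : Real.sqrt (C.q : ℝ) = (C.p : ℝ) := by
  rw [C.q_cast, Real.sqrt_sq (Nat.cast_nonneg _)]

theorem lg_eq : C.lg = 2 * Real.log (C.p : ℝ) := by
  simp [Cfg.lg, C.q_cast, Real.log_pow]

end Cfg

/-- Powers of `log q` are eventually below any multiple of `√q = p`. -/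
theorem lg_pow_le (M : ℝ) (a : ℕ) :
    ∃ P0 : ℕ, ∀ C : Cfg, P0 ≤ C.p → M * C.lg ^ a ≤ (C.p : ℝ) := by
  have h := Real.tendsto_pow_log_div_mul_add_atTop 1 0 a one_ne_zero
  have h2 : Tendsto (fun x : ℝ => M * (2 ^ a) * (Real.log x ^ a / (1 * x + 0))) atTop (nhds 0) := by
    simpa using h.const_mul (M * 2 ^ a)
  have h3 := h2.eventually (eventually_le_nhds (zero_lt_one : (0 : ℝ) < 1))
  obtain ⟨N, hN⟩ := (h3.and (eventually_gt_atTop (0 : ℝ))).exists_forall_of_atTop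
  refine ⟨⌈N⌉₊, fun C hC => ?_⟩
  obtain ⟨h4, h5⟩ := hN (C.p : ℝ) ((Nat.le_ceil N).trans (by exact_mod_cast hC))
  rw [C.lg_eq, mul_pow]
  have : M * 2 ^ a * Real.log (C.p : ℝ) ^ a / (C.p : ℝ) ≤ 1 := by
    simpa [mul_div_assoc] using h4
  rw [div_le_one h5] at this
  linarith

/-- `log q` is eventually large. -/
theorem lg_ge (M : ℝ) : ∃ P0 : ℕ, ∀ C : Cfg, P0 ≤ C.p → M ≤ C.lg := by
  refine ⟨⌈Real.exp M⌉₊ + 1, fun C hC => ?_⟩
  have h1 : Real.exp M ≤ (C.p : ℝ) :=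
    (Nat.le_ceil _).trans (by exact_mod_cast (Nat.le_of_succ_le hC))
  have h2 : M ≤ Real.log (C.p : ℝ) := by
    simpa using Real.log_le_log (Real.exp_pos M) h1
  have h3 : 0 ≤ Real.log (C.p : ℝ) := by
    refine Real.log_nonneg ?_
    have : 1 ≤ C.p := by omega
    exact_mod_cast this
  rw [C.lg_eq]; linarith

end Vale.P045.Baer
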