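import Vale.Agent.P045.Baer.EvBasicPins
import Vale.Agent.P045.Baer.Large

/-!
The line event is likely given the load event: once the colours are fixed, the edges on a line of
`A ∪ B` have pairwise different other lines, whose labels are independent and uniform.
-/

namespace Vale.P045.Baer

open Finset

namespace EvLine

/-- The proportion of functions with a given kind of value at a coordinate. -/
lemma card_coord {ι H : Type} [Fintype ι] [DecidableEq ι] [Fintype H] [DecidableEq H] (w : ι)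
    (S : Finset H) :
    ((univ.filter fun x : ι → H => x w ∈ S).card : ℝ) * (Fintype.card H : ℝ) =
      (S.card : ℝ) * (Fintype.card (ι → H) : ℝ) := by
  have h : ((univ.filter fun x : ι → H => x w ∈ S) ×ˢ (univ : Finset H)).card =
      (S ×ˢ (univ : Finset (ι → H))).card := by
    refine Finset.card_bij' (fun p _ => (p.1 w, Function.update p.1 w p.2))
      (fun p _ => (Function.update p.2 w p.1, p.2 w)) ?_ ?_ ?_ ?_
    · intro p hp
      simpa using hp
    · intro p hp
      simpa using hp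
    · intro p _
      simp
    · intro p _
      simp
  rw [Finset.card_product, Finset.card_product, Finset.card_univ, Finset.card_univ] at h
  exact_mod_cast h

/-- Each value of a form is taken `h` times. -/
lemma card_form (h : ℕ) [NeZero h] (δ : Option (ZMod h)) (v : ZMod h) :
    (univ.filter fun i : ZMod h × ZMod h => Cfg.form δ i = v).card = h := by
  rcases δ with _ | j
  · refine (Finset.card_bij' (fun i _ => i.2) (fun t _ => (v, t)) ?_ ?_ ?_ ?_).trans
      ((Finset.card_univ (α := ZMod h)).trans (ZMod.card h))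
    · simp
    · exact fun t _ => Finset.mem_filter.2 ⟨Finset.mem_univ _, by simp [Cfg.form]⟩
    · intro i hi
      have hv : Cfg.form _ i = v := (Finset.mem_filter.1 hi).2
      simp only [Cfg.form] at hv
      simp [← hv]
    · simp
  · refine (Finset.card_bij' (fun i _ => i.1) (fun t _ => (t, v + j * t)) ?_ ?_ ?_ ?_).trans
      ((Finset.card_univ (α := ZMod h)).trans (ZMod.card h))
    · simp
    · exact fun t _ => Finset.mem_filter.2 ⟨Finset.mem_univ _, by simp [Cfg.form]⟩
    · intro i hi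
      have hv : Cfg.form _ i = v := (Finset.mem_filter.1 hi).2
      simp only [Cfg.form] at hv
      simp [← hv]
    · simp

open Classical in
/-- A bound that holds for every admissible first component holds for the pairs. -/
lemma card_fiber {α β : Type} [Fintype α] [Fintype β] (P : α → Prop) (Q : α × β → Prop) (e : ℝ)
    (he : 0 ≤ e)
    (hb : ∀ a, P a → ((univ.filter fun b => Q (a, b)).card : ℝ) ≤ e * (Fintype.card β : ℝ)) :
    ((univ.filter fun x : α × β => P x.1 ∧ Q x).card : ℝ) ≤
      e * (Fintype.card (α × β) : ℝ) := by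
  rw [Finset.card_filter, Nat.cast_sum, Fintype.sum_prod_type, Fintype.card_prod, Nat.cast_mul]
  calc ∑ a, ∑ b, ((if P a ∧ Q (a, b) then 1 else 0 : ℕ) : ℝ)
      ≤ ∑ _a : α, e * (Fintype.card β : ℝ) := Finset.sum_le_sum fun a _ => by
        by_cases ha : P a
        · refine le_trans (le_of_eq ?_) (hb a ha)
          rw [Finset.card_filter, Nat.cast_sum]
          simp [ha]
        · simp [ha, mul_nonneg he (Nat.cast_nonneg _)]
    _ = e * ((Fintype.card α : ℝ) * (Fintype.card β : ℝ)) := by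
        rw [Finset.sum_const, Finset.card_univ, nsmul_eq_mul]; ring

variable {C : Cfg} {h : ℕ}

/-- The edges only depend on the colours. -/
lemma X_congr (ω ω' : Omega C h) (he : ω.1 = ω'.1) : C.X ω = C.X ω' := by
  unfold Cfg.X
  rw [he]

/-- The other lines of the edges on a line of `A ∪ B` are pairwise different. -/
lemma other_injOn (hf : Facts C) (ω : Omega C h) {l : C.Ln} (hl : l ∈ C.A ∪ C.B) :
    Set.InjOn (C.other l) ↑(C.X ω ∩ C.pts l) := by
  intro z hz w hw hzw
  simp only [Finset.coe_inter, Set.mem_inter_iff, Finset.mem_coe, Cfg.X, Cfg.good,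
    Finset.mem_filter, Finset.mem_univ, true_and] at hz hw
  have hzg : z ∈ C.good := by simp [Cfg.good, hz.1.1]
  have hwg : w ∈ C.good := by simp [Cfg.good, hw.1.1]
  by_cases hA : l ∈ C.A
  · simp only [Cfg.other, if_pos hA] at hzw
    refine hf.pair_inj z hzg w hwg ?_ hzw
    rw [hf.aOf_unique z hz.1.1.2.1 l hA hz.2, hf.aOf_unique w hw.1.1.2.1 l hA hw.2]
  · have hB : l ∈ C.B := (Finset.mem_union.1 hl).resolve_left hA
    simp only [Cfg.other, if_neg hA] at hzw
    refine hf.pair_inj z hzg w hwg hzw ?_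
    rw [hf.bOf_unique z hz.1.1.2.2 l hB hz.2, hf.bOf_unique w hw.1.1.2.2 l hB hw.2]

open Classical in
/-- Chernoff bounds for independent labels at pairwise different lines. -/
lemma label_tails (hc : ChernoffStmt) [NeZero h] (Z : Finset C.Pt) (g : C.Pt → C.Ln)
    (hg : Set.InjOn g ↑Z) (S : Finset (ZMod h × ZMod h)) (m : ℝ)
    (hm : m = (Z.card : ℝ) * ((S.card : ℝ) / ((h : ℝ) * h))) :
    (∀ d : ℝ, 0 < d → d ≤ 1 →
      ((univ.filter fun ι : C.Ln → ZMod h × ZMod h =>
          ((Z.filter fun z => ι (g z) ∈ S).card : ℝ) ≤ (1 - d) * m).card : ℝ) ≤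
        Real.exp (-(d ^ 2 * m) / 3) * (Fintype.card (C.Ln → ZMod h × ZMod h) : ℝ) ∧
      ((univ.filter fun ι : C.Ln → ZMod h × ZMod h =>
          (1 + d) * m ≤ ((Z.filter fun z => ι (g z) ∈ S).card : ℝ)).card : ℝ) ≤
        Real.exp (-(d ^ 2 * m) / 3) * (Fintype.card (C.Ln → ZMod h × ZMod h) : ℝ)) ∧
    (∀ R : ℝ, 0 < R → 8 * m ≤ R →
      ((univ.filter fun ι : C.Ln → ZMod h × ZMod h =>
          R ≤ ((Z.filter fun z => ι (g z) ∈ S).card : ℝ)).card : ℝ) ≤
        Real.exp (-R / 2) * (Fintype.card (C.Ln → ZMod h × ZMod h) : ℝ)) := by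
  have hh : (0 : ℝ) < (h : ℝ) := by exact_mod_cast Nat.pos_of_ne_zero (NeZero.ne h)
  have H := hc C.Ln ↥Z (ZMod h × ZMod h) (fun e ι => ι (g e) ∈ S) (fun e => {g e}) 1
    (fun _ => (S.card : ℝ) / ((h : ℝ) * h)) one_pos
    (fun e x y hxy => by rw [hxy _ (Finset.mem_singleton_self _)])
    (fun i => by
      rw [Finset.card_le_one]
      intro a ha b hb
      simp only [Finset.mem_filter, Finset.mem_singleton] at ha hb
      exact Subtype.ext (hg a.2 b.2 (ha.2.symm.trans hb.2)))
    (fun e => by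
      have h0 := card_coord (g (e : C.Pt)) S
      rw [Fintype.card_prod, ZMod.card, Nat.cast_mul] at h0
      rw [div_mul_eq_mul_div, eq_div_iff (by positivity)]
      convert h0)
  simp only [Finset.sum_const, Finset.card_univ, Fintype.card_coe, nsmul_eq_mul, ← hm,
    Nat.cast_one, mul_one] at H
  have hcount : ∀ ι : C.Ln → ZMod h × ZMod h,
      (univ.filter fun e : ↥Z => ι (g e) ∈ S).card = (Z.filter fun z => ι (g z) ∈ S).card := by
    intro ι
    refine Finset.card_bij (fun e _ => (e : C.Pt)) (fun e he => ?_)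
      (fun a _ b _ hab => Subtype.ext hab) (fun z hz => ?_)
    · exact Finset.mem_filter.2 ⟨e.2, (Finset.mem_filter.1 he).2⟩
    · exact ⟨⟨z, (Finset.mem_filter.1 hz).1⟩,
        Finset.mem_filter.2 ⟨Finset.mem_univ _, (Finset.mem_filter.1 hz).2⟩, rfl⟩
  simp only [← hcount]
  refine ⟨fun d hd hd1 => ⟨?_, ?_⟩, fun R hR hR8 => ?_⟩
  · convert (H.1 d hd hd1).1
  · convert (H.1 d hd hd1).2
  · convert H.2 R hR hR8

open Classical in
/-- The union bound. -/
lemma union_bound {Ω I : Type} [Fintype Ω] [Fintype I] (k : ℕ) (P : Ω → Prop)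
    (bad : I → Ω → Prop) (e : ℝ) (hP : ∀ ω, P ω → ∃ i, bad i ω)
    (hb : ∀ i, ((univ.filter fun ω => bad i ω).card : ℝ) ≤ e * (Fintype.card Ω : ℝ))
    (hsum : (k : ℝ) * ((Fintype.card I : ℝ) * e) ≤ 1) :
    k * Nat.card {ω : Ω // P ω} ≤ Nat.card Ω := by
  rw [Nat.card_eq_fintype_card, Nat.card_eq_fintype_card, Fintype.card_subtype]
  have h1 : (univ.filter fun ω => P ω) ⊆ univ.biUnion fun i => univ.filter fun ω => bad i ω := by
    intro ω hω
    obtain ⟨i, hi⟩ := hP ω (Finset.mem_filter.1 hω).2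
    exact Finset.mem_biUnion.2 ⟨i, Finset.mem_univ _, Finset.mem_filter.2 ⟨Finset.mem_univ _, hi⟩⟩
  have h2 := (Finset.card_le_card h1).trans Finset.card_biUnion_le
  have h3 : ((univ.filter fun ω => P ω).card : ℝ) ≤
      (Fintype.card I : ℝ) * e * (Fintype.card Ω : ℝ) := by
    refine le_trans (Nat.cast_le.2 h2) ?_
    rw [Nat.cast_sum]
    refine le_trans (Finset.sum_le_sum fun i _ => hb i) (le_of_eq ?_)
    rw [Finset.sum_const, Finset.card_univ, nsmul_eq_mul]
    ring
  have h4 : (k : ℝ) * ((univ.filter fun ω => P ω).card : ℝ) ≤ (Fintype.card Ω : ℝ) := by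
    calc (k : ℝ) * ((univ.filter fun ω => P ω).card : ℝ)
        ≤ (k : ℝ) * ((Fintype.card I : ℝ) * e * (Fintype.card Ω : ℝ)) :=
          mul_le_mul_of_nonneg_left h3 (Nat.cast_nonneg _)
      _ = (k : ℝ) * ((Fintype.card I : ℝ) * e) * (Fintype.card Ω : ℝ) := by ring
      _ ≤ 1 * (Fintype.card Ω : ℝ) := mul_le_mul_of_nonneg_right hsum (Nat.cast_nonneg _)
      _ = (Fintype.card Ω : ℝ) := one_mul _
  exact_mod_cast h4

end EvLine

open EvLine in
/-- The line event is likely. -/
theorem evLine (hc : ChernoffStmt) (hf : FactsStmt) : EvLineStmt := by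
  obtain ⟨P1, hpow1⟩ := lg_pow_le (100000000 : ℝ) 1
  obtain ⟨P2, hpow2⟩ := lg_pow_le (10000 : ℝ) 2
  obtain ⟨P3, hlg⟩ := lg_ge 4
  refine ⟨P1 + P2 + P3 + 16, fun C h _ _ hset hp => ?_⟩
  classical
  have hF := hf C hset.valid
  -- the real parameters
  have hL : 4 ≤ C.lg := hlg C (by omega)
  have hb1 : 100000000 * C.lg ≤ (C.p : ℝ) := by simpa using hpow1 C (by omega)
  have hb2 : 10000 * C.lg ^ 2 ≤ (C.p : ℝ) := hpow2 C (by omega)
  have hp16 : (16 : ℝ) ≤ (C.p : ℝ) := by
    have : 16 ≤ C.p := by omega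
    exact_mod_cast this
  have hp0 : (0 : ℝ) < (C.p : ℝ) := by linarith
  have hhl : (C.p : ℝ) ≤ 4 * h := by exact_mod_cast hset.h_lower.le
  have hhu : 2 * (h : ℝ) ≤ C.p := by exact_mod_cast hset.h_upper
  have hh0 : (0 : ℝ) < h := by linarith
  have hn : C.nn = (C.p : ℝ) ^ 2 / 128 := by rw [Cfg.nn, C.q_cast]
  have hmu : (C.p : ℝ) / 64 ≤ C.mu h := by
    rw [Cfg.mu, hn, div_le_div_iff₀ (by norm_num) hh0]
    nlinarith
  have hdev : (C.p : ℝ) * C.lg / h ≤ 4 * C.lg := by
    rw [div_le_iff₀ hh0]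
    nlinarith
  let J : Type := ↥(C.A ∪ C.B) × ((Option (ZMod h) × ZMod h) ⊕ (ZMod h × ZMod h))
  let Lok : (C.Var → Gam) → Prop := fun χ => ∀ l, l ≠ C.inf →
    |(C.load (h := h) (χ, fun _ => 0) l : ℝ) - C.nn| ≤ Real.sqrt (C.q : ℝ) * C.lg
  let Z : (C.Var → Gam) → C.Ln → Finset C.Pt := fun χ l =>
    C.X (h := h) (χ, fun _ => 0) ∩ C.pts l
  let S : (Option (ZMod h) × ZMod h) ⊕ (ZMod h × ZMod h) → Finset (ZMod h × ZMod h) :=
    Sum.elim (fun x => univ.filter fun i => Cfg.form x.1 i = x.2) (fun i => {i})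
  let cnt : (C.Var → Gam) → (C.Ln → ZMod h × ZMod h) → C.Ln →
      (Option (ZMod h) × ZMod h) ⊕ (ZMod h × ZMod h) → ℝ := fun χ ι l x =>
    (((Z χ l).filter fun z => ι (C.other l z) ∈ S x).card : ℝ)
  let bad2 : J → Omega C h → Prop := fun j ω =>
    Sum.elim (fun _ => C.mu h / 20 < |cnt ω.1 ω.2 j.1 j.2 - C.mu h|)
      (fun _ => Real.sqrt (C.p : ℝ) < cnt ω.1 ω.2 j.1 j.2) j.2
  let bad : J → Omega C h → Prop := fun j ω => Lok ω.1 ∧ bad2 j ω
  refine union_bound 15 _ bad (2 * Real.exp (-(5 * C.lg + 5))) ?_ ?_ ?_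
  · -- every bad outcome is one of the bad events
    rintro ω ⟨hload, hline⟩
    have hX : C.X (h := h) (ω.1, fun _ => 0) = C.X ω := X_congr _ _ rfl
    have hLok : Lok ω.1 := fun l hl => by
      simpa [Cfg.load, hX] using hload.1 l hl
    unfold LineEvent at hline
    rw [not_and_or] at hline
    rcases hline with hline | hline
    · push Not at hline
      obtain ⟨l, hl, δ, v, hlt⟩ := hline
      refine ⟨(⟨l, hl⟩, Sum.inl (δ, v)), hLok, ?_⟩
      simp only [bad2, cnt, Z, hX, S, Sum.elim_inl, Finset.mem_filter, Finset.mem_univ, true_and]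
      convert hlt using 6
    · push Not at hline
      obtain ⟨l, hl, i, hlt⟩ := hline
      refine ⟨(⟨l, hl⟩, Sum.inr i), hLok, ?_⟩
      simp only [bad2, cnt, Z, hX, S, Sum.elim_inr, Finset.mem_singleton]
      convert hlt using 4
  · -- each bad event is unlikely
    rintro ⟨⟨l, hl⟩, x⟩
    have hlinf : l ≠ C.inf := by
      rintro rfl
      exact (Finset.mem_union.1 hl).elim hset.valid.inf_notA hset.valid.inf_notB
    have hfib := card_fiber (α := C.Var → Gam) (β := C.Ln → ZMod h × ZMod h) Lok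
      (bad2 (⟨l, hl⟩, x)) (2 * Real.exp (-(5 * C.lg + 5))) (by positivity)
    refine le_trans (le_of_eq ?_) (hfib fun χ hχ => ?_)
    · congr!
    have hinj : Set.InjOn (C.other l) ↑(Z χ l) := other_injOn hF _ hl
    have hZ : |((Z χ l).card : ℝ) - C.nn| ≤ (C.p : ℝ) * C.lg := by
      simpa [Cfg.load, Z, C.sqrt_q] using hχ l hlinf
    obtain ⟨hZ1, hZ2⟩ := abs_le.1 hZ
    rcases x with ⟨δ, v⟩ | i
    · set m := ((Z χ l).card : ℝ) / h with hm
      have hT := label_tails hc (Z χ l) (C.other l) hinj (S (Sum.inl (δ, v))) m (by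
        rw [show (S (Sum.inl (δ, v))).card = h by simpa [S] using card_form h δ v, hm]
        field_simp)
      obtain ⟨hlow, hup⟩ := hT.1 (1 / 30) (by norm_num) (by norm_num)
      have hm1 : C.mu h - 4 * C.lg ≤ m := by
        have h1 : (C.nn - C.p * C.lg) / h ≤ m :=
          div_le_div_of_nonneg_right (by linarith) hh0.le
        rw [sub_div] at h1
        rw [Cfg.mu]
        linarith
      have hm2 : m ≤ C.mu h + 4 * C.lg := by
        have h1 : m ≤ (C.nn + C.p * C.lg) / h :=
          div_le_div_of_nonneg_right (by linarith) hh0.le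
        rw [add_div] at h1
        rw [Cfg.mu]
        linarith
      have hexp : Real.exp (-((1 / 30) ^ 2 * m) / 3) ≤ Real.exp (-(5 * C.lg + 5)) :=
        Real.exp_le_exp.2 (by linarith)
      have hN : (0 : ℝ) ≤ (Fintype.card (C.Ln → ZMod h × ZMod h) : ℝ) := Nat.cast_nonneg _
      have hsub : (univ.filter fun ι : C.Ln → ZMod h × ZMod h =>
          C.mu h / 20 < |cnt χ ι l (Sum.inl (δ, v)) - C.mu h|) ⊆
          (univ.filter fun ι => cnt χ ι l (Sum.inl (δ, v)) ≤ (1 - 1 / 30) * m) ∪
          (univ.filter fun ι => (1 + 1 / 30) * m ≤ cnt χ ι l (Sum.inl (δ, v))) := by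
        intro ι hι
        simp only [Finset.mem_filter, Finset.mem_univ, true_and] at hι
        simp only [Finset.mem_union, Finset.mem_filter, Finset.mem_univ, true_and]
        rcases lt_abs.1 hι with h' | h'
        · right; linarith
        · left; linarith
      refine le_trans (Nat.cast_le.2 (Finset.card_le_card hsub)) ?_
      refine le_trans (Nat.cast_le.2 (Finset.card_union_le _ _)) ?_
      rw [Nat.cast_add]
      refine le_trans (add_le_add hlow hup) ?_
      have := mul_le_mul_of_nonneg_right hexp hN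
      linarith
    · set m := ((Z χ l).card : ℝ) * (1 / ((h : ℝ) * h)) with hm
      have hT := label_tails hc (Z χ l) (C.other l) hinj (S (Sum.inr i)) m (by simp [S, hm])
      have hs : 4 ≤ Real.sqrt (C.p : ℝ) := by
        rw [Real.le_sqrt' (by norm_num)]; linarith
      have hs2 : 100 * C.lg ≤ Real.sqrt (C.p : ℝ) := by
        rw [Real.le_sqrt' (by linarith)]; nlinarith
      have hm8 : 8 * m ≤ Real.sqrt (C.p : ℝ) := by
        have h1 : m ≤ 1 / 2 := by
          rw [hm, mul_one_div, div_le_iff₀ (by positivity)]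
          have h2 := mul_le_mul hhl hhl hp0.le (by positivity)
          nlinarith
        linarith
      refine le_trans (Nat.cast_le.2 (Finset.card_le_card ?_))
        (le_trans (hT.2 _ (by linarith) hm8) (mul_le_mul_of_nonneg_right ?_ (Nat.cast_nonneg _)))
      · intro ι hι
        simp only [Finset.mem_filter, Finset.mem_univ, true_and] at hι ⊢
        exact hι.le
      · have h5 : Real.exp (-Real.sqrt (C.p : ℝ) / 2) ≤ Real.exp (-(5 * C.lg + 5)) :=
          Real.exp_le_exp.2 (by linarith)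
        linarith [Real.exp_pos (-(5 * C.lg + 5))]
  · -- the number of events
    have hcard : Fintype.card J ≤ C.p ^ 6 := by
      have h1 : Fintype.card J = (C.A ∪ C.B).card * ((h + 1) * h + h * h) := by
        simp only [J, Fintype.card_prod, Fintype.card_coe, Fintype.card_sum, Fintype.card_option,
          ZMod.card]
      have h2 : (C.A ∪ C.B).card ≤ 2 * (C.q + C.p + 1) := by
        refine (Finset.card_union_le _ _).trans ?_
        rw [hset.valid.baerA.card_eq, hset.valid.baerB.card_eq]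
        omega
      have h3 : 2 * (C.q + C.p + 1) ≤ 8 * C.p ^ 2 := by
        have : C.p ≤ C.p ^ 2 := Nat.le_self_pow (by norm_num) _
        have : 1 ≤ C.p ^ 2 := Nat.one_le_pow _ _ (by omega)
        unfold Cfg.q
        omega
      have h4 : (h + 1) * h + h * h ≤ 2 * C.p ^ 2 := by
        have := hset.h_upper
        nlinarith
      rw [h1]
      refine (Nat.mul_le_mul (h2.trans h3) h4).trans ?_
      calc 8 * C.p ^ 2 * (2 * C.p ^ 2) = 16 * C.p ^ 4 := by ring
        _ ≤ C.p ^ 2 * C.p ^ 4 := Nat.mul_le_mul_right _ (by nlinarith)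
        _ = C.p ^ 6 := by ring
    have hP6 : (C.p : ℝ) ^ 6 = Real.exp (3 * C.lg) := by
      rw [C.lg_eq, show 3 * (2 * Real.log (C.p : ℝ)) = ((6 : ℕ) : ℝ) * Real.log (C.p : ℝ) by
        push_cast; ring, Real.exp_nat_mul, Real.exp_log hp0]
    have hJ : (Fintype.card J : ℝ) ≤ Real.exp (3 * C.lg) := by
      rw [← hP6]; exact_mod_cast hcard
    have h30 : (30 : ℝ) ≤ Real.exp (2 * C.lg + 5) := by
      have h' := Real.quadratic_le_exp_of_nonneg (x := 2 * C.lg + 5) (by linarith)
      nlinarith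
    have hkey : Real.exp (3 * C.lg) * Real.exp (-(5 * C.lg + 5)) * Real.exp (2 * C.lg + 5) = 1 := by
      rw [← Real.exp_add, ← Real.exp_add, Real.exp_eq_one_iff]; ring
    have h31 := mul_le_mul_of_nonneg_left h30
      (mul_nonneg (Real.exp_pos (3 * C.lg)).le (Real.exp_pos (-(5 * C.lg + 5))).le)
    have h32 := mul_le_mul_of_nonneg_right hJ (Real.exp_pos (-(5 * C.lg + 5))).le
    push_cast
    linarith

end Vale.P045.Baer
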