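import Vale.Agent.P045.Baer.EvLine

/-!
# P045: the load event is likely

On a line of `A ∪ B` all good points share one coordinate; after subtracting its colour from the
other coordinates the indicators use pairwise different coordinates. On any other line every
coordinate is used at most twice. The total mass has variance at most `2 |good| / 128`, since a
pair of coordinates belongs to at most two good points.
-/

namespace Vale.P045.Baer

open Finset

namespace EvLoad

variable {ι : Type} [Fintype ι] [DecidableEq ι]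

/-- Colour shifts are their own inverses. -/
lemma gam_comm {a b : Gam} (h : a = b + c0) : b = a + c0 := by
  subst h
  funext i
  simp only [Pi.add_apply, c0]
  generalize b i = t
  revert t
  decide

lemma gam_card : Fintype.card Gam = 128 := by simp [Gam]

/-- One prescribed shift has probability `1 / 128`. -/
lemma card_one (v w : ι) (h : v ≠ w) :
    ((univ.filter fun x : ι → Gam => x v = x w + c0).card : ℝ) =
      1 / 128 * (Fintype.card (ι → Gam) : ℝ) := by
  have h' : ((univ.filter fun x : ι → Gam => x v = x w + c0) ×ˢ (univ : Finset Gam)).card =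
      (univ : Finset (ι → Gam)).card := by
    refine Finset.card_bij' (fun p _ => Function.update p.1 v p.2)
      (fun y _ => (Function.update y v (y w + c0), y v)) ?_ ?_ ?_ ?_
    · intro p _
      exact mem_univ _
    · intro y _
      simp [h.symm]
    · intro p hp
      have hp' : p.1 v = p.1 w + c0 := (mem_filter.1 (mem_product.1 hp).1).2
      refine Prod.ext ?_ (by simp)
      simp [h.symm, ← hp']
    · intro y _
      simp
  rw [card_product, card_univ, card_univ, gam_card] at h'
  rw [← h']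
  push_cast
  ring

/-- A shift at a coordinate outside a first shift is independent of it. -/
lemma card_two_aux (a b c d : ι) (hab : a ≠ b) (hcd : c ≠ d) (hca : c ≠ a) (hcb : c ≠ b) :
    ((univ.filter fun x : ι → Gam => x a = x b + c0 ∧ x c = x d + c0).card : ℝ) =
      (1 / 128) ^ 2 * (Fintype.card (ι → Gam) : ℝ) := by
  have h' : ((univ.filter fun x : ι → Gam => x a = x b + c0 ∧ x c = x d + c0) ×ˢ
      (univ : Finset Gam)).card = (univ.filter fun x : ι → Gam => x a = x b + c0).card := by
    refine Finset.card_bij' (fun p _ => Function.update p.1 c p.2)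
      (fun y _ => (Function.update y c (y d + c0), y c)) ?_ ?_ ?_ ?_
    · intro p hp
      have hp' := (mem_filter.1 (mem_product.1 hp).1).2
      refine mem_filter.2 ⟨mem_univ _, ?_⟩
      simpa [hca.symm, hcb.symm] using hp'.1
    · intro y hy
      have hy' := (mem_filter.1 hy).2
      simp [hca.symm, hcb.symm, hcd.symm, hy']
    · intro p hp
      have hp' := (mem_filter.1 (mem_product.1 hp).1).2
      refine Prod.ext ?_ (by simp)
      simp [hcd.symm, ← hp'.2]
    · intro y _
      simp
  rw [card_product, card_univ, gam_card] at h'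
  have h1 := card_one a b hab
  rw [← h'] at h1
  push_cast at h1
  linarith

/-- Two different shifts are independent. -/
lemma card_two (a b c d : ι) (hab : a ≠ b) (hcd : c ≠ d)
    (hne : ¬((c = a ∧ d = b) ∨ (c = b ∧ d = a))) :
    ((univ.filter fun x : ι → Gam => x a = x b + c0 ∧ x c = x d + c0).card : ℝ) =
      (1 / 128) ^ 2 * (Fintype.card (ι → Gam) : ℝ) := by
  by_cases hc : c ≠ a ∧ c ≠ b
  · exact card_two_aux a b c d hab hcd hc.1 hc.2
  · have hda : d ≠ a := by
      rintro rfl
      rw [not_and_or, not_not, not_not] at hc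
      rcases hc with h | h
      · exact hcd h
      · exact hne (Or.inr ⟨h, rfl⟩)
    have hdb : d ≠ b := by
      rintro rfl
      rw [not_and_or, not_not, not_not] at hc
      rcases hc with h | h
      · exact hne (Or.inl ⟨h, rfl⟩)
      · exact hcd h
    rw [← card_two_aux a b d c hab hcd.symm hda hdb]
    congr 2
    exact filter_congr fun x _ => and_congr_right' ⟨gam_comm, gam_comm⟩

open Classical in
/-- Two-sided tail for events of probability `1 / 128`. -/
lemma dev_tail (hc : ChernoffStmt) {κ : Type} [Fintype κ] (Y : κ → (ι → Gam) → Prop)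
    (S : κ → Finset ι) (k : ℕ) (hk : 0 < k)
    (hY : ∀ e x y, (∀ i ∈ S e, x i = y i) → (Y e x ↔ Y e y))
    (hread : ∀ i, (univ.filter fun e => i ∈ S e).card ≤ k)
    (hone : ∀ e, ((univ.filter fun x => Y e x).card : ℝ) =
      1 / 128 * (Fintype.card (ι → Gam) : ℝ))
    (m d : ℝ) (hm : m = (Fintype.card κ : ℝ) / 128) (hd : 0 < d) (hd1 : d ≤ 1) :
    ((univ.filter fun x : ι → Gam =>
        d * m < |((univ.filter fun e => Y e x).card : ℝ) - m|).card : ℝ) ≤
      2 * Real.exp (-(d ^ 2 * m) / (3 * k)) * (Fintype.card (ι → Gam) : ℝ) := by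
  have H := (hc ι κ Gam Y S k (fun _ => 1 / 128) hk hY hread hone).1 d hd hd1
  simp only [sum_const, card_univ, nsmul_eq_mul, mul_one_div, ← hm] at H
  obtain ⟨hlow, hup⟩ := H
  refine le_trans (Nat.cast_le.2 (card_le_card (t :=
    (univ.filter fun x : ι → Gam => ((univ.filter fun e => Y e x).card : ℝ) ≤ (1 - d) * m) ∪
      univ.filter fun x : ι → Gam => (1 + d) * m ≤ ((univ.filter fun e => Y e x).card : ℝ)) ?_)) ?_
  · intro x hx
    have hx' := (mem_filter.1 hx).2
    simp only [mem_union, mem_filter, mem_univ, true_and]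
    rcases lt_abs.1 hx' with h | h
    · right; linarith
    · left; linarith
  · refine le_trans (Nat.cast_le.2 (card_union_le _ _)) ?_
    push_cast
    linarith

open Classical in
/-- Subtracting the colour of a pivot from the other coordinates. -/
lemma pivot_card (u : ι) (P : (ι → Gam) → Prop) :
    (univ.filter fun x : ι → Gam => P fun i => if i = u then x i else x i - x u).card =
      (univ.filter fun y : ι → Gam => P y).card := by
  refine Finset.card_bij' (fun x _ i => if i = u then x i else x i - x u)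
    (fun y _ i => if i = u then y i else y i + y u) ?_ ?_ ?_ ?_
  · intro x hx
    simpa using hx
  · intro y hy
    have e : (fun i => if i = u then (if i = u then y i else y i + y u) else
        (if i = u then y i else y i + y u) - (if u = u then y u else y u + y u)) = y := by
      funext i
      by_cases h : i = u <;> simp [h]
    refine mem_filter.2 ⟨mem_univ _, ?_⟩
    rw [e]
    exact (mem_filter.1 hy).2
  · intro x _
    funext i
    by_cases h : i = u <;> simp [h]
  · intro y _
    funext i
    by_cases h : i = u <;> simp [h]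

open Classical in
/-- A property of the colours alone. -/
lemma lift_card {α β : Type} [Fintype α] [Fintype β] (P : α → Prop) (e : ℝ)
    (h : ((univ.filter fun a => P a).card : ℝ) ≤ e * (Fintype.card α : ℝ)) :
    ((univ.filter fun x : α × β => P x.1).card : ℝ) ≤ e * (Fintype.card (α × β) : ℝ) := by
  have hs : (univ.filter fun x : α × β => P x.1) =
      (univ.filter fun a => P a) ×ˢ (univ : Finset β) := by
    ext x; simp
  rw [hs, card_product, card_univ, Fintype.card_prod, Nat.cast_mul, Nat.cast_mul, ← mul_assoc]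
  exact mul_le_mul_of_nonneg_right h (Nat.cast_nonneg _)

variable {C : Cfg} {h : ℕ}

open Classical in
/-- The load as a number of colour shifts. -/
lemma load_eq (ω : Omega C h) (l : C.Ln) :
    C.load ω l = (univ.filter fun e : ↥(C.good ∩ C.pts l) =>
      ω.1 (C.v1 e) = ω.1 (C.v2 e) + c0).card := by
  unfold Cfg.load
  symm
  refine Finset.card_bij (fun e _ => (e : C.Pt)) (fun e he => ?_)
    (fun a _ b _ hab => Subtype.ext hab) (fun z hz => ?_)
  · have h' := mem_inter.1 e.2
    exact mem_inter.2 ⟨mem_filter.2 ⟨h'.1, (mem_filter.1 he).2⟩, h'.2⟩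
  · obtain ⟨hX, hl⟩ := mem_inter.1 hz
    obtain ⟨hg, hc⟩ := mem_filter.1 hX
    exact ⟨⟨z, mem_inter.2 ⟨hg, hl⟩⟩, mem_filter.2 ⟨mem_univ _, hc⟩, rfl⟩

open Classical in
/-- A shared coordinate `u`, the others pairwise different. -/
lemma shared_tail (hc : ChernoffStmt) {κ : Type} [Fintype κ] (u : ι) (w : κ → ι)
    (hwu : ∀ e, w e ≠ u) (hwinj : Function.Injective w) (m d : ℝ)
    (hm : m = (Fintype.card κ : ℝ) / 128) (hd : 0 < d) (hd1 : d ≤ 1) :
    ((univ.filter fun x : ι → Gam =>
        d * m < |((univ.filter fun e => x (w e) = x u + c0).card : ℝ) - m|).card : ℝ) ≤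
      2 * Real.exp (-(d ^ 2 * m) / 3) * (Fintype.card (ι → Gam) : ℝ) := by
  have hT := dev_tail hc (fun e (y : ι → Gam) => y (w e) = c0) (fun e => {w e}) 1 one_pos
    (fun e x y hxy => by rw [hxy _ (mem_singleton_self _)])
    (fun i => by
      rw [card_le_one]
      intro a ha b hb
      simp only [mem_filter, mem_singleton] at ha hb
      exact hwinj (ha.2.symm.trans hb.2))
    (fun e => by
      have h0 := EvLine.card_coord (w e) ({c0} : Finset Gam)
      simp only [mem_singleton, card_singleton, gam_card, Nat.cast_one, one_mul,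
        Nat.cast_ofNat] at h0
      rw [one_div_mul_eq_div, eq_div_iff (by norm_num)]
      convert h0) m d hm hd hd1
  have hp := pivot_card u (fun y : ι → Gam =>
    d * m < |((univ.filter fun e => y (w e) = c0).card : ℝ) - m|)
  rw [show (3 : ℝ) * ((1 : ℕ) : ℝ) = 3 by norm_num] at hT
  refine le_trans (le_of_eq ?_) hT
  refine congrArg Nat.cast (Eq.trans ?_ (hp.trans ?_))
  · refine congrArg Finset.card (filter_congr fun x _ => ?_)
    have hcongr : (univ.filter fun e => x (w e) = x u + c0) =
        univ.filter fun e => (if w e = u then x (w e) else x (w e) - x u) = c0 :=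
      filter_congr fun e _ => by rw [if_neg (hwu e), sub_eq_iff_eq_add']
    rw [hcongr]
  · congr!

open Classical in
/-- The loads of one line deviate rarely. -/
lemma line_tail (hc : ChernoffStmt) (hV : C.Valid) (hF : Facts C) (l : C.Ln) (m d : ℝ)
    (hm : m = ((C.good ∩ C.pts l).card : ℝ) / 128) (hd : 0 < d) (hd1 : d ≤ 1) :
    ((univ.filter fun x : C.Var → Gam =>
        d * m < |((univ.filter fun e : ↥(C.good ∩ C.pts l) =>
          x (C.v1 e) = x (C.v2 e) + c0).card : ℝ) - m|).card : ℝ) ≤
      2 * Real.exp (-(d ^ 2 * m) / 6) * (Fintype.card (C.Var → Gam) : ℝ) := by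
  have hm' : m = (Fintype.card ↥(C.good ∩ C.pts l) : ℝ) / 128 := by
    rw [hm, Fintype.card_coe]
  have hm0 : 0 ≤ m := by rw [hm]; positivity
  have hexp : Real.exp (-(d ^ 2 * m) / 3) ≤ Real.exp (-(d ^ 2 * m) / 6) := by
    have : 0 ≤ d ^ 2 * m := by positivity
    rw [Real.exp_le_exp]
    linarith
  have hgood : ∀ e : ↥(C.good ∩ C.pts l), (e : C.Pt) ∈ C.good := fun e => (mem_inter.1 e.2).1
  have hsimp : ∀ e : ↥(C.good ∩ C.pts l),
      C.deg C.A (e : C.Pt) = 1 ∧ C.deg C.B (e : C.Pt) = 1 := fun e => (mem_filter.1 (hgood e)).2.2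
  have hl' : ∀ e : ↥(C.good ∩ C.pts l), (e : C.Pt) ∈ C.pts l := fun e => (mem_inter.1 e.2).2
  by_cases hA : l ∈ C.A
  · have hu : ∀ e : ↥(C.good ∩ C.pts l), C.v1 (e : C.Pt) = Sum.inl l := fun e => by
      rw [Cfg.v1, hF.aOf_unique _ (hsimp e).1 l hA (hl' e)]
    have hT := shared_tail hc (Sum.inl l : C.Var) (fun e : ↥(C.good ∩ C.pts l) => C.v2 e)
      (fun e he => hF.v_ne _ (hgood e) ((hu e).trans he.symm))
      (fun e e' he => by
        refine Subtype.ext (hF.pair_inj _ (hgood e) _ (hgood e') ?_ ?_)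
        · rw [hF.aOf_unique _ (hsimp e).1 l hA (hl' e), hF.aOf_unique _ (hsimp e').1 l hA (hl' e')]
        · exact hF.var_inj _ (hF.bOf_mem _).1 _ (hF.bOf_mem _).1 he) m d hm' hd hd1
    refine le_trans (le_of_eq ?_) (hT.trans (mul_le_mul_of_nonneg_right
      (mul_le_mul_of_nonneg_left hexp zero_le_two) (Nat.cast_nonneg _)))
    refine congrArg Nat.cast (congrArg Finset.card (filter_congr fun x _ => ?_))
    have hcongr : (univ.filter fun e : ↥(C.good ∩ C.pts l) => x (C.v1 e) = x (C.v2 e) + c0) =
        univ.filter fun e : ↥(C.good ∩ C.pts l) => x (C.v2 e) = x (Sum.inl l) + c0 :=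
      filter_congr fun e _ => by rw [hu e]; exact ⟨gam_comm, gam_comm⟩
    rw [hcongr]
  by_cases hB : l ∈ C.B
  · have hu : ∀ e : ↥(C.good ∩ C.pts l), C.v2 (e : C.Pt) = C.var l := fun e => by
      rw [Cfg.v2, hF.bOf_unique _ (hsimp e).2 l hB (hl' e)]
    have hT := shared_tail hc (C.var l) (fun e : ↥(C.good ∩ C.pts l) => C.v1 e)
      (fun e he => hF.v_ne _ (hgood e) (he.trans (hu e).symm))
      (fun e e' he => by
        refine Subtype.ext (hF.pair_inj _ (hgood e) _ (hgood e') (Sum.inl.inj he) ?_)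
        rw [hF.bOf_unique _ (hsimp e).2 l hB (hl' e), hF.bOf_unique _ (hsimp e').2 l hB (hl' e')])
      m d hm' hd hd1
    refine le_trans (le_of_eq ?_) (hT.trans (mul_le_mul_of_nonneg_right
      (mul_le_mul_of_nonneg_left hexp zero_le_two) (Nat.cast_nonneg _)))
    refine congrArg Nat.cast (congrArg Finset.card (filter_congr fun x _ => ?_))
    have hcongr : (univ.filter fun e : ↥(C.good ∩ C.pts l) => x (C.v1 e) = x (C.v2 e) + c0) =
        univ.filter fun e : ↥(C.good ∩ C.pts l) => x (C.v1 e) = x (C.var l) + c0 :=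
      filter_congr fun e _ => by rw [hu e]
    rw [hcongr]
  have hAB : l ∉ C.A ∪ C.B := fun h => (mem_union.1 h).elim hA hB
  have hread : ∀ v : C.Var, (univ.filter fun e : ↥(C.good ∩ C.pts l) =>
      v ∈ ({C.v1 e, C.v2 e} : Finset C.Var)).card ≤ 2 := by
    intro v
    obtain ⟨g, g', hg, hg', hcov⟩ := hF.v_lines v
    have hone : ∀ k ∈ C.A ∪ C.B,
        (univ.filter fun e : ↥(C.good ∩ C.pts l) => (e : C.Pt) ∈ C.pts k).card ≤ 1 := by
      intro k hk
      rw [card_le_one]
      intro a ha b hb
      refine Subtype.ext ((hV.meet l k fun h => hAB (h ▸ hk)).unique ⟨hl' a, ?_⟩ ⟨hl' b, ?_⟩)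
      · exact (mem_filter.1 ha).2
      · exact (mem_filter.1 hb).2
    refine le_trans (card_le_card (t := (univ.filter fun e : ↥(C.good ∩ C.pts l) =>
      (e : C.Pt) ∈ C.pts g) ∪ univ.filter fun e : ↥(C.good ∩ C.pts l) =>
      (e : C.Pt) ∈ C.pts g') ?_) ((card_union_le _ _).trans
        (Nat.add_le_add (hone g hg) (hone g' hg')))
    intro e he
    have hv : v = C.v1 e ∨ v = C.v2 e := by simpa using (mem_filter.1 he).2
    simpa using hcov _ (hgood e) (hv.imp Eq.symm Eq.symm)
  have hT := dev_tail hc (κ := ↥(C.good ∩ C.pts l))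
    (fun (e : ↥(C.good ∩ C.pts l)) (x : C.Var → Gam) => x (C.v1 e.1) = x (C.v2 e.1) + c0)
    (fun e => ({C.v1 e.1, C.v2 e.1} : Finset C.Var)) 2 two_pos
    (fun e x y hxy => by rw [hxy (C.v1 e.1) (by simp), hxy (C.v2 e.1) (by simp)])
    hread (fun e => by convert card_one _ _ (hF.v_ne _ (hgood e))) m d hm' hd hd1
  rw [show (3 : ℝ) * ((2 : ℕ) : ℝ) = 6 by norm_num] at hT
  refine le_trans (le_of_eq ?_) hT
  congr!

open Classical in
/-- The second moment of the mass. -/
lemma mass_var (hF : Facts C) :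
    ∑ x : C.Var → Gam,
        (((C.good.filter fun z => x (C.v1 z) = x (C.v2 z) + c0).card : ℝ) -
          (C.good.card : ℝ) / 128) ^ 2 ≤
      2 * ((C.good.card : ℝ) / 128) * (Fintype.card (C.Var → Gam) : ℝ) := by
  set N : ℝ := (Fintype.card (C.Var → Gam) : ℝ) with hN
  set g : ℝ := (C.good.card : ℝ) with hg
  have hfirst : ∑ x : C.Var → Gam,
      ((C.good.filter fun z => x (C.v1 z) = x (C.v2 z) + c0).card : ℝ) = g / 128 * N := by
    simp only [card_filter, Nat.cast_sum]
    rw [sum_comm, sum_congr rfl fun z hz => ?_, sum_const, nsmul_eq_mul, ← hg,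
      show g * (1 / 128 * N) = g / 128 * N by ring]
    rw [← Nat.cast_sum, ← card_filter, hN, card_one _ _ (hF.v_ne z hz)]
  have hsecond : ∑ x : C.Var → Gam,
      ((C.good.filter fun z => x (C.v1 z) = x (C.v2 z) + c0).card : ℝ) ^ 2 ≤
        g * (g * (1 / 128) ^ 2 + 2 * (1 / 128)) * N := by
    have e : ∀ x : C.Var → Gam,
        ((C.good.filter fun z => x (C.v1 z) = x (C.v2 z) + c0).card : ℝ) ^ 2 =
        ∑ z ∈ C.good, ∑ w ∈ C.good,
          if x (C.v1 z) = x (C.v2 z) + c0 ∧ x (C.v1 w) = x (C.v2 w) + c0 then (1 : ℝ) else 0 :=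
      fun x => by
        rw [sq, card_filter, Nat.cast_sum, sum_mul_sum]
        refine sum_congr rfl fun z _ => sum_congr rfl fun w _ => ?_
        split_ifs <;> simp_all
    rw [sum_congr rfl fun x _ => e x, sum_comm]
    have hz : ∀ z ∈ C.good, ∑ x : C.Var → Gam, ∑ w ∈ C.good,
        (if x (C.v1 z) = x (C.v2 z) + c0 ∧ x (C.v1 w) = x (C.v2 w) + c0 then (1 : ℝ) else 0) ≤
        (g * (1 / 128) ^ 2 + 2 * (1 / 128)) * N := by
      intro z hz
      rw [sum_comm]
      set same : C.Pt → Prop := fun w =>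
        (C.v1 w = C.v1 z ∧ C.v2 w = C.v2 z) ∨ (C.v1 w = C.v2 z ∧ C.v2 w = C.v1 z) with hsame
      have hb : ∀ w ∈ C.good, (∑ x : C.Var → Gam,
          if x (C.v1 z) = x (C.v2 z) + c0 ∧ x (C.v1 w) = x (C.v2 w) + c0 then (1 : ℝ) else 0) ≤
          (1 / 128) ^ 2 * N + if same w then 1 / 128 * N else 0 := by
        intro w hw
        rw [← sum_filter, sum_const, nsmul_eq_mul, mul_one]
        by_cases hs : same w
        · rw [if_pos hs]
          have h1 := card_one _ _ (hF.v_ne z hz)
          have h2 : (univ.filter fun x : C.Var → Gam =>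
              x (C.v1 z) = x (C.v2 z) + c0 ∧ x (C.v1 w) = x (C.v2 w) + c0).card ≤
              (univ.filter fun x : C.Var → Gam => x (C.v1 z) = x (C.v2 z) + c0).card :=
            card_le_card fun x hx => mem_filter.2 ⟨mem_univ _, (mem_filter.1 hx).2.1⟩
          have h3 : (0 : ℝ) ≤ (1 / 128) ^ 2 * N := by positivity
          have h4 := (Nat.cast_le (α := ℝ)).2 h2
          rw [hN] at h3 ⊢
          linarith
        · rw [if_neg hs, add_zero, hN,
            card_two _ _ _ _ (hF.v_ne z hz) (hF.v_ne w hw) hs]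
      have hcard : ((C.good.filter same).card : ℝ) ≤ 2 := by
        have huniq : ∀ (a b : C.Var),
            (C.good.filter fun w => C.v1 w = a ∧ C.v2 w = b).card ≤ 1 := fun a b => by
          rw [card_le_one]
          intro w hw w' hw'
          obtain ⟨h1, h2, h3⟩ := mem_filter.1 hw
          obtain ⟨h1', h2', h3'⟩ := mem_filter.1 hw'
          refine hF.pair_inj _ h1 _ h1' (Sum.inl.inj (h2.trans h2'.symm)) ?_
          exact hF.var_inj _ (hF.bOf_mem _).1 _ (hF.bOf_mem _).1 (h3.trans h3'.symm)
        have : (C.good.filter same).card ≤ 2 := by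
          refine le_trans (card_le_card (t :=
            (C.good.filter fun w => C.v1 w = C.v1 z ∧ C.v2 w = C.v2 z) ∪
              C.good.filter fun w => C.v1 w = C.v2 z ∧ C.v2 w = C.v1 z) ?_)
            ((card_union_le _ _).trans (Nat.add_le_add (huniq _ _) (huniq _ _)))
          intro w hw
          obtain ⟨h1, h2⟩ := mem_filter.1 hw
          rcases h2 with h2 | h2
          · exact mem_union_left _ (mem_filter.2 ⟨h1, h2⟩)
          · exact mem_union_right _ (mem_filter.2 ⟨h1, h2⟩)
        exact_mod_cast this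
      refine (sum_le_sum hb).trans ?_
      rw [sum_add_distrib, sum_const, ← sum_filter, sum_const, nsmul_eq_mul, nsmul_eq_mul, ← hg]
      have hN0 : 0 ≤ N := Nat.cast_nonneg _
      nlinarith
    refine (sum_le_sum hz).trans_eq ?_
    rw [sum_const, nsmul_eq_mul, ← hg]
    ring
  have e : ∀ x : C.Var → Gam,
      (((C.good.filter fun z => x (C.v1 z) = x (C.v2 z) + c0).card : ℝ) - g / 128) ^ 2 =
      ((C.good.filter fun z => x (C.v1 z) = x (C.v2 z) + c0).card : ℝ) ^ 2 -
        2 * (g / 128) * ((C.good.filter fun z => x (C.v1 z) = x (C.v2 z) + c0).card : ℝ) +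
        (g / 128) ^ 2 := fun x => by ring
  rw [sum_congr rfl fun x _ => e x, sum_add_distrib, sum_sub_distrib, ← mul_sum, hfirst,
    sum_const, card_univ, nsmul_eq_mul, ← hN]
  nlinarith

end EvLoad

open EvLoad in
/-- The load event is likely. -/
theorem evLoad (hc : ChernoffStmt) (hf : FactsStmt) : EvLoadStmt := by
  obtain ⟨P1, hpow⟩ := lg_pow_le (1000000 : ℝ) 1
  obtain ⟨P2, hlg⟩ := lg_ge 4
  refine ⟨P1 + P2 + 1000000, fun C h _ _ hset hp => ?_⟩
  classical
  have hV := hset.valid
  have hF := hf C hV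
  have hL : 4 ≤ C.lg := hlg C (by omega)
  have hb1 : 1000000 * C.lg ≤ (C.p : ℝ) := by simpa using hpow C (by omega)
  have hp16 : (1000000 : ℝ) ≤ (C.p : ℝ) := by
    have : 1000000 ≤ C.p := by omega
    exact_mod_cast this
  have hp0 : (0 : ℝ) < (C.p : ℝ) := by linarith
  have hq : (C.q : ℝ) = (C.p : ℝ) ^ 2 := C.q_cast
  have hnn : C.nn = (C.p : ℝ) ^ 2 / 128 := by rw [Cfg.nn, hq]
  let badLine : C.Ln → (C.Var → Gam) → Prop := fun l x => l ≠ C.inf ∧
    (C.p : ℝ) * C.lg < |((univ.filter fun e : ↥(C.good ∩ C.pts l) =>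
      x (C.v1 e) = x (C.v2 e) + c0).card : ℝ) - C.nn|
  let badMass : (C.Var → Gam) → Prop := fun x => (C.q : ℝ) * Real.sqrt (C.p : ℝ) <
    |((C.good.filter fun z => x (C.v1 z) = x (C.v2 z) + c0).card : ℝ) - (C.q : ℝ) * C.nn|
  -- the lines
  have hlines : 30 * Nat.card {ω : Omega C h // ∃ l, badLine l ω.1} ≤ Nat.card (Omega C h) := by
    refine EvLine.union_bound 30 _ (fun l (ω : Omega C h) => badLine l ω.1)
      (2 * Real.exp (-(5 * C.lg + 5))) (fun ω hω => hω) (fun l => ?_) ?_
    · refine le_trans (le_of_eq ?_)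
        (lift_card (β := C.Ln → ZMod h × ZMod h) (badLine l) (2 * Real.exp (-(5 * C.lg + 5))) ?_)
      · congr!
      by_cases hinf : l = C.inf
      · have hno : ∀ x, ¬ badLine l x := fun x hx => hx.1 hinf
        simp only [hno, filter_false, card_empty, Nat.cast_zero]
        positivity
      set m : ℝ := ((C.good ∩ C.pts l).card : ℝ) / 128 with hm
      have hcl : C.q + 1 ≤ (C.good ∩ C.pts l).card + C.p + 3 := by
        rw [inter_comm]
        by_cases hAB : l ∈ C.A ∪ C.B
        · exact hF.good_baer l hAB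
        · have := hF.good_line l (by
            simp only [mem_union, not_or] at hAB
            simp [Cfg.ordinary, hAB, hinf])
          omega
      have hcu : (C.good ∩ C.pts l).card ≤ C.q + 1 :=
        (card_le_card inter_subset_right).trans_eq (hV.card_pts l)
      have hcl' : (C.p : ℝ) ^ 2 + 1 ≤ ((C.good ∩ C.pts l).card : ℝ) + C.p + 3 := by
        rw [← hq]; exact_mod_cast hcl
      have hcu' : ((C.good ∩ C.pts l).card : ℝ) ≤ (C.p : ℝ) ^ 2 + 1 := by
        rw [← hq]; exact_mod_cast hcu
      have hm1 : (C.p : ℝ) ^ 2 / 256 ≤ m := by rw [hm]; nlinarith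
      have hm0 : 0 < m := lt_of_lt_of_le (by positivity) hm1
      have hmn : |m - C.nn| ≤ (C.p : ℝ) := by
        rw [abs_le, hnn, hm]; constructor <;> linarith
      set d : ℝ := (C.p : ℝ) * C.lg / (2 * m) with hd
      have hdm : d * m = (C.p : ℝ) * C.lg / 2 := by rw [hd]; field_simp
      have hd0 : 0 < d := by rw [hd]; positivity
      have hd1 : d ≤ 1 := by
        rw [hd, div_le_one (by positivity)]
        nlinarith [mul_le_mul_of_nonneg_left hb1 hp0.le]
      refine le_trans (Nat.cast_le.2 (card_le_card (t := univ.filter fun x : C.Var → Gam =>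
        d * m < |((univ.filter fun e : ↥(C.good ∩ C.pts l) =>
          x (C.v1 e) = x (C.v2 e) + c0).card : ℝ) - m|) ?_))
        ((line_tail hc hV hF l m d hm hd0 hd1).trans ?_)
      · intro x hx
        simp only [mem_filter, mem_univ, true_and] at hx ⊢
        obtain ⟨-, hx'⟩ := hx
        have hlp : (C.p : ℝ) ≤ C.p * C.lg / 2 := by nlinarith
        rw [hdm]
        have := abs_sub_le ((univ.filter fun e : ↥(C.good ∩ C.pts l) =>
          x (C.v1 e) = x (C.v2 e) + c0).card : ℝ) m C.nn
        linarith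
      · refine mul_le_mul_of_nonneg_right (mul_le_mul_of_nonneg_left (Real.exp_le_exp.2 ?_)
          zero_le_two) (Nat.cast_nonneg _)
        have e : d ^ 2 * m = (C.p : ℝ) ^ 2 * C.lg ^ 2 / (4 * m) := by
          rw [hd]; field_simp; ring
        have hmu : m ≤ (C.p : ℝ) ^ 2 / 127 := by rw [hm]; nlinarith
        have h2 : 30 * C.lg ^ 2 ≤ d ^ 2 * m := by
          rw [e, le_div_iff₀ (by positivity)]
          nlinarith [mul_le_mul_of_nonneg_left hmu (sq_nonneg C.lg)]
        nlinarith
    · -- the number of lines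
      have hcard : (Fintype.card C.Ln : ℝ) ≤ Real.exp (3 * C.lg) := by
        have h1 : (Fintype.card C.Ln : ℝ) = (C.p : ℝ) ^ 4 + (C.p : ℝ) ^ 2 + 1 := by
          rw [hV.card_ln]; push_cast; rw [hq]; ring
        have hP6 : (C.p : ℝ) ^ 6 = Real.exp (3 * C.lg) := by
          rw [C.lg_eq, show 3 * (2 * Real.log (C.p : ℝ)) = ((6 : ℕ) : ℝ) * Real.log (C.p : ℝ) by
            push_cast; ring, Real.exp_nat_mul, Real.exp_log hp0]
        rw [h1, ← hP6]
        have hp1 : (1 : ℝ) ≤ C.p := by linarith
        have h2 : (C.p : ℝ) ^ 2 ≤ (C.p : ℝ) ^ 4 := pow_le_pow_right₀ hp1 (by norm_num)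
        have h3 : (1 : ℝ) ≤ (C.p : ℝ) ^ 4 := one_le_pow₀ hp1
        have h4 : 3 * (C.p : ℝ) ^ 4 ≤ (C.p : ℝ) ^ 2 * (C.p : ℝ) ^ 4 :=
          mul_le_mul_of_nonneg_right (by nlinarith) (by positivity)
        linarith [show (C.p : ℝ) ^ 2 * (C.p : ℝ) ^ 4 = (C.p : ℝ) ^ 6 by ring]
      have h60 : (60 : ℝ) ≤ Real.exp (2 * C.lg + 5) := by
        have h' := Real.quadratic_le_exp_of_nonneg (x := 2 * C.lg + 5) (by linarith)
        nlinarith
      have hkey : Real.exp (3 * C.lg) * Real.exp (-(5 * C.lg + 5)) * Real.exp (2 * C.lg + 5) = 1 := by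
        rw [← Real.exp_add, ← Real.exp_add, Real.exp_eq_one_iff]; ring
      have h31 := mul_le_mul_of_nonneg_left h60
        (mul_nonneg (Real.exp_pos (3 * C.lg)).le (Real.exp_pos (-(5 * C.lg + 5))).le)
      have h32 := mul_le_mul_of_nonneg_right hcard (Real.exp_pos (-(5 * C.lg + 5))).le
      push_cast
      linarith
  -- the mass
  have hmass : 30 * Nat.card {ω : Omega C h // badMass ω.1} ≤ Nat.card (Omega C h) := by
    have hbound : ((univ.filter fun x => badMass x).card : ℝ) ≤
        1 / 30 * (Fintype.card (C.Var → Gam) : ℝ) := by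
      set N : ℝ := (Fintype.card (C.Var → Gam) : ℝ) with hN
      have hN0 : 0 ≤ N := Nat.cast_nonneg _
      set g : ℝ := (C.good.card : ℝ) with hg
      have hgl : (C.q : ℝ) ^ 2 ≤ g + 2 * ((C.q : ℝ) + C.p + 1) := by
        rw [hg]; exact_mod_cast hF.good_card
      have hgu : g ≤ (C.q : ℝ) ^ 2 + C.q + 1 := by
        have : C.good.card ≤ C.q ^ 2 + C.q + 1 := (card_le_univ _).trans_eq hV.card_pt
        rw [hg]; exact_mod_cast this
      set t : ℝ := (C.q : ℝ) * Real.sqrt (C.p : ℝ) with ht
      have hsp : 1 ≤ Real.sqrt (C.p : ℝ) := Real.one_le_sqrt.2 (by linarith)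
      have hq1 : (1000000 : ℝ) ≤ C.q := by rw [hq]; nlinarith
      have hpq : (C.p : ℝ) ≤ C.q := by rw [hq]; nlinarith
      have hqt : (C.q : ℝ) ≤ t := by rw [ht]; nlinarith
      have hshift : |g / 128 - (C.q : ℝ) * C.nn| ≤ t / 2 := by
        rw [abs_le, Cfg.nn]; constructor <;> nlinarith
      have hpt : ∀ x : C.Var → Gam, badMass x → t ^ 2 / 4 ≤
          (((C.good.filter fun z => x (C.v1 z) = x (C.v2 z) + c0).card : ℝ) - g / 128) ^ 2 := by
        intro x hx
        have := abs_sub_le ((C.good.filter fun z => x (C.v1 z) = x (C.v2 z) + c0).card : ℝ)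
          (g / 128) ((C.q : ℝ) * C.nn)
        have h1 : t / 2 ≤
            |((C.good.filter fun z => x (C.v1 z) = x (C.v2 z) + c0).card : ℝ) - g / 128| := by
          simp only [badMass] at hx; linarith
        have h2 := pow_le_pow_left₀ (by positivity) h1 2
        rw [sq_abs] at h2
        linarith
      have hsum : ((univ.filter fun x => badMass x).card : ℝ) * (t ^ 2 / 4) ≤
          2 * (g / 128) * N := by
        refine le_trans ?_ (mass_var hF)
        calc ((univ.filter fun x => badMass x).card : ℝ) * (t ^ 2 / 4)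
            = ∑ _x ∈ univ.filter fun x => badMass x, t ^ 2 / 4 := by rw [sum_const, nsmul_eq_mul]
          _ ≤ ∑ x ∈ univ.filter fun x => badMass x,
              (((C.good.filter fun z => x (C.v1 z) = x (C.v2 z) + c0).card : ℝ) - g / 128) ^ 2 :=
            sum_le_sum fun x hx => hpt x (mem_filter.1 hx).2
          _ ≤ _ := sum_le_sum_of_subset_of_nonneg (filter_subset _ _) fun _ _ _ => sq_nonneg _
      have ht2 : 2 * (g / 128) ≤ 1 / 30 * (t ^ 2 / 4) := by
        rw [ht, mul_pow, Real.sq_sqrt hp0.le]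
        nlinarith [mul_le_mul_of_nonneg_left hp16 (sq_nonneg (C.q : ℝ))]
      have hpos : 0 < t ^ 2 / 4 := by positivity
      refine le_of_mul_le_mul_right ?_ hpos
      calc ((univ.filter fun x => badMass x).card : ℝ) * (t ^ 2 / 4) ≤ 2 * (g / 128) * N := hsum
        _ ≤ 1 / 30 * (t ^ 2 / 4) * N := mul_le_mul_of_nonneg_right ht2 hN0
        _ = 1 / 30 * N * (t ^ 2 / 4) := by ring
    have h1 := lift_card (β := C.Ln → ZMod h × ZMod h) badMass (1 / 30) hbound
    rw [Nat.card_eq_fintype_card, Nat.card_eq_fintype_card, Fintype.card_subtype]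
    have h2 : (30 : ℝ) * ((univ.filter fun ω : Omega C h => badMass ω.1).card : ℝ) ≤
        (Fintype.card (Omega C h) : ℝ) := by
      have h3 : ((univ.filter fun ω : Omega C h => badMass ω.1).card : ℝ) ≤
          1 / 30 * (Fintype.card (Omega C h) : ℝ) := by convert h1
      linarith
    exact_mod_cast h2
  -- combine
  simp only [Nat.card_eq_fintype_card, Fintype.card_subtype] at hlines hmass ⊢
  have hsub : (univ.filter fun ω : Omega C h => ¬ LoadEvent C ω) ⊆
      (univ.filter fun ω : Omega C h => ∃ l, badLine l ω.1) ∪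
        univ.filter fun ω : Omega C h => badMass ω.1 := by
    intro ω hω
    have hω' := (mem_filter.1 hω).2
    simp only [LoadEvent, not_and_or, not_forall, not_le] at hω'
    simp only [mem_union, mem_filter, mem_univ, true_and]
    rcases hω' with ⟨l, hl, hlt⟩ | hlt
    · refine Or.inl ⟨l, hl, ?_⟩
      rw [← load_eq ω l, ← C.sqrt_q]
      exact hlt
    · exact Or.inr hlt
  have := (card_le_card hsub).trans (card_union_le _ _)
  omega

end Vale.P045.Baer
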