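import Vale.Agent.P045.Baer.EvBasicPins
import Vale.Agent.P045.Baer.EvLoad
import Vale.Agent.P045.Baer.EvLine
import Vale.Agent.P045.Baer.EvBox

/-!
# P045: the basic events
-/

namespace Vale.P045.Baer

/-- The basic events are likely. -/
theorem evBasic (hc : ChernoffStmt) (hf : FactsStmt) : EvBasicStmt :=
  evBasic_of_parts (evLoad hc hf) (evLine hc hf) (evBox hc hf)

end Vale.P045.Baer
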