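import Vale.Agent.P045.Baer.Pins

/-!
# P045: the basic events in three independent parts
-/

namespace Vale.P045.Baer

open Finset

open Classical in
/-- Loads of all lines and total mass are as expected. -/
def LoadEvent (C : Cfg) {h : ℕ} (ω : Omega C h) : Prop :=
  (∀ l, l ≠ C.inf → |(C.load ω l : ℝ) - C.nn| ≤ Real.sqrt (C.q : ℝ) * C.lg) ∧
  |((C.X ω).card : ℝ) - (C.q : ℝ) * C.nn| ≤ (C.q : ℝ) * Real.sqrt (C.p : ℝ)

open Classical in
/-- The classes on a line of `A ∪ B`, and the cells, are as expected. -/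
def LineEvent (C : Cfg) {h : ℕ} (ω : Omega C h) : Prop :=
  (∀ l ∈ C.A ∪ C.B, ∀ (δ : Option (ZMod h)) (v : ZMod h),
    |(((C.X ω ∩ C.pts l).filter fun z => Cfg.form δ (ω.2 (C.other l z)) = v).card : ℝ) - C.mu h|
      ≤ C.mu h / 20) ∧
  (∀ l ∈ C.A ∪ C.B, ∀ i : ZMod h × ZMod h,
    (((C.X ω ∩ C.pts l).filter fun z => ω.2 (C.other l z) = i).card : ℝ) ≤ Real.sqrt (C.p : ℝ))

open Classical in
/-- Global classes and boxes on ordinary lines are as expected. -/
def BoxEvent (C : Cfg) {h : ℕ} (ω : Omega C h) : Prop :=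
  (∀ (c : Gam) (δ : Option (ZMod h)) (v : ZMod h),
    ((C.A.filter fun a => C.colA ω a = c ∧ Cfg.form δ (ω.2 a) = v).card : ℝ)
      ≤ 21 / 20 * C.mu h) ∧
  (∀ (c : Gam) (δ : Option (ZMod h)) (v : ZMod h),
    ((C.B.filter fun b => C.colB ω b = c ∧ Cfg.form δ (ω.2 b) = v).card : ℝ)
      ≤ 21 / 20 * C.mu h) ∧
  (∀ l ∈ C.ordinary, ∀ (j : ZMod h) (c : Gam) (v v' : ZMod h),
    (((C.X ω ∩ C.pts l).filter fun z =>
      C.Mem ω z (Sum.inr (Sum.inr (j, c, v, v')))).card : ℝ) ≤ Real.sqrt (C.p : ℝ))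

/-- The load event is likely. -/
def EvLoadStmt : Prop :=
  ForLarge fun C h _ _ =>
    15 * Nat.card {ω : Omega C h // ¬ LoadEvent C ω} ≤ Nat.card (Omega C h)

/-- The line event is likely (it may use the load event: it is the event `load and line`). -/
def EvLineStmt : Prop :=
  ForLarge fun C h _ _ =>
    15 * Nat.card {ω : Omega C h // LoadEvent C ω ∧ ¬ LineEvent C ω} ≤ Nat.card (Omega C h)

/-- The box event is likely (it may use the load event). -/
def EvBoxStmt : Prop :=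
  ForLarge fun C h _ _ =>
    15 * Nat.card {ω : Omega C h // LoadEvent C ω ∧ ¬ BoxEvent C ω} ≤ Nat.card (Omega C h)

theorem evBasic_of_parts (h1 : EvLoadStmt) (h2 : EvLineStmt) (h3 : EvBoxStmt) : EvBasicStmt := by
  obtain ⟨P1, h1⟩ := h1
  obtain ⟨P2, h2⟩ := h2
  obtain ⟨P3, h3⟩ := h3
  refine ⟨P1 + P2 + P3, ?_⟩
  intro C h hh hne hset hp
  have a1 := h1 C h hset (by omega)
  have a2 := h2 C h hset (by omega)
  have a3 := h3 C h hset (by omega)
  classical
  simp only [Nat.card_eq_fintype_card, Fintype.card_subtype] at a1 a2 a3 ⊢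
  have hsub : (Finset.univ.filter fun ω : Omega C h => ¬ C.EvBasic ω) ⊆
      ((Finset.univ.filter fun ω => ¬ LoadEvent C ω) ∪
        (Finset.univ.filter fun ω => LoadEvent C ω ∧ ¬ LineEvent C ω)) ∪
        (Finset.univ.filter fun ω => LoadEvent C ω ∧ ¬ BoxEvent C ω) := by
    intro ω hω
    simp only [Finset.mem_union, Finset.mem_filter, Finset.mem_univ, true_and] at hω ⊢
    by_cases b1 : LoadEvent C ω
    · by_cases b2 : LineEvent C ω
      · by_cases b3 : BoxEvent C ω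
        · exact absurd ⟨b1.1, b1.2, b2.1, b3.1, b3.2.1, b3.2.2, b2.2⟩ hω
        · exact Or.inr ⟨b1, b3⟩
      · exact Or.inl (Or.inr ⟨b1, b2⟩)
    · exact Or.inl (Or.inl b1)
  have hc := (Finset.card_le_card hsub).trans ((Finset.card_union_le _ _).trans
    (Nat.add_le_add_right (Finset.card_union_le _ _) _))
  omega

end Vale.P045.Baer
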