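import Vale.Agent.P045.Baer.Pins

/-!
# P045: the grid event and the sampling event are likely

Both are union bounds over the read-`k` lower tail: a point with two different coordinates is an
edge with probability exactly `1 / 128`.
-/

namespace Vale.P045.Baer

open Finset

attribute [local irreducible] Cfg.tg Cfg.lam

/-- Two different coordinates differ by a prescribed shift with probability `1 / 128`. -/
lemma card_shift {ι : Type} [Fintype ι] [DecidableEq ι] (v w : ι) (h : v ≠ w) (c : Gam) :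
    Nat.card {x : ι → Gam // x v = x w + c} * 128 = Nat.card (ι → Gam) := by
  have e : ({x : ι → Gam // x v = x w + c} × Gam) ≃ (ι → Gam) :=
    { toFun := fun p => Function.update p.1.1 v p.2
      invFun := fun y => (⟨Function.update y v (y w + c), by simp [h.symm]⟩, y v)
      left_inv := by
        rintro ⟨⟨x, hx⟩, g⟩
        simp [h.symm, ← hx]
      right_inv := fun y => by simp }
  have := Nat.card_congr e
  rw [Nat.card_prod] at this
  rw [← this]
  congr 1
  simp [Gam]

/-- The probability of a prescribed shift. -/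
lemma card_shift_real {ι : Type} [Fintype ι] [DecidableEq ι] (v w : ι) (h : v ≠ w) (c : Gam) :
    (Nat.card {x : ι → Gam // x v = x w + c} : ℝ) = 1 / 128 * (Nat.card (ι → Gam) : ℝ) := by
  rw [← card_shift v w h c, Nat.cast_mul, Nat.cast_ofNat]
  ring

/-- The lower tail for shifts of coordinate pairs of read number `k`. -/
lemma few_shifts (hc : ChernoffStmt) {ι κ : Type} [Fintype ι] [DecidableEq ι] [Fintype κ]
    (v w : κ → ι) (hne : ∀ e, v e ≠ w e) (k : ℕ) (hk : 0 < k)
    (hread : ∀ i, Nat.card {e // v e = i ∨ w e = i} ≤ k) (d : ℝ) (hd : 0 < d) (hd1 : d ≤ 1) :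
    (Nat.card {x : ι → Gam //
        (Nat.card {e // x (v e) = x (w e) + c0} : ℝ) ≤ (1 - d) * ((Fintype.card κ : ℝ) / 128)} : ℝ) ≤
      Real.exp (-(d ^ 2 * ((Fintype.card κ : ℝ) / 128)) / (3 * k)) *
        (Nat.card (ι → Gam) : ℝ) := by
  classical
  have h := ((hc ι κ Gam (fun e x => x (v e) = x (w e) + c0) (fun e => {v e, w e}) k
    (fun _ => 1 / 128) hk
    (fun e x y hxy => by simp [hxy (v e) (by simp), hxy (w e) (by simp)])
    (fun i => by
      refine le_of_eq_of_le ?_ (hread i)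
      rw [Nat.card_eq_fintype_card, Fintype.card_subtype]
      congr 1
      ext e
      simp [eq_comm])
    (fun e => by
      have h128 := card_shift_real _ _ (hne e) c0
      rw [Nat.card_eq_fintype_card, Nat.card_eq_fintype_card, Fintype.card_subtype] at h128
      convert h128)).1 d hd hd1).1
  simp only [Finset.sum_const, Finset.card_univ, nsmul_eq_mul, mul_one_div] at h
  simp only [Nat.card_eq_fintype_card, Fintype.card_subtype]
  convert h

namespace Cfg

variable {C : Cfg} {h : ℕ}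

lemma one_le_lg (hp : 2 ≤ C.p) : 1 ≤ C.lg := by
  have h4 : (4 : ℝ) ≤ C.q := by
    have : 2 ^ 2 ≤ C.p ^ 2 := Nat.pow_le_pow_left hp 2
    exact_mod_cast this
  have : Real.log 4 ≤ C.lg := Real.log_le_log (by norm_num) h4
  rw [show (4 : ℝ) = 2 ^ 2 by norm_num, Real.log_pow] at this
  have := Real.log_two_gt_d9
  push_cast at *
  linarith

lemma four_le_q (hp : 2 ≤ C.p) : 4 ≤ C.q := Nat.pow_le_pow_left hp 2

lemma card_ln_le (hV : C.Valid) (hp : 2 ≤ C.p) :
    (Fintype.card C.Ln : ℝ) ≤ Real.exp (3 * C.lg) := by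
  have h4 := four_le_q hp
  have hq : (0 : ℝ) < C.q := by exact_mod_cast (show 0 < C.q by omega)
  rw [show (3 : ℝ) * C.lg = ((3 : ℕ) : ℝ) * C.lg by norm_num, Real.exp_nat_mul, Cfg.lg,
    Real.exp_log hq, hV.card_ln]
  have : C.q ^ 2 + C.q + 1 ≤ C.q ^ 3 := by nlinarith
  exact_mod_cast this

/-- At most a `1 - d` share of the expected edges among the points `pt`. -/
def Few {κ : Type} [Fintype κ] (pt : κ → C.Pt) (d : ℝ) (ω : Omega C h) : Prop :=
  (Nat.card {e // pt e ∈ C.X ω} : ℝ) ≤ (1 - d) * ((Fintype.card κ : ℝ) / 128)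

/-- The lower tail for the edges among points with two coordinates of read number `k`. -/
lemma few_edges (hc : ChernoffStmt) {κ : Type} [Fintype κ] (pt : κ → C.Pt)
    (hg : ∀ e, pt e ∈ C.good) (hne : ∀ e, C.v1 (pt e) ≠ C.v2 (pt e)) (k : ℕ) (hk : 0 < k)
    (hread : ∀ v : C.Var, Nat.card {e // C.v1 (pt e) = v ∨ C.v2 (pt e) = v} ≤ k)
    (d : ℝ) (hd : 0 < d) (hd1 : d ≤ 1) [NeZero h] :
    (Nat.card {ω : Omega C h // Few pt d ω} : ℝ) ≤
      Real.exp (-(d ^ 2 * ((Fintype.card κ : ℝ) / 128)) / (3 * k)) *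
        (Nat.card (Omega C h) : ℝ) := by
  let P : (C.Var → Gam) → Prop := fun x =>
    (Nat.card {e // x (C.v1 (pt e)) = x (C.v2 (pt e)) + c0} : ℝ) ≤
      (1 - d) * ((Fintype.card κ : ℝ) / 128)
  have hP : ∀ ω : Omega C h, Few pt d ω ↔ P ω.1 := by
    intro ω
    rw [Few, Nat.card_congr (Equiv.subtypeEquivRight fun e =>
      show pt e ∈ C.X ω ↔ ω.1 (C.v1 (pt e)) = ω.1 (C.v2 (pt e)) + c0 by simp [Cfg.X, hg e])]
  rw [Nat.card_congr (Equiv.subtypeEquivRight hP),
    Nat.card_congr (Equiv.prodSubtypeFstEquivSubtypeProd (p := P)), Nat.card_prod, Nat.card_prod,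
    Nat.cast_mul, Nat.cast_mul, ← mul_assoc]
  exact mul_le_mul_of_nonneg_right (few_shifts hc _ _ hne k hk hread d hd hd1) (Nat.cast_nonneg _)

end Cfg

/-- Union bound. -/
lemma card_exists_le {β I : Type} [Fintype β] (s : Finset I) (P : I → β → Prop) :
    (Nat.card {x // ∃ i ∈ s, P i x} : ℝ) ≤ ∑ i ∈ s, (Nat.card {x // P i x} : ℝ) := by
  classical
  simp only [Nat.card_eq_fintype_card, Fintype.card_subtype]
  refine le_trans ?_ (le_of_eq (Nat.cast_sum s fun i => (univ.filter fun x => P i x).card))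
  norm_cast
  refine (card_le_card ?_).trans card_biUnion_le
  intro x
  simp

/-- The grid event is likely. -/
theorem evGrid (hc : ChernoffStmt) : EvGridStmt := by
  classical
  refine ⟨2, fun C h _ _ hS hp => ?_⟩
  have hl := Cfg.one_le_lg hp
  have htl : (10 : ℝ) ^ 8 * C.lg ≤ C.tg := by unfold Cfg.tg; exact Nat.le_ceil _
  set s := (univ : Finset ((Fin C.tg → C.Ln) × (Fin C.tg → C.Ln))).filter fun g => C.CleanGrid g.1 g.2
  have hsub : ∀ ω : Omega C h, ¬ C.EvGrid ω → ∃ g ∈ s,
      Cfg.Few (fun x : Fin C.tg × Fin C.tg => C.meetPt (g.1 x.1) (g.2 x.2)) (1 / 100) ω := by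
    intro ω hω
    simp only [Cfg.EvGrid, not_forall, not_le] at hω
    obtain ⟨L, M, hg, hlt⟩ := hω
    refine ⟨(L, M), mem_filter.2 ⟨mem_univ _, hg⟩, ?_⟩
    have e : Nat.card {x : Fin C.tg × Fin C.tg // C.meetPt (L x.1) (M x.2) ∈ C.X ω} =
        (univ.filter fun x : Fin C.tg × Fin C.tg => C.meetPt (L x.1) (M x.2) ∈ C.X ω).card := by
      rw [Nat.card_eq_fintype_card, Fintype.card_subtype]
    rw [Cfg.Few, e, Fintype.card_prod, Fintype.card_fin]
    push_cast
    linarith
  have hbound : ∀ g ∈ s, (Nat.card {ω : Omega C h //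
      Cfg.Few (fun x : Fin C.tg × Fin C.tg => C.meetPt (g.1 x.1) (g.2 x.2)) (1 / 100) ω} : ℝ) ≤
      Real.exp (-(20 * C.tg * C.lg)) * Real.exp (-(6 * C.tg * C.lg)) * Nat.card (Omega C h) := by
    intro g hg
    obtain ⟨hgood, hinj⟩ := (mem_filter.1 hg).2
    refine (C.few_edges hc (fun x : Fin C.tg × Fin C.tg => C.meetPt (g.1 x.1) (g.2 x.2)) (fun x => (hgood x.1 x.2).2)
      (fun x he => ?_) 1 one_pos (fun v => ?_) (1 / 100) (by norm_num) (by norm_num)).trans
      (mul_le_mul_of_nonneg_right ?_ (Nat.cast_nonneg _))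
    · have := @hinj (x, true) (x, false) (by simp [he])
      simp at this
    · rw [Finite.card_le_one_iff_subsingleton]
      refine ⟨fun a b => ?_⟩
      obtain ⟨a, ha⟩ := a
      obtain ⟨b, hb⟩ := b
      refine Subtype.ext ?_
      rcases ha with ha | ha <;> rcases hb with hb | hb
      · exact congrArg Prod.fst (@hinj (a, true) (b, true) (by simp [ha, hb]))
      · exact congrArg Prod.fst (@hinj (a, true) (b, false) (by simp [ha, hb]))
      · exact congrArg Prod.fst (@hinj (a, false) (b, true) (by simp [ha, hb]))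
      · exact congrArg Prod.fst (@hinj (a, false) (b, false) (by simp [ha, hb]))
    · rw [← Real.exp_add, Real.exp_le_exp, Fintype.card_prod, Fintype.card_fin]
      push_cast
      have ht0 : (0 : ℝ) ≤ C.tg := Nat.cast_nonneg _
      nlinarith [mul_le_mul_of_nonneg_left htl ht0,
        mul_nonneg ht0 (zero_le_one.trans hl)]
  have hcard : (s.card : ℝ) ≤ Real.exp (6 * C.tg * C.lg) := by
    have h1 : s.card ≤ Fintype.card C.Ln ^ C.tg * Fintype.card C.Ln ^ C.tg :=
      (card_filter_le _ _).trans (by simp)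
    calc (s.card : ℝ) ≤ (Fintype.card C.Ln : ℝ) ^ (C.tg + C.tg) := by
          rw [pow_add]; exact_mod_cast h1
      _ ≤ Real.exp (3 * C.lg) ^ (C.tg + C.tg) :=
          pow_le_pow_left₀ (Nat.cast_nonneg _) (C.card_ln_le hS.valid hp) _
      _ = Real.exp (6 * C.tg * C.lg) := by rw [← Real.exp_nat_mul]; congr 1; push_cast; ring
  have hmain : (Nat.card {ω : Omega C h // ¬ C.EvGrid ω} : ℝ) ≤
      Real.exp (-(20 * C.tg * C.lg)) * Nat.card (Omega C h) := by
    refine le_trans ?_ ((card_exists_le s _).trans ((sum_le_sum hbound).trans ?_))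
    · exact Nat.cast_le.2 (Nat.card_le_card_of_injective (fun ω => ⟨ω.1, hsub ω.1 ω.2⟩)
        fun a b hab => Subtype.ext (congrArg Subtype.val hab :))
    · rw [sum_const, nsmul_eq_mul, ← mul_assoc]
      refine mul_le_mul_of_nonneg_right ?_ (Nat.cast_nonneg _)
      calc (s.card : ℝ) * (Real.exp (-(20 * C.tg * C.lg)) * Real.exp (-(6 * C.tg * C.lg)))
          ≤ Real.exp (6 * C.tg * C.lg) *
            (Real.exp (-(20 * C.tg * C.lg)) * Real.exp (-(6 * C.tg * C.lg))) :=
            mul_le_mul_of_nonneg_right hcard (by positivity)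
        _ = Real.exp (-(20 * C.tg * C.lg)) := by
            rw [← Real.exp_add, ← Real.exp_add]; congr 1; ring
  have h5 : Real.exp (-(20 * C.tg * C.lg)) ≤ 1 / 5 := by
    rw [Real.exp_neg, one_div]
    have h1 : (1 : ℝ) ≤ C.tg := by nlinarith
    refine inv_anti₀ (by norm_num) (le_trans ?_ (Real.add_one_le_exp _))
    nlinarith
  have hT : (0 : ℝ) ≤ Nat.card (Omega C h) := Nat.cast_nonneg _
  have : (5 : ℝ) * Nat.card {ω : Omega C h // ¬ C.EvGrid ω} ≤ Nat.card (Omega C h) := by
    nlinarith [mul_le_mul_of_nonneg_right h5 hT]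
  exact_mod_cast this

/-- The sampling event is likely. -/
theorem evSample (hc : ChernoffStmt) (hf : FactsStmt) : EvSampleStmt := by
  classical
  refine ⟨2, fun C h _ _ hS hp => ?_⟩
  have hl := Cfg.one_le_lg hp
  have hq : (4 : ℝ) ≤ C.q := by exact_mod_cast Cfg.four_le_q hp
  have hlam : 0 < C.lam := by
    unfold Cfg.lam; exact
    Nat.ceil_pos.2 (div_pos (mul_pos (by norm_num) (Real.sqrt_pos.2 (by linarith)))
      (by positivity))
  set s := (univ : Finset (Finset C.Ln)).filter fun R => 0 < R.card ∧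
    100 * 128 * (C.lam : ℝ) * (R.card : ℝ) * C.lg ≤ ((C.zsel R).card : ℝ)
  have hsub : ∀ ω : Omega C h, ¬ C.EvSample ω → ∃ R ∈ s,
      Cfg.Few (fun e : {z // z ∈ C.zsel R} => (e : C.Pt)) (1 / 2) ω := by
    intro ω hω
    simp only [Cfg.EvSample, not_forall, not_le] at hω
    obtain ⟨R, h0, hbig, hlt⟩ := hω
    refine ⟨R, by simp only [s, mem_filter, mem_univ, true_and]; exact ⟨h0, hbig⟩, ?_⟩
    have e : Nat.card {e : {z // z ∈ C.zsel R} // (e : C.Pt) ∈ C.X ω} =
        (C.X ω ∩ C.zsel R).card := by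
      rw [← Nat.card_eq_finsetCard]
      exact Nat.card_congr
        { toFun := fun e => ⟨e.1.1, mem_inter.2 ⟨e.2, e.1.2⟩⟩
          invFun := fun z => ⟨⟨z.1, (mem_inter.1 z.2).2⟩, (mem_inter.1 z.2).1⟩
          left_inv := fun _ => rfl
          right_inv := fun _ => rfl }
    rw [Cfg.Few, e, Fintype.card_coe]
    linarith
  have hbound : ∀ R ∈ s, (Nat.card {ω : Omega C h //
      Cfg.Few (fun e : {z // z ∈ C.zsel R} => (e : C.Pt)) (1 / 2) ω} : ℝ) ≤
      Real.exp (-(8 * C.lg)) ^ R.card * Nat.card (Omega C h) := by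
    intro R hR
    obtain ⟨-, -, hbig⟩ := mem_filter.1 hR
    have hz : C.zsel R ⊆ C.good ∧ C.LamBounded (C.zsel R) := by
      unfold Cfg.zsel
      split
      · next hne =>
        have := mem_filter.1 (Finset.exists_max_image _ Finset.card hne).choose_spec.1
        exact ⟨(mem_powerset.1 this.1).trans (filter_subset _ _), this.2⟩
      · exact ⟨empty_subset _, fun v => by simp⟩
    refine (C.few_edges hc (fun e : {z // z ∈ C.zsel R} => (e : C.Pt)) (fun e => hz.1 e.2)
      (fun e => (hf C hS.valid).v_ne e (hz.1 e.2)) C.lam hlam (fun v => ?_) (1 / 2)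
      (by norm_num) (by norm_num)).trans (mul_le_mul_of_nonneg_right ?_ (Nat.cast_nonneg _))
    · refine le_trans (le_of_eq ?_) (hz.2 v)
      rw [← Nat.card_eq_finsetCard]
      exact Nat.card_congr
        { toFun := fun e => ⟨e.1.1, mem_filter.2 ⟨e.1.2, e.2⟩⟩
          invFun := fun z => ⟨⟨z.1, (mem_filter.1 z.2).1⟩, (mem_filter.1 z.2).2⟩
          left_inv := fun _ => rfl
          right_inv := fun _ => rfl }
    · rw [← Real.exp_nat_mul, Real.exp_le_exp, Fintype.card_coe]
      have hl' : (0 : ℝ) < C.lam := by exact_mod_cast hlam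
      rw [div_le_iff₀ (by positivity)]
      nlinarith [mul_nonneg (mul_nonneg hl'.le (Nat.cast_nonneg (α := ℝ) R.card))
        (zero_le_one.trans hl)]
  set a := Real.exp (-(8 * C.lg))
  have ha : 0 ≤ a := (Real.exp_pos _).le
  have hmain : (Nat.card {ω : Omega C h // ¬ C.EvSample ω} : ℝ) ≤
      ((a + 1) ^ Fintype.card C.Ln - 1) * Nat.card (Omega C h) := by
    refine le_trans ?_ ((card_exists_le s _).trans ((sum_le_sum hbound).trans ?_))
    · exact Nat.cast_le.2 (Nat.card_le_card_of_injective (fun ω => ⟨ω.1, hsub ω.1 ω.2⟩)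
        fun a b hab => Subtype.ext (congrArg Subtype.val hab :))
    · rw [← sum_mul]
      refine mul_le_mul_of_nonneg_right ?_ (Nat.cast_nonneg _)
      rw [le_sub_iff_add_le]
      have e : ∑ R ∈ (univ : Finset C.Ln).powerset, a ^ R.card = (a + 1) ^ Fintype.card C.Ln := by
        simpa using (sum_pow_mul_eq_add_pow a 1 (univ : Finset C.Ln))
      rw [← e, powerset_univ]
      calc ∑ R ∈ s, a ^ R.card + 1 = ∑ R ∈ insert ∅ s, a ^ R.card := by
            rw [sum_insert (by simp [s]), card_empty, pow_zero, add_comm]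
        _ ≤ ∑ R, a ^ (R : Finset C.Ln).card :=
            sum_le_sum_of_subset_of_nonneg (subset_univ _) fun _ _ _ => pow_nonneg ha _
  have h5 : (a + 1) ^ Fintype.card C.Ln - 1 ≤ 1 / 5 := by
    set x : ℝ := (Fintype.card C.Ln : ℝ) * a with hx
    have hx0 : 0 ≤ x := by positivity
    have h1 : x ≤ 1 / 10 := by
      calc x ≤ Real.exp (3 * C.lg) * a :=
            mul_le_mul_of_nonneg_right (C.card_ln_le hS.valid hp) ha
        _ = (Real.exp (5 * C.lg))⁻¹ := by
            rw [← Real.exp_neg, ← Real.exp_add]; congr 1; ring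
        _ ≤ 1 / 10 := by
            rw [one_div]
            refine inv_anti₀ (by norm_num) ?_
            rw [show (5 : ℝ) * C.lg = ((5 : ℕ) : ℝ) * C.lg by norm_num, Real.exp_nat_mul,
              Cfg.lg, Real.exp_log (by linarith)]
            calc (10 : ℝ) ≤ 4 ^ 5 := by norm_num
              _ ≤ (C.q : ℝ) ^ 5 := pow_le_pow_left₀ (by norm_num) hq 5
    have h2 : (a + 1) ^ Fintype.card C.Ln ≤ Real.exp x := by
      rw [hx, Real.exp_nat_mul]
      exact pow_le_pow_left₀ (by positivity) (Real.add_one_le_exp a) _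
    have h3 := Real.abs_exp_sub_one_le (x := x) (by rw [abs_of_nonneg hx0]; linarith)
    rw [abs_of_nonneg hx0] at h3
    linarith [le_abs_self (Real.exp x - 1)]
  have hT : (0 : ℝ) ≤ Nat.card (Omega C h) := Nat.cast_nonneg _
  have : (5 : ℝ) * Nat.card {ω : Omega C h // ¬ C.EvSample ω} ≤ Nat.card (Omega C h) := by
    nlinarith [mul_le_mul_of_nonneg_right h5 hT]
  exact_mod_cast this

end Vale.P045.Baer
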