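import Vale.Agent.P045.Baer.Facts
import Vale.Agent.P045.Baer.Large
import Vale.Agent.P045.Baer.EvPairs.Chaos

/-!
# P045: the pair event is likely

The indicator of an edge is expanded in the characters of the colour group; every
nontrivial character gives a quadratic form in independent signs, to which the
decoupling bound of `EvPairs/Chaos.lean` applies.
-/

namespace Vale.P045.Baer

open Finset

namespace Pairs

/-- The sign of a bit. -/
def sg (a : ZMod 2) : ℝ := if a = 0 then 1 else -1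

lemma sg_sq (a : ZMod 2) : sg a * sg a = 1 := by
  unfold sg; split_ifs <;> norm_num

lemma bit_cases (a : ZMod 2) : a = 0 ∨ a = 1 := by
  revert a; decide

lemma one_add_one_bit : (1 : ZMod 2) + 1 = 0 := rfl

lemma sg_succ (a : ZMod 2) : sg (a + 1) = -sg a := by
  rcases bit_cases a with rfl | rfl <;> simp [sg, one_add_one_bit]

/-- The character of a set of bits. -/
def chi (A : Finset (Fin 7)) (g : Gam) : ℝ := ∏ i ∈ A, sg (g i)

lemma bit_factor (a b : ZMod 2) :
    1 + -(sg a * sg b) = if a = b + 1 then 2 else 0 := by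
  rcases bit_cases a with rfl | rfl <;> rcases bit_cases b with rfl | rfl <;>
    simp [sg, one_add_one_bit] <;> norm_num

lemma indicator_eq (x y : Gam) :
    (if x = y + c0 then (1 : ℝ) else 0) =
      1 / 128 * ∑ A : Finset (Fin 7), (-1) ^ A.card * (chi A x * chi A y) := by
  have h : ∑ A : Finset (Fin 7), (-1) ^ A.card * (chi A x * chi A y) =
      ∏ i : Fin 7, (1 + -(sg (x i) * sg (y i))) := by
    rw [Finset.prod_one_add, Finset.powerset_univ]
    refine Finset.sum_congr rfl fun A _ => ?_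
    rw [Finset.prod_neg, Finset.prod_mul_distrib]
    rfl
  rw [h]
  simp only [bit_factor]
  by_cases e : x = y + c0
  · subst e
    simp [c0]; norm_num
  · obtain ⟨i, hi⟩ : ∃ i, x i ≠ y i + 1 := by
      by_contra hne
      simp only [not_exists, not_not] at hne
      exact e (funext fun i => by simpa [c0] using hne i)
    rw [if_neg e, Finset.prod_eq_zero (Finset.mem_univ i) (if_neg hi), mul_zero]

/-- The balanced sign attached to a nonempty set of bits. -/
noncomputable def sign (A : Finset (Fin 7)) (hA : A.Nonempty) : Chaos.Sign Gam where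
  sgn := chi A
  e := Equiv.addRight (Pi.single hA.choose 1)
  sq g := by
    rw [chi, ← Finset.prod_mul_distrib]
    exact Finset.prod_eq_one fun i _ => sg_sq _
  flip g := by
    have hi := hA.choose_spec
    simp only [chi, Equiv.coe_addRight]
    rw [← Finset.mul_prod_erase A _ hi, ← Finset.mul_prod_erase A (fun i => sg (g i)) hi]
    have : ∀ i ∈ A.erase hA.choose,
        sg ((g + Pi.single hA.choose 1 : Gam) i) = sg (g i) := fun i hi => by
      simp [Finset.ne_of_mem_erase hi]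
    rw [Finset.prod_congr rfl this]
    simp [sg_succ]

variable {C : Cfg}

lemma inter_le_one (hC : C.Valid) {l m : C.Ln} (h : l ≠ m) :
    (C.pts l ∩ C.pts m).card ≤ 1 :=
  Finset.card_le_one.2 fun _ hz _ hw => Cfg.meet_unique hC h (Finset.mem_inter.1 hz).1
    (Finset.mem_inter.1 hz).2 (Finset.mem_inter.1 hw).1 (Finset.mem_inter.1 hw).2

lemma sum_f (U : Finset C.Ln) (Z : Finset C.Pt) :
    ∑ z ∈ Z, C.f U z = ∑ l ∈ U, (Z.filter fun z => z ∈ C.pts l).card := by
  simp only [Cfg.f, Cfg.deg, Cfg.linesIn, Finset.card_filter]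
  exact Finset.sum_comm

open Classical in
/-- Points using a given coordinate, weighted by the lines of `U` through them. -/
lemma sum_f_coord (hC : C.Valid) (hF : Facts C) {U : Finset C.Ln} (hU : U ⊆ C.ordinary)
    (v : C.Var) :
    ∑ z ∈ C.good.filter (fun z => C.v1 z = v ∨ C.v2 z = v), C.f U z ≤ 2 * U.card := by
  obtain ⟨g, g', hg, hg', hv⟩ := hF.v_lines v
  rw [sum_f, mul_comm, ← smul_eq_mul, ← Finset.sum_const]
  refine Finset.sum_le_sum fun l hl => ?_
  have hl' := (Finset.mem_filter.1 (hU hl)).2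
  have hne : ∀ g ∈ C.A ∪ C.B, l ≠ g := by
    intro g hg e
    subst e
    exact (Finset.mem_union.1 hg).elim hl'.1 hl'.2.1
  calc _ ≤ ((C.pts l ∩ C.pts g) ∪ (C.pts l ∩ C.pts g')).card := by
        refine Finset.card_le_card fun z hz => ?_
        simp only [Finset.mem_filter] at hz
        simp only [Finset.mem_union, Finset.mem_inter]
        exact (hv z hz.1.1 hz.1.2).imp (fun h => ⟨hz.2, h⟩) (fun h => ⟨hz.2, h⟩)
    _ ≤ 1 + 1 := (Finset.card_union_le _ _).trans
        (add_le_add (inter_le_one hC (hne g hg)) (inter_le_one hC (hne g' hg')))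

lemma sum_f_sq (hC : C.Valid) (U : Finset C.Ln) :
    ∑ z ∈ C.good, C.f U z ^ 2 ≤ U.card * (C.q + 1 + U.card) := by
  classical
  calc ∑ z ∈ C.good, C.f U z ^ 2 ≤ ∑ z : C.Pt, C.f U z ^ 2 :=
        Finset.sum_le_sum_of_subset (Finset.subset_univ _)
    _ = ∑ l ∈ U, ∑ z ∈ C.pts l, C.f U z := by
        rw [Finset.sum_comm' (s' := fun z => U.filter fun l => z ∈ C.pts l) (t' := univ)
          (by simp)]
        refine Finset.sum_congr rfl fun z _ => ?_
        rw [Finset.sum_const, smul_eq_mul, pow_two]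
        rfl
    _ ≤ ∑ _l ∈ U, (C.q + 1 + U.card) := by
        refine Finset.sum_le_sum fun l hl => ?_
        rw [sum_f, ← Finset.add_sum_erase U _ hl]
        refine add_le_add ((Finset.card_filter_le _ _).trans (hC.card_pts l).le) ?_
        refine (Finset.sum_le_sum (g := fun _ => 1) fun m hm => ?_).trans
          (by simpa using Finset.card_erase_le)
        refine le_trans (Finset.card_le_card fun z hz => ?_)
          (inter_le_one hC (Finset.ne_of_mem_erase hm).symm)
        simpa [Finset.mem_inter] using hz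
    _ = _ := by rw [Finset.sum_const, smul_eq_mul]

open Classical in
/-- The matrix of one character. -/
noncomputable def weight (C : Cfg) (U : Finset C.Ln) (A : Finset (Fin 7)) (u v : C.Var) : ℝ :=
  (-1) ^ A.card * ∑ z ∈ C.good.filter (fun z => C.v1 z = u ∧ C.v2 z = v), (C.f U z : ℝ)

/-- The form of one character, read on the points. -/
noncomputable def form (C : Cfg) (U : Finset C.Ln) (A : Finset (Fin 7)) (x : C.Var → Gam) : ℝ :=
  (-1) ^ A.card * ∑ z ∈ C.good, (C.f U z : ℝ) * (chi A (x (C.v1 z)) * chi A (x (C.v2 z)))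

lemma quad_weight (U : Finset C.Ln) (A : Finset (Fin 7)) (hA : A.Nonempty)
    (x : C.Var → Gam) :
    Chaos.quad (sign A hA) (weight C U A) x = form C U A x := by
  classical
  rw [Chaos.quad, form, ← Finset.sum_fiberwise C.good (fun z => (C.v1 z, C.v2 z)),
    Fintype.sum_prod_type, Finset.mul_sum]
  refine Finset.sum_congr rfl fun u _ => ?_
  rw [Finset.mul_sum]
  refine Finset.sum_congr rfl fun v _ => ?_
  simp only [weight, sign, Prod.mk.injEq, Finset.sum_mul, Finset.mul_sum]
  refine Finset.sum_congr rfl fun z hz => ?_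
  obtain ⟨-, rfl, rfl⟩ := Finset.mem_filter.1 hz
  ring

lemma abs_weight (U : Finset C.Ln) (A : Finset (Fin 7)) (u v : C.Var) [DecidableEq C.Var] :
    |weight C U A u v| =
      ((∑ z ∈ C.good.filter (fun z => C.v1 z = u ∧ C.v2 z = v), C.f U z : ℕ) : ℝ) := by
  simp only [weight, abs_mul, abs_pow, abs_neg, abs_one, one_pow, one_mul, Nat.cast_sum]
  rw [abs_of_nonneg (Finset.sum_nonneg fun z _ => Nat.cast_nonneg _)]
  congr 1
  ext z
  simp

open Classical in
lemma weight_row (hC : C.Valid) (hF : Facts C) {U : Finset C.Ln} (hU : U ⊆ C.ordinary)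
    (A : Finset (Fin 7)) (u : C.Var) :
    (univ.filter fun v => weight C U A u v ≠ 0).card ≤ 2 * U.card := by
  refine le_trans ?_ (sum_f_coord hC hF hU u)
  calc _ ≤ ((C.good.filter fun z => C.v1 z = u ∧ C.f U z ≠ 0).image C.v2).card := by
        refine Finset.card_le_card fun v hv => ?_
        obtain ⟨z, hz, hz0⟩ := Finset.exists_ne_zero_of_sum_ne_zero
          (right_ne_zero_of_mul (Finset.mem_filter.1 hv).2)
        simp only [Finset.mem_filter] at hz
        exact Finset.mem_image.2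
          ⟨z, Finset.mem_filter.2 ⟨hz.1, hz.2.1, by exact_mod_cast hz0⟩, hz.2.2⟩
    _ ≤ (C.good.filter fun z => C.v1 z = u ∧ C.f U z ≠ 0).card := Finset.card_image_le
    _ ≤ ∑ z ∈ C.good.filter (fun z => C.v1 z = u ∧ C.f U z ≠ 0), C.f U z := by
        rw [Finset.card_eq_sum_ones]
        exact Finset.sum_le_sum fun z hz =>
          Nat.one_le_iff_ne_zero.2 (Finset.mem_filter.1 hz).2.2
    _ ≤ _ := by
        refine Finset.sum_le_sum_of_subset fun z hz => ?_
        simp only [Finset.mem_filter] at hz ⊢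
        exact ⟨hz.1, Or.inl hz.2.1⟩

lemma weight_col (hC : C.Valid) (hF : Facts C) {U : Finset C.Ln} (hU : U ⊆ C.ordinary)
    (A : Finset (Fin 7)) (v : C.Var) :
    ∑ u, |weight C U A u v| ≤ 2 * (U.card : ℝ) := by
  classical
  simp only [abs_weight, ← Nat.cast_sum]
  rw [show 2 * (U.card : ℝ) = ((2 * U.card : ℕ) : ℝ) by push_cast; ring]
  refine Nat.cast_le.2 (le_trans ?_ (sum_f_coord hC hF hU v))
  rw [show (∑ u, ∑ z ∈ C.good.filter (fun z => C.v1 z = u ∧ C.v2 z = v), C.f U z) =
    ∑ z ∈ C.good.filter (fun z => C.v2 z = v), C.f U z by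
      rw [← Finset.sum_fiberwise (C.good.filter fun z => C.v2 z = v) C.v1]
      exact Finset.sum_congr rfl fun u _ => by rw [Finset.filter_filter]; simp only [and_comm]]
  refine Finset.sum_le_sum_of_subset fun z hz => ?_
  simp only [Finset.mem_filter] at hz ⊢
  exact ⟨hz.1, Or.inr hz.2⟩

lemma weight_sq (hF : Facts C) (U : Finset C.Ln) (A : Finset (Fin 7)) :
    ∑ v, ∑ u, weight C U A u v ^ 2 = ((∑ z ∈ C.good, C.f U z ^ 2 : ℕ) : ℝ) := by
  classical
  push_cast
  rw [Finset.sum_comm, ← Finset.sum_fiberwise C.good (fun z => (C.v1 z, C.v2 z)),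
    Fintype.sum_prod_type]
  refine Finset.sum_congr rfl fun u _ => Finset.sum_congr rfl fun v _ => ?_
  simp only [weight, mul_pow, ← pow_mul, pow_mul', neg_one_sq, one_pow, one_mul, Prod.mk.injEq]
  rcases (C.good.filter fun z => C.v1 z = u ∧ C.v2 z = v).eq_empty_or_nonempty with h | ⟨z, hz⟩
  · simp [h]
  · rw [show (C.good.filter fun z => C.v1 z = u ∧ C.v2 z = v) = {z} from
      Finset.eq_singleton_iff_unique_mem.2 ⟨hz, fun w hw => ?_⟩]
    · simp
    simp only [Finset.mem_filter] at hz hw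
    refine hF.pair_inj w hw.1 z hz.1 (Sum.inl.inj (hw.2.1.trans hz.2.1.symm)) ?_
    exact hF.var_inj _ (hF.bOf_mem w).1 _ (hF.bOf_mem z).1 (hw.2.2.trans hz.2.2.symm)

lemma sum_good (U : Finset C.Ln) (g : C.Pt → ℝ) :
    ∑ l ∈ U, ∑ z ∈ C.pts l ∩ C.good, g z = ∑ z ∈ C.good, (C.f U z : ℝ) * g z := by
  rw [Finset.sum_comm' (s' := fun z => U.filter fun l => z ∈ C.pts l) (t' := C.good)
    (by intro l z; simp [Finset.mem_inter]; tauto)]
  refine Finset.sum_congr rfl fun z _ => ?_
  rw [Finset.sum_const, nsmul_eq_mul]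
  rfl

/-- The deviation is controlled by the nontrivial characters. -/
lemma dev_le (hC : C.Valid) {h : ℕ} (ω : Omega C h) {U : Finset C.Ln}
    {T : ℝ} (hT0 : 0 ≤ T) (hT : ∀ A : Finset (Fin 7), A.Nonempty → form C U A ω.1 ≤ T) :
    C.Dev ω U ≤ T + (U.card : ℝ) / 128 := by
  classical
  have hload : ∀ l, (C.load ω l : ℝ) =
      ∑ z ∈ C.pts l ∩ C.good, if ω.1 (C.v1 z) = ω.1 (C.v2 z) + c0 then (1 : ℝ) else 0 := by
    intro l
    rw [Finset.sum_boole]
    congr 1
    unfold Cfg.load Cfg.X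
    congr 1
    ext z
    simp [Finset.mem_inter, and_comm, and_assoc, and_left_comm]
  have hline : ∀ l ∈ U, (C.load ω l : ℝ) - C.nn ≤
      (∑ z ∈ C.pts l ∩ C.good,
        ((if ω.1 (C.v1 z) = ω.1 (C.v2 z) + c0 then (1 : ℝ) else 0) - 1 / 128)) + 1 / 128 := by
    intro l _
    rw [hload l, Finset.sum_sub_distrib, Finset.sum_const, nsmul_eq_mul, Cfg.nn]
    have : ((C.pts l ∩ C.good).card : ℝ) ≤ (C.q : ℝ) + 1 := by
      exact_mod_cast (Finset.card_le_card Finset.inter_subset_left).trans (hC.card_pts l).le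
    linarith
  refine (Finset.sum_le_sum hline).trans ?_
  rw [Finset.sum_add_distrib, Finset.sum_const, nsmul_eq_mul, sum_good]
  have hexp : ∀ z : C.Pt, (if ω.1 (C.v1 z) = ω.1 (C.v2 z) + c0 then (1 : ℝ) else 0) - 1 / 128 =
      1 / 128 * ∑ A ∈ (univ : Finset (Finset (Fin 7))).erase ∅,
        (-1) ^ A.card * (chi A (ω.1 (C.v1 z)) * chi A (ω.1 (C.v2 z))) := fun z => by
    rw [indicator_eq, ← Finset.add_sum_erase univ _ (Finset.mem_univ ∅)]
    simp [chi]; ring
  have hmain : ∑ z ∈ C.good, (C.f U z : ℝ) *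
      ((if ω.1 (C.v1 z) = ω.1 (C.v2 z) + c0 then (1 : ℝ) else 0) - 1 / 128) ≤ T := by
    simp only [hexp, Finset.mul_sum]
    rw [Finset.sum_comm]
    have h127 : ((univ : Finset (Finset (Fin 7))).erase ∅).card = 127 := by
      rw [Finset.card_erase_of_mem (Finset.mem_univ _)]; simp
    calc _ = ∑ A ∈ (univ : Finset (Finset (Fin 7))).erase ∅, 1 / 128 * form C U A ω.1 := by
          refine Finset.sum_congr rfl fun A _ => ?_
          simp only [form, Finset.mul_sum]
          exact Finset.sum_congr rfl fun z _ => by ring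
      _ ≤ ∑ A ∈ (univ : Finset (Finset (Fin 7))).erase ∅, 1 / 128 * T :=
          Finset.sum_le_sum fun A hA => mul_le_mul_of_nonneg_left
            (hT A (Finset.nonempty_iff_ne_empty.2 (Finset.ne_of_mem_erase hA))) (by norm_num)
      _ ≤ T := by rw [Finset.sum_const, nsmul_eq_mul, h127]; push_cast; linarith
  linarith

lemma spanned_card (hC : C.Valid) (P : Fin C.tp → C.Pt) :
    (C.spanned P).card ≤ C.tp ^ 2 := by
  classical
  refine le_trans (Finset.card_le_card (t := (univ : Finset (Fin C.tp × Fin C.tp)).image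
    fun x => C.joinLn (P x.1) (P x.2)) fun l hl => ?_) (Finset.card_image_le.trans ?_)
  · obtain ⟨-, i, j, hne, hi, hj⟩ := Finset.mem_filter.1 hl
    refine Finset.mem_image.2 ⟨(i, j), Finset.mem_univ _, ?_⟩
    have hex : ∃ l, P i ∈ C.pts l ∧ P j ∈ C.pts l := ⟨l, hi, hj⟩
    rw [Cfg.joinLn, dif_pos hex]
    exact (hC.join _ _ hne).unique hex.choose_spec ⟨hi, hj⟩
  · simp [pow_two]

end Pairs

open Pairs in
/-- The pair event fails with probability at most `1/5`. -/
theorem evPairs (hn : FinnerStmt) (hf : FactsStmt) : EvPairsStmt := by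
  obtain ⟨P1, hP1⟩ := lg_ge 4000
  obtain ⟨P2, hP2⟩ := lg_pow_le 1 252
  refine ⟨max (max P1 P2) 1000, fun C h _ _ hs hp => ?_⟩
  classical
  have hp1000 : 1000 ≤ C.p := le_of_max_le_right hp
  have hlg := hP1 C (le_trans (le_max_left _ _) (le_of_max_le_left hp))
  have hpow : C.lg ^ 252 ≤ (C.p : ℝ) := by
    simpa using hP2 C (le_trans (le_max_right _ _) (le_of_max_le_left hp))
  have hC := hs.valid
  have hF := hf C hC
  have hpR : (1000 : ℝ) ≤ C.p := by exact_mod_cast hp1000
  have hlg1 : (1 : ℝ) ≤ C.lg := by linarith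
  set t : ℕ := C.tp with ht
  have ht1 : C.lg ^ 84 ≤ (t : ℝ) := Nat.le_ceil _
  have hl84 : (1 : ℝ) ≤ C.lg ^ 84 := one_le_pow₀ hlg1
  have ht2 : (t : ℝ) ≤ 2 * C.lg ^ 84 :=
    (Nat.ceil_lt_add_one (le_trans zero_le_one hl84)).le.trans (by linarith)
  have htpos : (1 : ℝ) ≤ t := hl84.trans ht1
  have htN : 0 < t := by exact_mod_cast (lt_of_lt_of_le one_pos htpos)
  have hppos : (0 : ℝ) < C.p := by linarith
  have hlgpos : 0 < C.lg := by linarith
  have hl41 : (1 : ℝ) ≤ C.lg ^ 41 := one_le_pow₀ hlg1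
  have h41 : C.lg ^ 41 ≤ (C.p : ℝ) := (pow_le_pow_right₀ hlg1 (by norm_num)).trans hpow
  have h168 : C.lg ^ 168 ≤ (C.p : ℝ) := (pow_le_pow_right₀ hlg1 (by norm_num)).trans hpow
  set a : ℝ := 1 / (192 * C.lg ^ 41 * C.p) with ha
  set T : ℝ := (t : ℝ) ^ 2 * C.p / (2 * C.lg ^ 41) with hTdef
  set M : ℝ := 3 * (t : ℝ) ^ 2 * (C.p : ℝ) ^ 2 with hMdef
  set E : ℝ := Real.exp (-((t : ℝ) ^ 2 / (768 * C.lg ^ 82))) with hE
  have hsmall : 8 * ((2 * t ^ 2 : ℕ) : ℝ) * a ^ 2 * (2 * (t : ℝ) ^ 2) ^ 2 ≤ 1 := by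
    have h1 : (t : ℝ) ^ 6 ≤ 64 * C.lg ^ 504 :=
      (pow_le_pow_left₀ (by positivity) ht2 6).trans_eq (by ring)
    have h2 : C.lg ^ 504 ≤ (C.p : ℝ) ^ 2 := by
      rw [show C.lg ^ 504 = (C.lg ^ 252) ^ 2 by ring]
      exact pow_le_pow_left₀ (by positivity) hpow 2
    have h3 : (1 : ℝ) ≤ (C.lg ^ 41) ^ 2 := one_le_pow₀ hl41
    rw [ha, div_pow, one_pow]
    push_cast
    rw [show 8 * (2 * (t : ℝ) ^ 2) * (1 / (192 * C.lg ^ 41 * C.p) ^ 2) * (2 * (t : ℝ) ^ 2) ^ 2 =
      64 * (t : ℝ) ^ 6 / (36864 * (C.lg ^ 41) ^ 2 * (C.p : ℝ) ^ 2) by field_simp; ring,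
      div_le_one (by positivity)]
    nlinarith [mul_le_mul_of_nonneg_right h3 (sq_nonneg (C.p : ℝ))]
  have hexpo : 16 * a ^ 2 * M - a * T = -((t : ℝ) ^ 2 / (768 * C.lg ^ 82)) := by
    rw [ha, hMdef, hTdef]; field_simp; ring
  -- bad colourings for one tuple and one character
  let bad : (Fin t → C.Pt) → Finset (Fin 7) → Finset (C.Var → Gam) := fun P A =>
    if A.Nonempty then univ.filter (fun x => T < form C (C.spanned P) A x) else ∅
  have hbad : ∀ P A, ((bad P A).card : ℝ) ≤ (Fintype.card (C.Var → Gam) : ℝ) * E := by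
    intro P A
    simp only [bad]
    split_ifs with hA
    · have hU : C.spanned P ⊆ C.ordinary := Finset.filter_subset _ _
      have hcard := spanned_card hC P
      have hcardR : ((C.spanned P).card : ℝ) ≤ (t : ℝ) ^ 2 := by exact_mod_cast hcard
      have ht2q : (t : ℝ) ^ 2 + 1 ≤ 2 * (C.p : ℝ) ^ 2 := by
        have : (t : ℝ) ^ 2 ≤ 4 * C.lg ^ 168 :=
          (pow_le_pow_left₀ (by positivity) ht2 2).trans_eq (by ring)
        nlinarith
      have hM : ∑ v, ∑ u, weight C (C.spanned P) A u v ^ 2 ≤ M := by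
        rw [weight_sq hF]
        have h1 : ((∑ z ∈ C.good, C.f (C.spanned P) z ^ 2 : ℕ) : ℝ) ≤
            ((C.spanned P).card : ℝ) * ((C.q : ℝ) + 1 + (C.spanned P).card) := by
          exact_mod_cast sum_f_sq hC (C.spanned P)
        refine h1.trans ?_
        rw [C.q_cast, hMdef]
        have h3 : (C.p : ℝ) ^ 2 + 1 + (C.spanned P).card ≤ 3 * (C.p : ℝ) ^ 2 := by linarith
        refine (mul_le_mul hcardR h3 (by positivity) (by positivity)).trans_eq ?_
        ring
      have := Chaos.tail (sign A hA) hn (weight C (C.spanned P) A)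
        (fun v => by
          rw [weight, Finset.sum_eq_zero, mul_zero]
          intro z hz
          obtain ⟨hz1, hz2, hz3⟩ := Finset.mem_filter.1 hz
          exact absurd (hz2.trans hz3.symm) (hF.v_ne z hz1))
        (2 * t ^ 2) (by positivity)
        (fun u => (weight_row hC hF hU A u).trans (Nat.mul_le_mul_left 2 hcard))
        (2 * (t : ℝ) ^ 2) (fun v => (weight_col hC hF hU A v).trans (by linarith))
        a (by positivity) hsmall M T hM
      rw [hexpo] at this
      simpa only [quad_weight] using this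
    · simp only [Finset.card_empty, Nat.cast_zero]; positivity
  let Bad : Finset (C.Var → Gam) :=
    (univ : Finset ((Fin t → C.Pt) × Finset (Fin 7))).biUnion fun x => bad x.1 x.2
  have hsub : (univ.filter fun ω : Omega C h => ¬ C.EvPairs ω) ⊆
      Bad ×ˢ (univ : Finset (C.Ln → ZMod h × ZMod h)) := by
    intro ω hω
    rw [Finset.mem_filter] at hω
    refine Finset.mem_product.2 ⟨?_, Finset.mem_univ _⟩
    by_contra hno
    refine hω.2 fun P => ?_
    have hgood : ∀ A : Finset (Fin 7), A.Nonempty → form C (C.spanned P) A ω.1 ≤ T := by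
      intro A hA
      by_contra hlt
      refine hno (Finset.mem_biUnion.2 ⟨(P, A), Finset.mem_univ _, ?_⟩)
      simp only [bad, if_pos hA, Finset.mem_filter]
      exact ⟨Finset.mem_univ _, lt_of_not_ge hlt⟩
    refine (dev_le hC ω (U := C.spanned P) (by positivity) hgood).trans ?_
    have hcardR : ((C.spanned P).card : ℝ) ≤ (t : ℝ) ^ 2 := by
      exact_mod_cast spanned_card hC P
    rw [C.sqrt_q, hTdef, ← ht]
    have h1 : (t : ℝ) ^ 2 / 128 ≤ (t : ℝ) ^ 2 * C.p / (2 * C.lg ^ 41) := by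
      rw [div_le_div_iff₀ (by norm_num) (by positivity)]
      nlinarith [mul_le_mul_of_nonneg_left h41 (sq_nonneg (t : ℝ))]
    have h2 : (t : ℝ) ^ 2 * C.p / C.lg ^ 41 = 2 * ((t : ℝ) ^ 2 * C.p / (2 * C.lg ^ 41)) := by
      field_simp
    linarith
  have hPt : (Fintype.card C.Pt : ℝ) ≤ Real.exp (3 * C.lg) := by
    rw [hC.card_pt, Cfg.lg, ← Real.log_rpow (by rw [C.q_cast]; positivity), Real.exp_log
      (by rw [C.q_cast]; positivity)]
    push_cast
    rw [show ((C.q : ℝ) ^ (3 : ℝ)) = (C.q : ℝ) ^ 3 by norm_cast, C.q_cast]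
    have : (4 : ℝ) ≤ (C.p : ℝ) ^ 2 := by nlinarith
    nlinarith
  have hBad : 5 * (Bad.card : ℝ) ≤ (Fintype.card (C.Var → Gam) : ℝ) := by
    have h1 : (Bad.card : ℝ) ≤
        ((Fintype.card C.Pt : ℝ) ^ t * 128) * ((Fintype.card (C.Var → Gam) : ℝ) * E) := by
      refine le_trans (Nat.cast_le.2 Finset.card_biUnion_le) ?_
      rw [Nat.cast_sum]
      refine (Finset.sum_le_sum fun x _ => hbad x.1 x.2).trans_eq ?_
      rw [Finset.sum_const, nsmul_eq_mul]
      simp
    have h2 : (Fintype.card C.Pt : ℝ) ^ t * E ≤ 1 / 640 := by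
      refine (mul_le_mul_of_nonneg_right (pow_le_pow_left₀ (Nat.cast_nonneg _) hPt t)
        (Real.exp_nonneg _)).trans ?_
      rw [← Real.exp_nat_mul, ← Real.exp_add]
      have h3 : C.lg * 4 * t ≤ (t : ℝ) ^ 2 / (768 * C.lg ^ 82) := by
        rw [le_div_iff₀ (by positivity)]
        have h84 : 3072 * C.lg ^ 83 ≤ C.lg ^ 84 := by
          rw [pow_succ C.lg 83, mul_comm (C.lg ^ 83)]
          exact mul_le_mul_of_nonneg_right (by linarith) (by positivity)
        nlinarith [mul_le_mul_of_nonneg_left (h84.trans ht1) (by positivity : (0 : ℝ) ≤ t)]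
      refine (Real.exp_le_exp.2 (show _ ≤ -C.lg by nlinarith)).trans ?_
      rw [Real.exp_neg, Cfg.lg, Real.exp_log (by rw [C.q_cast]; positivity), C.q_cast, one_div]
      exact inv_anti₀ (by norm_num) (by nlinarith)
    have hN : (0 : ℝ) ≤ (Fintype.card (C.Var → Gam) : ℝ) := Nat.cast_nonneg _
    nlinarith [mul_le_mul_of_nonneg_left h2 hN]
  have hBadN : 5 * Bad.card ≤ Fintype.card (C.Var → Gam) := by exact_mod_cast hBad
  beta_reduce
  rw [show Nat.card (Omega C h) =
      Fintype.card (C.Var → Gam) * Fintype.card (C.Ln → ZMod h × ZMod h) by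
    rw [Nat.card_prod, Nat.card_eq_fintype_card, Nat.card_eq_fintype_card],
    Nat.card_eq_fintype_card, Fintype.card_subtype]
  refine (Nat.mul_le_mul_left 5 ((Finset.card_le_card hsub).trans
    (Finset.card_product _ _).le)).trans ?_
  rw [← mul_assoc, Finset.card_univ]
  exact Nat.mul_le_mul_right _ hBadN

end Vale.P045.Baer
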