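import Vale.Agent.P045.Baer.Defs

/-!
# P045: the events required of the random data
-/

namespace Vale.P045.Baer

open Finset

namespace Cfg

variable (C : Cfg)

/-- Grid size `⌈10^8 log q⌉`. -/
noncomputable def tg : ℕ := ⌈(10 : ℝ) ^ 8 * C.lg⌉₊

/-- Tuple size `⌈(log q)^84⌉`. -/
noncomputable def tp : ℕ := ⌈C.lg ^ 84⌉₊

/-- Sampling bound `⌈16 √q / (log q)^2⌉`. -/
noncomputable def lam : ℕ := ⌈16 * Real.sqrt (C.q : ℝ) / C.lg ^ 2⌉₊

/-- The low threshold `√q / (log q)^20`. -/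
noncomputable def th : ℝ := Real.sqrt (C.q : ℝ) / C.lg ^ 20

/-- Good points lying on exactly two lines of `R`. -/
def cand (R : Finset C.Ln) : Finset C.Pt := C.good.filter fun z => C.f R z = 2

open Classical in
/-- A point set in which every coordinate occurs at most `lam` times. -/
def LamBounded (Z : Finset C.Pt) : Prop :=
  ∀ v : C.Var, (Z.filter fun z => C.v1 z = v ∨ C.v2 z = v).card ≤ C.lam

open Classical in
/-- A largest `LamBounded` subset of `cand R`. -/
noncomputable def zsel (R : Finset C.Ln) : Finset C.Pt :=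
  if h : ((C.cand R).powerset.filter fun Z => C.LamBounded Z).Nonempty
    then (Finset.exists_max_image _ Finset.card h).choose else ∅

/-- A grid all whose crossings are good and use pairwise different coordinates. -/
def CleanGrid [Nonempty C.Pt] (L M : Fin C.tg → C.Ln) : Prop :=
  (∀ i j, L i ≠ M j ∧ C.meetPt (L i) (M j) ∈ C.good) ∧
  Function.Injective (fun x : (Fin C.tg × Fin C.tg) × Bool =>
    if x.2 then C.v1 (C.meetPt (L x.1.1) (M x.1.2)) else C.v2 (C.meetPt (L x.1.1) (M x.1.2)))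

open Classical in
/-- The ordinary lines spanned by a tuple of points. -/
noncomputable def spanned (P : Fin C.tp → C.Pt) : Finset C.Ln :=
  C.ordinary.filter fun l => ∃ i j, P i ≠ P j ∧ P i ∈ C.pts l ∧ P j ∈ C.pts l

variable {h : ℕ} (ω : Omega C h)

/-- `mu = q / (128 h)`. -/
noncomputable def mu (C : Cfg) (h : ℕ) : ℝ := C.nn / (h : ℝ)

open Classical in
/-- Events on loads, masses and classes. -/
structure EvBasic : Prop where
  load : ∀ l, l ≠ C.inf → |(C.load ω l : ℝ) - C.nn| ≤ Real.sqrt (C.q : ℝ) * C.lg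
  mass : |((C.X ω).card : ℝ) - (C.q : ℝ) * C.nn| ≤ (C.q : ℝ) * Real.sqrt (C.p : ℝ)
  cls : ∀ l ∈ C.A ∪ C.B, ∀ (δ : Option (ZMod h)) (v : ZMod h),
    |(((C.X ω ∩ C.pts l).filter fun z => form δ (ω.2 (C.other l z)) = v).card : ℝ) - C.mu h|
      ≤ C.mu h / 20
  clsA : ∀ (c : Gam) (δ : Option (ZMod h)) (v : ZMod h),
    ((C.A.filter fun a => C.colA ω a = c ∧ form δ (ω.2 a) = v).card : ℝ) ≤ 21 / 20 * C.mu h
  clsB : ∀ (c : Gam) (δ : Option (ZMod h)) (v : ZMod h),
    ((C.B.filter fun b => C.colB ω b = c ∧ form δ (ω.2 b) = v).card : ℝ) ≤ 21 / 20 * C.mu h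
  box : ∀ l ∈ C.ordinary, ∀ (j : ZMod h) (c : Gam) (v v' : ZMod h),
    (((C.X ω ∩ C.pts l).filter fun z =>
      C.Mem ω z (Sum.inr (Sum.inr (j, c, v, v')))).card : ℝ) ≤ Real.sqrt (C.p : ℝ)
  cell : ∀ l ∈ C.A ∪ C.B, ∀ i : ZMod h × ZMod h,
    (((C.X ω ∩ C.pts l).filter fun z => ω.2 (C.other l z) = i).card : ℝ) ≤ Real.sqrt (C.p : ℝ)

open Classical in
/-- Clean grids meet the edge set as expected. -/
def EvGrid [Nonempty C.Pt] : Prop :=
  ∀ L M : Fin C.tg → C.Ln, C.CleanGrid L M →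
    (99 / 100 : ℝ) * (C.tg : ℝ) ^ 2 / 128 ≤
      ((univ.filter fun x : Fin C.tg × Fin C.tg => C.meetPt (L x.1) (M x.2) ∈ C.X ω).card : ℝ)

/-- Sampled crossing sets meet the edge set as expected. -/
def EvSample : Prop :=
  ∀ R : Finset C.Ln, 0 < R.card →
    100 * 128 * (C.lam : ℝ) * (R.card : ℝ) * C.lg ≤ ((C.zsel R).card : ℝ) →
    ((C.zsel R).card : ℝ) ≤ 256 * ((C.X ω ∩ C.zsel R).card : ℝ)

/-- The lines spanned by few points have no systematic deviation. -/
def EvPairs : Prop :=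
  ∀ P : Fin C.tp → C.Pt,
    C.Dev ω (C.spanned P) ≤ (C.tp : ℝ) ^ 2 * Real.sqrt (C.q : ℝ) / C.lg ^ 41

/-- All events together. -/
structure Ev [Nonempty C.Pt] : Prop where
  basic : C.EvBasic ω
  grid : C.EvGrid ω
  sample : C.EvSample ω
  pairs : C.EvPairs ω

end Cfg

end Vale.P045.Baer
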