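import Vale.Agent.P045.Baer.Pins
import Vale.Agent.P045.Baer.Geo.Subplane

/-!
Existence of the configurations: the plane over the field with `p ^ 2` elements with the lines
of a Baer subplane and their image under the collineation `I + w C`.
-/

namespace Vale.P045.Baer

open Configuration

namespace Geo

lemma existsUnique_join {P L : Type*} [Membership P L] [ProjectivePlane P L] (z w : P)
    (h : z ≠ w) : ∃! l : L, z ∈ l ∧ w ∈ l :=
  HasLines.existsUnique_line P L z w h

lemma existsUnique_meet {P L : Type*} [Membership P L] [ProjectivePlane P L] (l m : L)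
    (h : l ≠ m) : ∃! z : P, z ∈ l ∧ z ∈ m :=
  HasPoints.existsUnique_point P L l m h

end Geo

/-- There is a configuration for every prime. -/
theorem geo : GeoStmt := by
  classical
  intro p hp
  have : Fact p.Prime := ⟨hp⟩
  let K := GaloisField p 2
  let V := Projectivization K (Fin 3 → K)
  have hK : Nat.card K = p ^ 2 := GaloisField.card p 2 two_ne_zero
  have hfinK : Finite K := Nat.finite_of_card_ne_zero (hK ▸ pow_ne_zero _ hp.ne_zero)
  let hfin : Fintype V := Fintype.ofFinite V
  obtain ⟨A, B, hA, hB, hd⟩ := Geo.exists_disjoint_baer (p := p) hK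
  have hord : ProjectivePlane.order V V = p ^ 2 := (Geo.order_eq K).trans hK
  have hcard : Fintype.card V = (p ^ 2) ^ 2 + p ^ 2 + 1 := by
    rw [ProjectivePlane.card_points V V, hord]
  obtain ⟨inf, hinf⟩ : ∃ inf, inf ∉ A ∪ B := by
    by_contra h
    push Not at h
    have h1 := Set.ncard_union_le A B
    rw [hA.card_lines, hB.card_lines, Set.eq_univ_of_forall h, Set.ncard_univ,
      Nat.card_eq_fintype_card, hcard] at h1
    have h2 : 4 * p ^ 2 ≤ (p ^ 2) ^ 2 := by
      nlinarith [Nat.mul_le_mul hp.two_le hp.two_le]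
    nlinarith [hp.two_le]
  let C : Cfg :=
    { p := p
      Pt := V
      Ln := V
      pts := fun l => Finset.univ.filter fun z => z ∈ l
      A := A.toFinset
      B := B.toFinset
      inf := inf }
  have hlines : ∀ (S : Set V) (z : V),
      C.deg S.toFinset z = {a ∈ S | z ∈ a}.ncard := by
    intro S z
    rw [Cfg.deg, ← Set.ncard_coe_finset]
    congr 1
    ext a
    simp [Cfg.linesIn, C]
  have hbaer : ∀ S : Set V, Geo.IsBaer (P := V) p S → C.IsBaer S.toFinset := by
    intro S hS
    have hsp : ∀ z : V, 2 ≤ C.deg S.toFinset z ↔ {a ∈ S | z ∈ a}.Nontrivial := by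
      intro z
      rw [hlines, ← Set.one_lt_ncard_iff_nontrivial]
      exact Iff.rfl
    refine ⟨?_, fun z => ?_, fun z hz => ?_, ?_, fun l hl => ?_, fun l hl => ?_⟩
    · rw [← Set.ncard_coe_finset, Set.coe_toFinset]
      exact hS.card_lines
    · obtain ⟨a, ha, hza⟩ := hS.cover z
      rw [hlines]
      exact (Set.ncard_pos (Set.toFinite _)).2 ⟨a, ha, hza⟩
    · rw [hlines]
      exact hS.deg_special z ((hsp z).1 hz)
    · rw [← Set.ncard_coe_finset]
      refine Eq.trans (congrArg Set.ncard ?_) hS.card_special
      ext z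
      simp only [Finset.coe_filter, Finset.mem_univ, true_and, Set.mem_ofPred_eq, hsp]
      exact Iff.rfl
    · rw [Finset.card_le_one]
      intro z hz w hw
      simp only [Finset.mem_filter, C, Finset.mem_univ, true_and] at hz hw
      exact hS.special_off l (fun h => hl (Set.mem_toFinset.2 h))
        ⟨hz.1, (hsp z).1 hz.2⟩ ⟨hw.1, (hsp w).1 hw.2⟩
    · rw [← Set.ncard_coe_finset]
      refine Eq.trans (congrArg Set.ncard ?_) (hS.special_on l (Set.mem_toFinset.1 hl))
      ext z
      simp [hsp, C]
  refine ⟨C, rfl, ⟨hp, hcard, hcard, fun l => ?_, fun z => ?_, ?_, ?_, hbaer A hA, hbaer B hB,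
    ?_, ?_, ?_⟩⟩
  · show (Finset.univ.filter fun z : V => z ∈ l).card = p ^ 2 + 1
    rw [← hord, ← ProjectivePlane.pointCount_eq V l, Configuration.pointCount,
      Nat.card_eq_fintype_card, Fintype.card_subtype]
  · show (Finset.univ.filter fun l : V => z ∈ (Finset.univ.filter fun w : V => w ∈ l)).card =
      p ^ 2 + 1
    rw [← hord, ← ProjectivePlane.lineCount_eq (L := V) z, Configuration.lineCount,
      Nat.card_eq_fintype_card, Fintype.card_subtype]
    simp
  · intro z w h
    simpa [C] using Geo.existsUnique_join (L := V) z w h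
  · intro l m h
    simpa [C] using Geo.existsUnique_meet (P := V) l m h
  · exact Set.disjoint_toFinset.2 hd
  · exact fun h => hinf (Or.inl (Set.mem_toFinset.1 h))
  · exact fun h => hinf (Or.inr (Set.mem_toFinset.1 h))

end Vale.P045.Baer
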