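import Vale.Agent.P045.Baer.Pins
import Vale.Agent.P045.Baer.Large
import Vale.Agent.P045.Baer.Low.Weight

/-!
# P045: few crossings at low points (PROOF16, section 4 (c))

A Bernoulli subset `R` of the cover lines with probability `lg ^ 9 / √q` would otherwise contradict
the sampling event.
-/

namespace Vale.P045.Baer

open Finset

namespace Low

variable {C : Cfg} {h : ℕ} (ω : Omega C h)

theorem linesIn_eq {U R : Finset C.Ln} (hR : R ⊆ U) (z : C.Pt) :
    C.linesIn R z = C.linesIn U z ∩ R := by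
  ext l
  simp only [Cfg.linesIn, mem_filter, mem_inter]
  exact ⟨fun ⟨a, b⟩ => ⟨⟨hR a, b⟩, a⟩, fun ⟨⟨_, b⟩, a⟩ => ⟨a, b⟩⟩

theorem f_eq {U R : Finset C.Ln} (hR : R ⊆ U) (z : C.Pt) :
    C.f R z = (C.linesIn U z ∩ R).card := by
  rw [← linesIn_eq hR]; rfl

/-- The low good points of `U`. -/
noncomputable def low0 (C : Cfg) (U : Finset C.Ln) : Finset C.Pt :=
  C.good.filter fun z => (C.f U z : ℝ) ≤ C.th

/-- Low good points on exactly two sampled lines. -/
noncomputable def z0 (C : Cfg) (U R : Finset C.Ln) : Finset C.Pt :=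
  (low0 C U).filter fun z => C.f R z = 2

/-- Ordered pairs of a point set with the same value of `g`. -/
def samePairs {α β : Type*} [DecidableEq β] (Z : Finset α) (g : α → β) : Finset (α × α) :=
  (Z ×ˢ Z).filter fun x => g x.1 = g x.2

theorem sum_sq_fib {α β : Type*} [Fintype β] [DecidableEq β] (Z : Finset α) (g : α → β) :
    ∑ v, (Z.filter fun z => g z = v).card ^ 2 = (samePairs Z g).card := by
  rw [samePairs, card_filter, sum_product]
  simp only [sq, ← card_filter]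
  calc ∑ v, (Z.filter fun z => g z = v).card * (Z.filter fun z => g z = v).card
      = ∑ v, ∑ z ∈ Z.filter (fun z => g z = v), (Z.filter fun w => g z = g w).card := by
        refine sum_congr rfl fun v _ => ?_
        rw [← smul_eq_mul, ← sum_const]
        refine sum_congr rfl fun z hz => ?_
        rw [(mem_filter.1 hz).2]
        simp only [eq_comm]
    _ = ∑ z ∈ Z, (Z.filter fun w => g z = g w).card :=
        sum_fiberwise Z g fun z => (Z.filter fun w => g z = g w).card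

/-- A largest bounded subset loses only coordinates that occur often. -/
theorem card_le_zsel (hf : Facts C) {R : Finset C.Ln} {Z : Finset C.Pt} (hZ : Z ⊆ C.cand R) :
    (Z.card : ℝ) * C.lam ≤ ((C.zsel R).card : ℝ) * C.lam +
      2 * (samePairs Z C.aOf).card + 2 * (samePairs Z C.bOf).card := by
  classical
  set c : C.Var → ℕ := fun v => (Z.filter fun z => C.v1 z = v ∨ C.v2 z = v).card with hc
  set Z' := Z.filter fun z => c (C.v1 z) ≤ C.lam ∧ c (C.v2 z) ≤ C.lam with hZ'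
  have hb : C.LamBounded Z' := by
    intro v
    rcases (Z'.filter fun z => C.v1 z = v ∨ C.v2 z = v).eq_empty_or_nonempty with he | ⟨z, hz⟩
    · simp [he]
    obtain ⟨hz1, hz2⟩ := mem_filter.1 hz
    have hcv : c v ≤ C.lam := by
      rcases hz2 with e | e <;> rw [← e]
      · exact (mem_filter.1 hz1).2.1
      · exact (mem_filter.1 hz1).2.2
    exact le_trans (card_le_card (filter_subset_filter _ (filter_subset _ _))) hcv
  have hsel : Z'.card ≤ (C.zsel R).card := by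
    have hm : Z' ∈ (C.cand R).powerset.filter fun Z => C.LamBounded Z :=
      mem_filter.2 ⟨mem_powerset.2 ((filter_subset _ _).trans hZ), hb⟩
    rw [Cfg.zsel, dif_pos ⟨_, hm⟩]
    exact (exists_max_image _ Finset.card ⟨_, hm⟩).choose_spec.2 _ hm
  set bad := univ.filter fun v => C.lam < c v with hbad
  have hlost : (Z \ Z').card * C.lam ≤ ∑ v, c v ^ 2 := by
    have h1 : Z \ Z' ⊆ bad.biUnion fun v => Z.filter fun z => C.v1 z = v ∨ C.v2 z = v := by
      intro z hz
      obtain ⟨hz1, hz2⟩ := mem_sdiff.1 hz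
      rw [hZ', mem_filter, not_and, not_and_or, not_le, not_le] at hz2
      rcases hz2 hz1 with e | e
      · exact mem_biUnion.2 ⟨C.v1 z, by simp [hbad, e], mem_filter.2 ⟨hz1, Or.inl rfl⟩⟩
      · exact mem_biUnion.2 ⟨C.v2 z, by simp [hbad, e], mem_filter.2 ⟨hz1, Or.inr rfl⟩⟩
    calc (Z \ Z').card * C.lam ≤ (∑ v ∈ bad, c v) * C.lam :=
          Nat.mul_le_mul_right _ ((card_le_card h1).trans card_biUnion_le)
      _ = ∑ v ∈ bad, c v * C.lam := sum_mul _ _ _
      _ ≤ ∑ v ∈ bad, c v ^ 2 := sum_le_sum fun v hv => by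
          rw [sq]; exact Nat.mul_le_mul_left _ (mem_filter.1 hv).2.le
      _ ≤ ∑ v, c v ^ 2 := sum_le_sum_of_subset (filter_subset _ _)
  have hsq : ∑ v, c v ^ 2 ≤
      2 * (samePairs Z C.v1).card + 2 * (samePairs Z C.v2).card := by
    rw [← sum_sq_fib, ← sum_sq_fib, mul_sum, mul_sum, ← sum_add_distrib]
    refine sum_le_sum fun v _ => ?_
    have h1 : c v ≤ (Z.filter fun z => C.v1 z = v).card + (Z.filter fun z => C.v2 z = v).card := by
      simp only [hc, filter_or]; exact card_union_le _ _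
    nlinarith [Nat.pow_le_pow_left h1 2,
      sq_nonneg (((Z.filter fun z => C.v1 z = v).card : ℤ) - (Z.filter fun z => C.v2 z = v).card)]
  have e1 : samePairs Z C.v1 = samePairs Z C.aOf :=
    filter_congr fun x _ => by simp [Cfg.v1]
  have e2 : samePairs Z C.v2 = samePairs Z C.bOf :=
    filter_congr fun x _ => ⟨hf.var_inj _ (hf.bOf_mem _).1 _ (hf.bOf_mem _).1,
      fun e => by rw [Cfg.v2, Cfg.v2, e]⟩
  rw [e1, e2] at hsq
  have h3 : Z.card * C.lam ≤ (C.zsel R).card * C.lam +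
      (2 * (samePairs Z C.aOf).card + 2 * (samePairs Z C.bOf).card) := by
    have hcard : (Z \ Z').card + Z'.card = Z.card :=
      card_sdiff_add_card_eq_card (filter_subset _ Z)
    rw [← hcard, add_mul]
    have := Nat.mul_le_mul_right C.lam hsel
    omega
  have h4 : ((Z.card * C.lam : ℕ) : ℝ) ≤ (((C.zsel R).card * C.lam +
      (2 * (samePairs Z C.aOf).card + 2 * (samePairs Z C.bOf).card) : ℕ) : ℝ) := by
    exact_mod_cast h3
  push_cast at h4
  linarith

/-- The sampling event bounds the selected points. -/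
theorem zsel_le (hs : C.EvSample ω) (hlg : 0 ≤ C.lg) (R : Finset C.Ln) :
    ((C.zsel R).card : ℝ) ≤ 256 * (((C.X ω).filter fun z => 2 ≤ C.f R z).card : ℝ) +
      100 * 128 * (C.lam : ℝ) * C.lg * (R.card : ℝ) := by
  classical
  have hsub : C.zsel R ⊆ C.cand R := by
    rw [Cfg.zsel]
    split_ifs with hne
    · exact mem_powerset.1 (mem_filter.1 (exists_max_image _ Finset.card hne).choose_spec.1).1
    · exact empty_subset _
  have hpos : 0 ≤ 100 * 128 * (C.lam : ℝ) * C.lg * (R.card : ℝ) := by positivity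
  have h1 : ((C.X ω ∩ C.zsel R).card : ℝ) ≤ (((C.X ω).filter fun z => 2 ≤ C.f R z).card : ℝ) := by
    refine Nat.cast_le.2 (card_le_card fun z hz => ?_)
    obtain ⟨hz1, hz2⟩ := mem_inter.1 hz
    exact mem_filter.2 ⟨hz1, (mem_filter.1 (hsub hz2)).2.ge⟩
  rcases Nat.eq_zero_or_pos R.card with h0 | h0
  · have : (C.zsel R).card = 0 := by
      refine Nat.le_zero.1 ((card_le_card hsub).trans (le_of_eq ?_))
      rw [card_eq_zero, Cfg.cand, filter_eq_empty_iff]
      intro z _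
      simp [Cfg.f, Cfg.deg, Cfg.linesIn, card_eq_zero.1 h0]
    rw [this, Nat.cast_zero]
    positivity
  rcases le_or_gt (100 * 128 * (C.lam : ℝ) * (R.card : ℝ) * C.lg) ((C.zsel R).card : ℝ) with hb | hb
  · linarith [hs R h0 hb]
  · linarith [(Nat.cast_nonneg ((C.X ω).filter fun z => 2 ≤ C.f R z).card : (0 : ℝ) ≤ _)]

/-- On a line outside `U` the degrees in `U` add up to at most `|U|`. -/
theorem sum_f_le (hC : C.Valid) {U : Finset C.Ln} {g : C.Ln} (hg : g ∉ U) {s : Finset C.Pt}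
    (hs : ∀ z ∈ s, z ∈ C.pts g) : ∑ z ∈ s, C.f U z ≤ U.card := by
  simp only [Cfg.f, Cfg.deg, Cfg.linesIn, card_filter]
  rw [sum_comm, card_eq_sum_ones]
  refine sum_le_sum fun l hl => ?_
  rw [← card_filter, card_le_one]
  intro a ha b hb
  obtain ⟨ha1, ha2⟩ := mem_filter.1 ha
  obtain ⟨hb1, hb2⟩ := mem_filter.1 hb
  by_contra hne
  exact hg ((hC.join a b hne).unique ⟨hs a ha1, hs b hb1⟩ ⟨ha2, hb2⟩ ▸ hl)

/-- Expected number of equal pairs among the sampled low points, for `g = aOf` or `g = bOf`. -/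
theorem wsum_pairs (hC : C.Valid) {U : Finset C.Ln} {g : C.Pt → C.Ln}
    (hg : ∀ z, g z ∉ U ∧ z ∈ C.pts (g z)) {t : ℝ} (ht0 : 0 ≤ t) (ht1 : t ≤ 1) :
    wsum t U (fun R => ((samePairs (z0 C U R) g).card : ℝ)) ≤
      (∑ z ∈ low0 C U, ((C.f U z).choose 2 : ℝ)) * t ^ 2 *
        (1 + t ^ 2 * C.th * (U.card : ℝ) / 2) := by
  set ch : C.Pt → Finset C.Ln → ℝ := fun z R => ((C.linesIn U z ∩ R).card.choose 2 : ℝ) with hch
  have hth : 0 ≤ C.th := by rw [Cfg.th]; exact div_nonneg (Real.sqrt_nonneg _) (Even.pow_nonneg ⟨10, rfl⟩ _)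
  have hsub : ∀ z, C.linesIn U z ⊆ U := fun z => filter_subset _ _
  refine le_trans (wsum_mono (g' := fun R => ∑ z ∈ low0 C U,
      (ch z R + ∑ w ∈ (low0 C U).filter (fun w => g z = g w ∧ z ≠ w), ch z R * ch w R))
      ht0 ht1 fun R hR => ?_) ?_
  · rw [samePairs, z0, ← filter_product, filter_filter, card_filter, sum_product, Nat.cast_sum]
    refine sum_le_sum fun z hz => ?_
    push_cast
    rw [sum_eq_add_sum_sdiff_singleton_of_mem hz, sum_filter]
    refine add_le_add ?_ (le_trans (sum_le_sum fun w hw => ?_)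
      (sum_le_sum_of_subset_of_nonneg sdiff_subset fun w _ _ => ?_))
    · split_ifs with h1
      · rw [f_eq hR] at h1; simp [hch, h1.1.1]
      · positivity
    · have hwz : z ≠ w := fun e => (mem_sdiff.1 hw).2 (by simp [e])
      simp only [hwz, ne_eq, not_false_eq_true, and_true]
      split_ifs with h1 h2 h3
      · rw [f_eq hR, f_eq hR] at h1; simp [hch, h1.1.1, h1.1.2]
      · exact absurd h1.2 h2
      · positivity
      · exact le_rfl
    · split_ifs <;> positivity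
  rw [wsum_sum, sum_mul, sum_mul]
  refine sum_le_sum fun z _ => ?_
  rw [wsum_add, wsum_sum, wsum_choose 2 (hsub z), mul_add, mul_one]
  refine add_le_add le_rfl (le_trans (sum_le_sum fun w hw => le_of_eq
    (wsum_choose_mul 2 (hsub z) (hsub w) ?_)) ?_)
  · obtain ⟨-, hgw, hne⟩ := mem_filter.1 hw
    rw [disjoint_left]
    intro l hl hl'
    refine (hg z).1 ?_
    obtain ⟨h1, h2⟩ := mem_filter.1 hl
    rw [(hC.join z w hne).unique ⟨(hg z).2, hgw ▸ (hg w).2⟩ ⟨h2, (mem_filter.1 hl').2⟩]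
    exact h1
  set s := (low0 C U).filter fun w => g z = g w ∧ z ≠ w
  have hs : ((∑ w ∈ s, C.f U w : ℕ) : ℝ) ≤ (U.card : ℝ) :=
    Nat.cast_le.2 (sum_f_le hC (hg z).1 fun w hw => (mem_filter.1 hw).2.1 ▸ (hg w).2)
  have hw : ∑ w ∈ s, ((C.f U w).choose 2 : ℝ) ≤ C.th / 2 * (U.card : ℝ) := by
    push_cast at hs
    refine le_trans ?_ (mul_le_mul_of_nonneg_left hs (by linarith))
    rw [mul_sum]
    refine sum_le_sum fun w hw => ?_
    have hfw : (C.f U w : ℝ) ≤ C.th := (mem_filter.1 (mem_filter.1 hw).1).2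
    rw [Nat.cast_choose_two]
    have := Nat.cast_nonneg (α := ℝ) (C.f U w)
    nlinarith
  calc ∑ w ∈ s, ((C.f U z).choose 2 : ℝ) * ((C.f U w).choose 2 : ℝ) * t ^ (2 * 2)
      = ((C.f U z).choose 2 : ℝ) * t ^ 2 * t ^ 2 * ∑ w ∈ s, ((C.f U w).choose 2 : ℝ) := by
        rw [mul_sum]; exact sum_congr rfl fun w _ => by ring
    _ ≤ ((C.f U z).choose 2 : ℝ) * t ^ 2 * t ^ 2 * (C.th / 2 * (U.card : ℝ)) :=
        mul_le_mul_of_nonneg_left hw (by positivity)
    _ = _ := by ring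

/-- Expected number of sampled low points. -/
theorem le_wsum_z0 {U : Finset C.Ln} {t : ℝ} (ht0 : 0 ≤ t) (ht1 : t ≤ 1) :
    (∑ z ∈ low0 C U, ((C.f U z).choose 2 : ℝ)) * t ^ 2 * (1 - t * C.th) ≤
      wsum t U (fun R => ((z0 C U R).card : ℝ)) := by
  have hsub : ∀ z, C.linesIn U z ⊆ U := fun z => filter_subset _ _
  refine le_trans ?_ (wsum_mono (g := fun R => ∑ z ∈ low0 C U,
    (((C.linesIn U z ∩ R).card.choose 2 : ℝ) - 3 * ((C.linesIn U z ∩ R).card.choose 3 : ℝ)))
    ht0 ht1 fun R hR => ?_)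
  · rw [wsum_sum, sum_mul, sum_mul]
    refine sum_le_sum fun z hz => ?_
    rw [wsum_sub, wsum_mul, wsum_choose 2 (hsub z), wsum_choose 3 (hsub z)]
    change ((C.f U z).choose 2 : ℝ) * t ^ 2 * (1 - t * C.th) ≤
      ((C.f U z).choose 2 : ℝ) * t ^ 2 - 3 * (((C.f U z).choose 3 : ℝ) * t ^ 3)
    have h1 := mul_le_mul_of_nonneg_right ((choose_three_le (C.f U z)).trans
      (mul_le_mul_of_nonneg_right (mem_filter.1 hz).2 (Nat.cast_nonneg _)))
      (pow_nonneg ht0 3)
    linarith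
  · rw [z0, card_filter, Nat.cast_sum]
    refine sum_le_sum fun z _ => ?_
    rw [f_eq hR]
    push_cast
    exact bonferroni _

/-- Expected number of edges with two sampled lines. -/
theorem wsum_hit_le {U : Finset C.Ln} {t : ℝ} (ht0 : 0 ≤ t) (ht1 : t ≤ 1) :
    wsum t U (fun R => (((C.X ω).filter fun z => 2 ≤ C.f R z).card : ℝ)) ≤
      2 * t * (C.Ov ω U : ℝ) := by
  have hsub : ∀ z, C.linesIn U z ⊆ U := fun z => filter_subset _ _
  refine le_trans (wsum_mono (g' := fun R => ∑ z ∈ (C.X ω).filter (fun z => 2 ≤ C.f U z),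
    ((C.linesIn U z ∩ R).card.choose 1 : ℝ)) ht0 ht1 fun R hR => ?_) ?_
  · refine le_trans (Nat.cast_le.2 (card_le_card (t := ((C.X ω).filter fun z => 2 ≤ C.f U z).filter
      fun z => 2 ≤ (C.linesIn U z ∩ R).card) fun z hz => ?_)) ?_
    · obtain ⟨h1, h2⟩ := mem_filter.1 hz
      rw [f_eq hR] at h2
      exact mem_filter.2 ⟨mem_filter.2 ⟨h1, h2.trans (card_le_card inter_subset_left)⟩, h2⟩
    rw [card_filter, Nat.cast_sum]
    refine sum_le_sum fun z _ => ?_
    rw [Nat.choose_one_right]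
    split_ifs with h1
    · exact_mod_cast le_trans (by norm_num) h1
    · simp
  rw [wsum_sum, Cfg.Ov, Nat.cast_sum, mul_sum]
  refine le_trans (sum_le_sum fun z hz => ?_)
    (sum_le_sum_of_subset_of_nonneg (filter_subset _ _) fun z _ _ => by positivity)
  rw [wsum_choose 1 (hsub z), Nat.choose_one_right, pow_one]
  change (C.f U z : ℝ) * t ≤ _
  have h2 : 2 ≤ C.f U z := (mem_filter.1 hz).2
  have h3 : (C.f U z : ℝ) ≤ 2 * ((C.f U z - 1 : ℕ) : ℝ) := by
    exact_mod_cast (by omega : C.f U z ≤ 2 * (C.f U z - 1))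
  nlinarith

/-- The sampled inequality. -/
theorem main_ineq (hC : C.Valid) (hf : Facts C) (hs : C.EvSample ω) (hlg : 0 ≤ C.lg)
    {U : Finset C.Ln} (hU : U ⊆ C.ordinary) {t : ℝ} (ht0 : 0 ≤ t) (ht1 : t ≤ 1) :
    (∑ z ∈ low0 C U, ((C.f U z).choose 2 : ℝ)) * t ^ 2 *
        ((1 - t * C.th) * C.lam - 4 * (1 + t ^ 2 * C.th * (U.card : ℝ) / 2)) ≤
      (512 * t * (C.Ov ω U : ℝ) + 100 * 128 * (C.lam : ℝ) * C.lg * ((U.card : ℝ) * t)) *
        C.lam := by
  have hlam : (0 : ℝ) ≤ C.lam := Nat.cast_nonneg _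
  have hA : ∀ z, C.aOf z ∉ U ∧ z ∈ C.pts (C.aOf z) := fun z =>
    ⟨fun hz => (mem_filter.1 (hU hz)).2.1 (hf.aOf_mem z).1, (hf.aOf_mem z).2⟩
  have hB : ∀ z, C.bOf z ∉ U ∧ z ∈ C.pts (C.bOf z) := fun z =>
    ⟨fun hz => (mem_filter.1 (hU hz)).2.2.1 (hf.bOf_mem z).1, (hf.bOf_mem z).2⟩
  have key : wsum t U (fun R => (C.lam : ℝ) * ((z0 C U R).card : ℝ)) ≤
      wsum t U (fun R => ((256 * (C.lam : ℝ)) *
            (((C.X ω).filter fun z => 2 ≤ C.f R z).card : ℝ) +
          (100 * 128 * (C.lam : ℝ) * C.lg * C.lam) * (R.card : ℝ)) +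
        (2 * ((samePairs (z0 C U R) C.aOf).card : ℝ) +
          2 * ((samePairs (z0 C U R) C.bOf).card : ℝ))) := by
    refine wsum_mono ht0 ht1 fun R _ => ?_
    have hZ : z0 C U R ⊆ C.cand R := fun z hz =>
      mem_filter.2 ⟨(mem_filter.1 (mem_filter.1 hz).1).1, (mem_filter.1 hz).2⟩
    have h1 := card_le_zsel hf hZ
    have h2 := mul_le_mul_of_nonneg_right (zsel_le ω hs hlg R) hlam
    linarith
  simp only [wsum_add, wsum_mul, wsum_card] at key
  have h1 := mul_le_mul_of_nonneg_left (le_wsum_z0 (C := C) (U := U) ht0 ht1) hlam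
  have h2 := mul_le_mul_of_nonneg_left (wsum_hit_le ω (U := U) ht0 ht1)
    (by positivity : 0 ≤ 256 * (C.lam : ℝ))
  have h3 := wsum_pairs hC hA ht0 ht1
  have h4 := wsum_pairs hC hB ht0 ht1
  linarith

/-- The pairs at points that are not good are negligible. -/
theorem lowPairs_le (hC : C.Valid) (hf : Facts C) (hpq : C.p ≤ C.q) (h1q : 1 ≤ C.q)
    (U : Finset C.Ln) :
    (lowPairs C U : ℝ) ≤
      2 * ∑ z ∈ low0 C U, ((C.f U z).choose 2 : ℝ) + 8 * (C.q : ℝ) * C.th ^ 2 := by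
  classical
  set s := univ.filter fun z : C.Pt => (C.f U z : ℝ) ≤ C.th with hs
  have hg : s.filter (fun z => z ∈ C.good) = low0 C U := by
    ext z; simp [hs, low0, and_comm]
  have hbad : (s.filter fun z => z ∉ C.good).card ≤ 8 * C.q := by
    have h1 : (s.filter fun z => z ∉ C.good).card ≤ C.goodᶜ.card :=
      card_le_card fun z hz => mem_compl.2 (mem_filter.1 hz).2
    rw [card_compl, hC.card_pt] at h1
    have := hf.good_card
    omega
  rw [lowPairs, ← hs, ← sum_filter_add_sum_filter_not s (fun z => z ∈ C.good), hg, Nat.cast_add]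
  refine add_le_add (le_of_eq ?_) ?_
  · rw [Nat.cast_sum, mul_sum]
    refine sum_congr rfl fun z _ => ?_
    rw [Nat.cast_choose_two, Nat.cast_mul]
    rcases Nat.eq_zero_or_pos (C.f U z) with h0 | h0
    · simp [h0]
    · rw [Nat.cast_sub h0, Nat.cast_one]; ring
  · rw [Nat.cast_sum]
    refine le_trans (sum_le_card_nsmul _ _ (C.th ^ 2) fun z hz => ?_) ?_
    · have hz1 : (C.f U z : ℝ) ≤ C.th := (mem_filter.1 (mem_filter.1 hz).1).2
      have hz2 : ((C.f U z - 1 : ℕ) : ℝ) ≤ C.th :=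
        le_trans (by exact_mod_cast Nat.sub_le _ _) hz1
      have hz0 : (0 : ℝ) ≤ C.f U z := Nat.cast_nonneg _
      rw [Nat.cast_mul, sq]
      exact mul_le_mul hz1 hz2 (Nat.cast_nonneg _) (hz0.trans hz1)
    · rw [nsmul_eq_mul]
      refine mul_le_mul_of_nonneg_right ?_ (sq_nonneg _)
      exact_mod_cast hbad

end Low

open Low in
/-- Few crossings at low points. -/
theorem low (hf : FactsStmt) : LowStmt := by
  obtain ⟨P1, hP1⟩ := lg_pow_le 16 9
  obtain ⟨P2, hP2⟩ := lg_ge 2000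
  refine ⟨P1 + P2 + 1, fun C h _ _ hS hp ω hω U hU hu1 hu2 hOv => ?_⟩
  have hp9 := hP1 C (by omega)
  have hL := hP2 C (by omega)
  have hq : (C.q : ℝ) = (C.p : ℝ) ^ 2 := C.q_cast
  have hp1 : 1 ≤ C.p := by omega
  have hpq : C.p ≤ C.q := Nat.le_self_pow two_ne_zero _
  have hpR : (1 : ℝ) ≤ (C.p : ℝ) := by exact_mod_cast hp1
  have hu1' : (C.q : ℝ) ≤ 2 * (U.card : ℝ) := by exact_mod_cast hu1
  have hu2' : (U.card : ℝ) ≤ 2 * (C.q : ℝ) := by exact_mod_cast hu2
  have hlam1 : 16 * (C.p : ℝ) / C.lg ^ 2 ≤ (C.lam : ℝ) := by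
    rw [Cfg.lam, C.sqrt_q]; exact Nat.le_ceil _
  have hlam2 : (C.lam : ℝ) ≤ 16 * (C.p : ℝ) / C.lg ^ 2 + 1 := by
    rw [Cfg.lam, C.sqrt_q]; exact (Nat.ceil_lt_add_one (by positivity)).le
  have hth : C.th = (C.p : ℝ) / C.lg ^ 20 := by rw [Cfg.th, C.sqrt_q]
  rw [C.sqrt_q] at hOv
  have hlow := lowPairs_le hS.valid (hf C hS.valid) hpq (le_trans hp1 hpq) U
  set L := C.lg
  set p : ℝ := (C.p : ℝ)
  set u : ℝ := (U.card : ℝ)
  set S := ∑ z ∈ low0 C U, ((C.f U z).choose 2 : ℝ)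
  set lm : ℝ := (C.lam : ℝ)
  have hL0 : 0 < L := by linarith
  have hp0 : 0 < p := by linarith
  set t := L ^ 9 / p with ht
  have ht0 : 0 ≤ t := by positivity
  have htp : 0 < L ^ 9 := by positivity
  have ht1 : t ≤ 1 := by rw [ht, div_le_one hp0]; linarith
  have hmain := main_ineq ω hS.valid (hf C hS.valid) hω.sample hL0.le hU ht0 ht1
  have hS0 : 0 ≤ S := sum_nonneg fun z _ => Nat.cast_nonneg _
  -- the sampling loss
  have hth1 : t * C.th ≤ 1 / 100 := by
    rw [ht, hth, show L ^ 9 / p * (p / L ^ 20) = 1 / L ^ 11 by field_simp]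
    refine one_div_le_one_div_of_le (by norm_num) ?_
    exact le_trans (by norm_num) (pow_le_pow_left₀ (by norm_num) hL 11)
  have h16 : 16 ≤ lm := by
    refine le_trans ?_ hlam1
    rw [le_div_iff₀ (by positivity)]
    have h2 : L ^ 2 ≤ L ^ 9 := pow_le_pow_right₀ (by linarith) (by norm_num)
    linarith
  have hfac : (1 / 3) * lm ≤ (1 - t * C.th) * lm - 4 * (1 + t ^ 2 * C.th * u / 2) := by
    have h1 : t ^ 2 * C.th * u / 2 ≤ lm / 16 := by
      refine le_trans ?_ (div_le_div_of_nonneg_right hlam1 (by norm_num))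
      rw [ht, hth, show 16 * p / L ^ 2 / 16 = (L ^ 9 / p) ^ 2 * (p / L ^ 20) * (2 * p ^ 2) / 2 by
        field_simp]
      gcongr
      linarith
    have h2 : (99 / 100) * lm ≤ (1 - t * C.th) * lm :=
      mul_le_mul_of_nonneg_right (by linarith) (by linarith)
    linarith
  -- compare
  by_contra hcon
  push Not at hcon
  have hlam3 : lm * L ≤ 17 * p / L := by
    rw [le_div_iff₀ hL0]
    have h1 := mul_le_mul_of_nonneg_right hlam2 (sq_nonneg L)
    rw [add_mul, div_mul_cancel₀ _ (pow_ne_zero _ hL0.ne'), one_mul] at h1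
    have h2 : L ^ 2 ≤ L ^ 9 := pow_le_pow_right₀ (by linarith) (by norm_num)
    linarith
  have e : S * t ^ 2 * ((1 / 3) * lm) ≤
      (512 * t * (C.Ov ω U : ℝ) + 100 * 128 * lm * L * (u * t)) * lm :=
    le_trans (mul_le_mul_of_nonneg_left hfac (by positivity)) hmain
  have e2 : S * L ^ 9 / 3 ≤ (1536 * L + 12800 * 34 / L) * p ^ 4 := by
    have h1 : S * t * (1 / 3) ≤ 512 * (C.Ov ω U : ℝ) + 100 * 128 * lm * L * u := by
      refine le_of_mul_le_mul_right ?_ (by positivity : 0 < t * lm)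
      linarith
    have h2 : lm * L * u ≤ 17 * p / L * (2 * p ^ 2) := by
      refine mul_le_mul hlam3 (by linarith) (Nat.cast_nonneg _) (by positivity)
    have h3 : S * t * (1 / 3) ≤ 512 * (3 * p ^ 2 * p * L) + 12800 * (17 * p / L * (2 * p ^ 2)) := by
      rw [hq] at hOv
      linarith
    have h4 := mul_le_mul_of_nonneg_left h3 hp0.le
    rw [ht] at h4
    have e3 : p * (S * (L ^ 9 / p) * (1 / 3)) = S * L ^ 9 / 3 := by field_simp
    rw [e3] at h4
    refine h4.trans (le_of_eq ?_)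
    field_simp
    ring
  -- lower bound on `S`
  have hS1 : p ^ 4 / (4 * L ^ 6) - 8 * p ^ 4 / L ^ 40 ≤ 2 * S := by
    have h1 : p ^ 4 / (4 * L ^ 6) ≤ u ^ 2 / L ^ 6 := by
      rw [show p ^ 4 / (4 * L ^ 6) = (p ^ 2 / 2) ^ 2 / L ^ 6 by field_simp; ring]
      gcongr
      linarith
    have h2 : 8 * (C.q : ℝ) * C.th ^ 2 = 8 * p ^ 4 / L ^ 40 := by
      rw [hq, hth]; field_simp
    linarith
  have hL34 : 64 * L ^ 6 ≤ L ^ 40 := by
    calc 64 * L ^ 6 ≤ L ^ 34 * L ^ 6 := by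
          refine mul_le_mul_of_nonneg_right ?_ (by positivity)
          exact le_trans (by norm_num) (pow_le_pow_left₀ (by norm_num) hL 34)
      _ = L ^ 40 := by ring
  have h5 : 8 * p ^ 4 / L ^ 40 ≤ p ^ 4 / (8 * L ^ 6) := by
    rw [div_le_div_iff₀ (by positivity) (by positivity)]
    have := mul_le_mul_of_nonneg_left hL34 (by positivity : (0 : ℝ) ≤ p ^ 4)
    linarith
  have h6 : p ^ 4 / (16 * L ^ 6) ≤ S := by
    have e4 : p ^ 4 / (4 * L ^ 6) = 2 * (p ^ 4 / (8 * L ^ 6)) := by ring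
    have e5 : p ^ 4 / (8 * L ^ 6) = 2 * (p ^ 4 / (16 * L ^ 6)) := by ring
    linarith
  have h7 := le_trans (by gcongr : p ^ 4 / (16 * L ^ 6) * L ^ 9 / 3 ≤ S * L ^ 9 / 3) e2
  rw [show p ^ 4 / (16 * L ^ 6) * L ^ 9 / 3 = (L ^ 3 / 48) * p ^ 4 by field_simp; ring] at h7
  have h8 := le_of_mul_le_mul_right h7 (by positivity)
  have h9 : 12800 * 34 / L ≤ 12800 * 34 := div_le_self (by norm_num) (by linarith)
  nlinarith [mul_le_mul_of_nonneg_left (pow_le_pow_left₀ (by norm_num) hL 2) hL0.le]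

end Vale.P045.Baer
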