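import Vale.Agent.P045.Baer.Pins
import Vale.Agent.P045.Model

/-!
# P045: a configuration with labels and no small cover gives a counterexample
-/

namespace Vale.P045.Baer

open Finset Vale.Agent.P045

set_option synthInstance.maxSize 2000

variable {C : Cfg}

lemma Cfg.Valid.aOf_spec (hC : C.Valid) (z : C.Pt) : C.aOf z ∈ C.A ∧ z ∈ C.pts (C.aOf z) := by
  have hne : (C.linesIn C.A z).Nonempty := Finset.card_pos.1 (hC.baerA.cover z)
  rw [Cfg.aOf, dif_pos hne]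
  exact Finset.mem_filter.1 hne.choose_spec

lemma Cfg.Valid.bOf_spec (hC : C.Valid) (z : C.Pt) : C.bOf z ∈ C.B ∧ z ∈ C.pts (C.bOf z) := by
  have hne : (C.linesIn C.B z).Nonempty := Finset.card_pos.1 (hC.baerB.cover z)
  rw [Cfg.bOf, dif_pos hne]
  exact Finset.mem_filter.1 hne.choose_spec

lemma Cfg.Valid.join_eq (hC : C.Valid) {z w : C.Pt} (hzw : z ≠ w) {l : C.Ln} (hz : z ∈ C.pts l)
    (hw : w ∈ C.pts l) : C.joinLn z w = l := by
  rw [Cfg.joinLn, dif_pos ⟨l, hz, hw⟩]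
  exact (hC.join z w hzw).unique (Exists.choose_spec (⟨l, hz, hw⟩ : ∃ l, z ∈ C.pts l ∧ w ∈ C.pts l)) ⟨hz, hw⟩

lemma Cfg.Valid.join_spec (hC : C.Valid) {z w : C.Pt} (hzw : z ≠ w) :
    z ∈ C.pts (C.joinLn z w) ∧ w ∈ C.pts (C.joinLn z w) := by
  obtain ⟨l, ⟨hz, hw⟩, -⟩ := hC.join z w hzw
  rw [hC.join_eq hzw hz hw]
  exact ⟨hz, hw⟩

lemma eq_of_deg_one {S : Finset C.Ln} {z : C.Pt} (h1 : C.deg S z = 1) {l m : C.Ln}
    (hl : l ∈ S) (hzl : z ∈ C.pts l) (hm : m ∈ S) (hzm : z ∈ C.pts m) : l = m := by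
  obtain ⟨x, hx⟩ := Finset.card_eq_one.1 h1
  have hl' : l ∈ C.linesIn S z := Finset.mem_filter.2 ⟨hl, hzl⟩
  have hm' : m ∈ C.linesIn S z := Finset.mem_filter.2 ⟨hm, hzm⟩
  rw [hx, Finset.mem_singleton] at hl' hm'
  rw [hl', hm']

/-- The module statement: without a small cover there is a counterexample. -/
theorem model : ModelStmt := by
  intro C h _ hC hh ω hX hcov
  classical
  have : Fact h.Prime := ⟨hh⟩
  let D := {d : C.Pt // d ∈ C.pts C.inf}
  let P := {z : C.Pt // z ∈ C.good}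
  have hD : Fintype.card D = C.q + 1 := by
    simp only [D, Fintype.card_coe, hC.card_pts]
  have : Nonempty D := Fintype.card_pos_iff.1 (by omega)
  let dirOf : C.Ln → D := fun l =>
    if hl : (C.pts l ∩ C.pts C.inf).Nonempty then ⟨hl.choose, (mem_inter.1 hl.choose_spec).2⟩
    else Classical.arbitrary D
  let line : P → D → C.Ln := fun z d => C.joinLn z.1 d.1
  let a : P → C.Ln := fun z => C.aOf z.1
  let b : P → C.Ln := fun z => C.bOf z.1
  let col : C.Ln → Gam := fun l => if l ∈ C.A then C.colA ω l else C.colB ω l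
  have hgood : ∀ z : P, z.1 ∉ C.pts C.inf ∧ C.deg C.A z.1 = 1 ∧ C.deg C.B z.1 = 1 := fun z =>
    (mem_filter.1 z.2).2
  have hne : ∀ (z : P) (d : D), z.1 ≠ d.1 := fun z d e => (hgood z).1 (e ▸ d.2)
  have hline : ∀ z d, dirOf (line z d) = d := fun z d => by
    obtain ⟨h1, h2⟩ := hC.join_spec (hne z d)
    have hni : line z d ≠ C.inf := fun e => (hgood z).1 (e ▸ h1)
    have hm : (C.pts (line z d) ∩ C.pts C.inf).Nonempty := ⟨d.1, mem_inter.2 ⟨h2, d.2⟩⟩
    simp only [dirOf, dif_pos hm]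
    refine Subtype.ext ?_
    exact (hC.meet _ _ hni).unique (mem_inter.1 hm.choose_spec) ⟨h2, d.2⟩
  have hbA : ∀ z : P, b z ∉ C.A := fun z =>
    Finset.disjoint_right.1 hC.disj (hC.bOf_spec z.1).1
  let X : Finset P := (C.X ω).subtype fun z => z ∈ C.good
  have hmemX : ∀ z : P, z ∈ X ↔ z.1 ∈ C.X ω := fun z => Finset.mem_subtype
  have hcolA : ∀ z : P, col (a z) = ω.1 (C.v1 z.1) := fun z => by
    simp only [col, a, if_pos (hC.aOf_spec z.1).1, Cfg.colA, Cfg.v1]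
  have hJ : Joins line a b col X := by
    refine ⟨fun z _ z' _ hzz => ?_, fun z _ z' _ d hd hza => ?_, fun z _ z' _ d hd hzb => ?_,
      fun z _ z' _ hab => hbA z' (hab ▸ (hC.aOf_spec z.1).1), fun z hz => ?_⟩
    · have hzz' : z.1 ≠ z'.1 := fun e => hzz (Subtype.ext e)
      obtain ⟨h1, h2⟩ := hC.join_spec hzz'
      have hni : C.joinLn z.1 z'.1 ≠ C.inf := fun e => (hgood z).1 (e ▸ h1)
      obtain ⟨d, ⟨hd1, hd2⟩, -⟩ := hC.meet _ _ hni
      exact ⟨⟨d, hd2⟩, (hC.join_eq (hne z ⟨d, hd2⟩) h1 hd1).trans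
        (hC.join_eq (hne z' ⟨d, hd2⟩) h2 hd1).symm⟩
    · have hz' : z'.1 ∈ C.pts (a z) := by rw [← hza, hd]; exact (hC.join_spec (hne z' d)).1
      exact eq_of_deg_one (hgood z').2.1 (hC.aOf_spec z'.1).1 (hC.aOf_spec z'.1).2
        (hC.aOf_spec z.1).1 hz'
    · have hz' : z'.1 ∈ C.pts (b z) := by rw [← hzb, hd]; exact (hC.join_spec (hne z' d)).1
      exact eq_of_deg_one (hgood z').2.2 (hC.bOf_spec z'.1).1 (hC.bOf_spec z'.1).2
        (hC.bOf_spec z.1).1 hz'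
    · rw [hcolA, (mem_filter.1 ((hmemX z).1 hz)).2]
      simp only [col, b, if_neg (hbA z), Cfg.colB, Cfg.v2]
  obtain ⟨z₀, hz₀⟩ := hX
  obtain ⟨V, hV, part, H, hH, hpart, hint, hbig⟩ :=
    exists_hypergraph (u := fun l => (ω.2 l).1) (w := fun l => (ω.2 l).2) (dirOf := dirOf)
      (line := line) (a := a) (b := b) (col := col) (X := X)
      ⟨⟨z₀, (mem_filter.1 hz₀).1⟩, (hmemX _).2 hz₀⟩ hline hJ (fun K hK => by
        by_contra hno
        push Not at hno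
        refine absurd (hcov K fun z hz => ?_) (by omega)
        obtain ⟨i, hi⟩ := hno ⟨z, (mem_filter.1 hz).1⟩ ((hmemX _).2 hz)
        refine ⟨_, hi, ?_⟩
        set z' : P := ⟨z, (mem_filter.1 hz).1⟩ with hz'
        rcases i with d | j
        · obtain ⟨hzl, -⟩ := hC.join_spec (hne z' d)
          simp only [vtx]
          split_ifs with h1 h2
          · exact Or.inl ⟨(hC.aOf_spec z).1, rfl, rfl⟩
          · exact Or.inr ⟨(hC.bOf_spec z).1, rfl, rfl⟩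
          · refine ⟨mem_filter.2 ⟨mem_univ _, fun hA => h1 ?_, fun hB => h2 ?_, fun e => ?_⟩, hzl⟩
            · exact eq_of_deg_one (hgood z').2.1 hA hzl (hC.aOf_spec z).1 (hC.aOf_spec z).2
            · exact eq_of_deg_one (hgood z').2.2 hB hzl (hC.bOf_spec z).1 (hC.bOf_spec z).2
            · exact (hgood z').1 (e ▸ hzl)
        · simp only [vtx, hcolA]
          exact ⟨rfl, rfl, rfl⟩)
  have hr : Fintype.card D + h = C.q + 1 + h := by rw [hD]
  let e := Fintype.equivFin V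
  refine ⟨Fintype.card V, fun v => finCongr hr (part (e.symm v)),
    H.image fun s => s.map e.toEmbedding,
    hH.image _, fun s hs i => ?_, fun s hs s' hs' => ?_, fun T hT => ?_⟩
  · obtain ⟨s₀, hs₀, rfl⟩ := mem_image.1 hs
    obtain ⟨v, ⟨hv, hvi⟩, huniq⟩ := hpart s₀ hs₀ ((finCongr hr).symm i)
    refine ⟨e v, ⟨mem_map_of_mem _ hv, by simp [hvi]⟩, ?_⟩
    rintro x ⟨hx, hxi⟩
    obtain ⟨y, hy, rfl⟩ := mem_map.1 hx
    simp [huniq y ⟨hy, by simp [← hxi]⟩]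
  · obtain ⟨s₀, hs₀, rfl⟩ := mem_image.1 hs
    obtain ⟨t₀, ht₀, rfl⟩ := mem_image.1 hs'
    obtain ⟨v, hv, hv'⟩ := hint s₀ hs₀ t₀ ht₀
    exact ⟨e v, mem_map_of_mem _ hv, mem_map_of_mem _ hv'⟩
  · have := hbig (T.map e.symm.toEmbedding) fun s hs => by
      obtain ⟨v, hv, hvs⟩ := hT _ (mem_image_of_mem _ hs)
      obtain ⟨y, hy, rfl⟩ := mem_map.1 hvs
      exact ⟨y, mem_map.2 ⟨_, hv, by simp⟩, hy⟩
    rw [Finset.card_map] at this
    omega

end Vale.P045.Baer
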