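import Vale.Agent.P045.Baer.Large

/-!
# P045: no small cover, from the case analysis (PROOF16, end of section 4)
-/

namespace Vale.P045.Baer

open Finset

variable {C : Cfg} {h : ℕ} {ω : Omega C h}

/-- If no point is richer than `K`, crossings on edges are at most `K` times the excess. -/
theorem sum_mul_le (U : Finset C.Ln) (K : ℕ) (hK : ∀ z, C.f U z ≤ K) :
    (∑ z ∈ C.X ω, C.f U z * (C.f U z - 1)) ≤ K * C.Ov ω U := by
  rw [Cfg.Ov, Finset.mul_sum]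
  exact Finset.sum_le_sum fun z _ => Nat.mul_le_mul_right _ (hK z)

section Arith

variable {p L T u F Ov : ℝ}

theorem ar_T5 (hp : 1000000 ≤ p) (hL : 2000 ≤ L) (hT0 : 0 ≤ T) (hT : T ≤ 10 ^ 8 * L + 1) :
    T ^ 5 ≤ (2 * 10 ^ 8) ^ 5 * L ^ 5 := by
  rw [← mul_pow]
  exact pow_le_pow_left₀ hT0 (by linarith) 5

theorem ar_Tsmall (hp : 1000000 ≤ p) (hL : 2000 ≤ L)
    (hT : T ^ 5 ≤ (2 * 10 ^ 8) ^ 5 * L ^ 5)
    (hb : 2000 * (2 * 10 ^ 8) ^ 5 * 1000 * L ^ 6 ≤ p) :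
    T ^ 5 * L * 2000000 ≤ p ∧ T ^ 5 ≤ p := by
  have h1 : T ^ 5 * L ≤ (2 * 10 ^ 8) ^ 5 * L ^ 6 := by
    calc T ^ 5 * L ≤ ((2 * 10 ^ 8) ^ 5 * L ^ 5) * L :=
          mul_le_mul_of_nonneg_right hT (by linarith)
      _ = (2 * 10 ^ 8) ^ 5 * L ^ 6 := by ring
  refine ⟨by linarith, ?_⟩
  by_contra h2
  have h3 : p * L ≤ T ^ 5 * L := mul_le_mul_of_nonneg_right (not_le.mp h2).le (by linarith)
  have h4 : p * 1 ≤ p * L := mul_le_mul_of_nonneg_left (by linarith) (by linarith)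
  linarith

theorem ar_FT (hL : 2000 ≤ L) (hT : T ^ 5 ≤ (2 * 10 ^ 8) ^ 5 * L ^ 5) (hF0 : 0 ≤ F)
    (hF : F * L ^ 20 ≤ p ^ 2) : F * T ^ 5 * 1000 ≤ p ^ 2 ∧ F * 1000 ≤ p ^ 2 := by
  have h15 : (2 * 10 ^ 8 : ℝ) ^ 5 * 1000 ≤ L ^ 15 :=
    le_trans (by norm_num) (pow_le_pow_left₀ (by norm_num) hL 15)
  have hbig : T ^ 5 * 1000 ≤ L ^ 20 := by
    calc T ^ 5 * 1000 ≤ ((2 * 10 ^ 8) ^ 5 * 1000) * L ^ 5 := by linarith
      _ ≤ L ^ 15 * L ^ 5 := mul_le_mul_of_nonneg_right h15 (by positivity)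
      _ = L ^ 20 := by ring
  have hk : (1000 : ℝ) ≤ L ^ 20 := le_trans (by norm_num) (pow_le_pow_left₀ (by norm_num) hL 20)
  have h1 := mul_le_mul_of_nonneg_left hbig hF0
  have h2 := mul_le_mul_of_nonneg_left hk hF0
  exact ⟨by linarith, by linarith⟩

theorem ar_richLB (hp : 1000000 ≤ p) (hu : 0.99 * p ^ 2 ≤ u) (hOv0 : 0 ≤ Ov)
    (hT : T ^ 5 * L * 2000000 ≤ p) (hgrid : 97 / 100 * u ^ 2 / 128 ≤ F * Ov)
    (hFT : F ≤ T ^ 5) (hT0 : 0 ≤ T) (hov : Ov ≤ 3 * p ^ 2 * p * L) : False := by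
  have hp3 : 0 ≤ p ^ 3 := by positivity
  have h1 : F * Ov ≤ T ^ 5 * (3 * p ^ 2 * p * L) :=
    mul_le_mul hFT hov hOv0 (pow_nonneg hT0 5)
  have h2 : T ^ 5 * L * 2000000 * p ^ 3 ≤ p * p ^ 3 := mul_le_mul_of_nonneg_right hT hp3
  have h3 : (0.99 * p ^ 2) ^ 2 ≤ u ^ 2 := pow_le_pow_left₀ (by positivity) hu 2
  have h4 : 0 < p ^ 4 := by positivity
  linarith

theorem ar_Fp (hp : 1000000 ≤ p) (hL : 2000 ≤ L) (hF0 : 0 ≤ F) (huF : 0.98 * p ^ 2 ≤ u - F)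
    (hpen : 97 / 100 * (u - F) * F / 128 ≤ Ov) (hov : Ov ≤ 3 * p ^ 2 * p * L) :
    F ≤ p * L ^ 2 := by
  have h1 := mul_le_mul_of_nonneg_right huF hF0
  have hp2 : 0 < p ^ 2 := by positivity
  have h2 : F * 0.95 ≤ 384 * p * L := by
    refine le_of_mul_le_mul_left ?_ hp2
    have : 0 ≤ p ^ 2 * F := by positivity
    linarith
  have h3 : 2000 * (p * L) ≤ L * (p * L) := mul_le_mul_of_nonneg_right hL (by nlinarith)
  linarith

theorem ar_lower (hp : 1000000 ≤ p) (hu : 0.99 * p ^ 2 ≤ u) (huF : 0.98 * p ^ 2 ≤ u - F)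
    (hOv0 : 0 ≤ Ov) (hgrid : 97 / 100 * u ^ 2 / 128 ≤ F * Ov)
    (hpen : 97 / 100 * (u - F) * F / 128 ≤ Ov) :
    (0.94 : ℝ) * p ^ 3 / 128 ≤ Ov := by
  have hp0 : 0 ≤ p := by linarith
  have hp2 : 0 ≤ p ^ 2 := sq_nonneg p
  have hp3 : 0 ≤ p ^ 3 := by positivity
  have hu0 : 0 ≤ u := le_trans (by positivity) hu
  have hss : Real.sqrt u * Real.sqrt u = u := Real.mul_self_sqrt hu0
  have hsp : 0.99 * p ≤ Real.sqrt u := by
    rw [Real.le_sqrt (by positivity) hu0]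
    linarith
  have hs1 : 0 < Real.sqrt u := lt_of_lt_of_le (by linarith) hsp
  rcases le_total F (Real.sqrt u) with hcase | hcase
  · have h1 : F * Ov ≤ Real.sqrt u * Ov := mul_le_mul_of_nonneg_right hcase hOv0
    have h2 : 97 / 100 * u * Real.sqrt u / 128 ≤ Ov := by
      refine le_of_mul_le_mul_left ?_ hs1
      calc Real.sqrt u * (97 / 100 * u * Real.sqrt u / 128)
          = 97 / 100 * u * (Real.sqrt u * Real.sqrt u) / 128 := by ring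
        _ = 97 / 100 * u ^ 2 / 128 := by rw [hss]; ring
        _ ≤ Real.sqrt u * Ov := hgrid.trans h1
    have h3 := mul_le_mul hu hsp (by positivity) hu0
    linarith
  · have h1 : 0.98 * p ^ 2 * (0.99 * p) ≤ (u - F) * F :=
      mul_le_mul huF (hsp.trans hcase) (by positivity) (le_trans (by positivity) huF)
    linarith

theorem ar_upper {hn : ℝ} (hp : 1000000 ≤ p) (hh : 2 * hn ≤ p) {D : ℝ}
    (hD : D ≤ p ^ 2 * p / 100000)
    (hov : Ov ≤ hn * (p ^ 2 / 128) + D + p ^ 2 * Real.sqrt p) :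
    Ov ≤ p ^ 3 * (1 / 256 + 1 / 100000 + 1 / 1000) := by
  have hp0 : 0 ≤ p := by linarith
  have h3 : 2 * hn * p ^ 2 ≤ p * p ^ 2 := mul_le_mul_of_nonneg_right hh (sq_nonneg p)
  have h5 : (1000 : ℝ) ≤ Real.sqrt p := by
    rw [Real.le_sqrt' (by norm_num)]; linarith
  have h6 : Real.sqrt p * Real.sqrt p = p := Real.mul_self_sqrt hp0
  have h7 : Real.sqrt p * 1000 ≤ p := by
    calc Real.sqrt p * 1000 ≤ Real.sqrt p * Real.sqrt p :=
          mul_le_mul_of_nonneg_left h5 (Real.sqrt_nonneg p)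
      _ = p := h6
  have h8 := mul_le_mul_of_nonneg_left h7 (sq_nonneg p)
  linarith

end Arith

theorem noCover (hP : PencilStmt) (hG : GridStmt) (hC : CountStmt) (hA : CasePStmt)
    (hL : LowStmt) (hS : SpecStmt) : NoCoverStmt := by
  obtain ⟨P1, hP⟩ := hP
  obtain ⟨P2, hG⟩ := hG
  obtain ⟨P3, hC⟩ := hC
  obtain ⟨P4, hA⟩ := hA
  obtain ⟨P5, hL⟩ := hL
  obtain ⟨P6, hS⟩ := hS
  obtain ⟨P7, hlg⟩ := lg_ge 2000
  obtain ⟨P8, hpow⟩ := lg_pow_le (2000 * (2 * 10 ^ 8) ^ 5 * 1000) 6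
  obtain ⟨P9, hpow2⟩ := lg_pow_le 200 2
  refine ⟨P1 + P2 + P3 + P4 + P5 + P6 + P7 + P8 + P9 + 1000000, ?_⟩
  intro C h hh hne hset hp ω hEv K hK
  by_contra hsmall
  have hKc : K.card ≤ C.q + h := by omega
  have hUo : C.linesOf K ⊆ C.ordinary := by
    intro l hl
    simp only [Cfg.linesOf, Finset.mem_filter] at hl
    exact hl.1
  obtain ⟨hlow, hupp, hov, hovc⟩ := hC C h hset (by omega) ω hEv K hK hKc
  have hrich := hA C h hset (by omega) ω hEv K hK hKc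
  generalize C.linesOf K = U at hUo hlow hupp hov hovc hrich
  obtain ⟨z0, -, hmax⟩ := Finset.exists_max_image (univ : Finset C.Pt) (fun z => C.f U z)
    Finset.univ_nonempty
  have hmax' : ∀ z, C.f U z ≤ C.f U z0 := fun z => hmax z (mem_univ _)
  have hp6 : (1000000 : ℝ) ≤ (C.p : ℝ) := by
    have : (1000000 : ℕ) ≤ C.p := by omega
    exact_mod_cast this
  have hlgb : (2000 : ℝ) ≤ C.lg := hlg C (by omega)
  have hb := hpow C (by omega)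
  have hb2 := hpow2 C (by omega)
  have hq : (C.q : ℝ) = (C.p : ℝ) ^ 2 := C.q_cast
  have hs : Real.sqrt (C.q : ℝ) = (C.p : ℝ) := C.sqrt_q
  have hhR : 2 * (h : ℝ) ≤ (C.p : ℝ) := by exact_mod_cast hset.h_upper
  rw [hs] at hlow hovc
  rw [hq] at hlow hov hovc
  have hT0 : (0 : ℝ) ≤ (C.tg : ℝ) := Nat.cast_nonneg _
  have hT : (C.tg : ℝ) ^ 5 ≤ (2 * 10 ^ 8) ^ 5 * C.lg ^ 5 := by
    refine ar_T5 hp6 hlgb hT0 (le_of_lt ?_)
    exact Nat.ceil_lt_add_one (mul_nonneg (by norm_num) (by linarith))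
  obtain ⟨hTL, hTp⟩ := ar_Tsmall hp6 hlgb hT hb
  have hF20 : (C.f U z0 : ℝ) * C.lg ^ 20 ≤ (C.p : ℝ) ^ 2 := by
    have := hrich z0
    rw [lt_div_iff₀ (pow_pos (by linarith) 20), hq] at this
    exact this.le
  obtain ⟨hFT, hFsmall⟩ := ar_FT hlgb hT (Nat.cast_nonneg _) hF20
  have hpp : (C.p : ℝ) * 1000000 ≤ (C.p : ℝ) ^ 2 := by
    rw [sq]; exact mul_le_mul_of_nonneg_left hp6 (Nat.cast_nonneg _)
  have hu : 0.99 * (C.p : ℝ) ^ 2 ≤ (U.card : ℝ) := by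
    have := mul_le_mul_of_nonneg_left hb2 (Nat.cast_nonneg C.p : (0:ℝ) ≤ (C.p : ℝ))
    linarith
  have hupp' : (U.card : ℝ) ≤ (C.q : ℝ) + (h : ℝ) := by exact_mod_cast hupp
  rw [hq] at hupp'
  have hTu : C.tg ^ 5 ≤ U.card := by
    have : (C.tg : ℝ) ^ 5 ≤ (U.card : ℝ) := by linarith
    exact_mod_cast this
  have hgrid : (97 / 100 : ℝ) * (U.card : ℝ) ^ 2 / 128 ≤ (C.f U z0 : ℝ) * (C.Ov ω U : ℝ) := by
    refine (hG C h hset (by omega) ω hEv U hUo hTu ?_).trans ?_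
    · intro z
      have h2 : (C.f U z : ℝ) * (C.tg : ℝ) ^ 5 ≤ (C.f U z0 : ℝ) * (C.tg : ℝ) ^ 5 :=
        mul_le_mul_of_nonneg_right (by exact_mod_cast hmax' z) (pow_nonneg hT0 5)
      have h3 : (C.f U z : ℝ) * (C.tg : ℝ) ^ 5 ≤ (U.card : ℝ) := by
        have h4 : 0 ≤ (C.f U z0 : ℝ) * (C.tg : ℝ) ^ 5 :=
          mul_nonneg (Nat.cast_nonneg _) (pow_nonneg hT0 5)
        linarith
      exact_mod_cast h3
    · exact_mod_cast sum_mul_le U (C.f U z0) hmax'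
  have hOv0 : (0 : ℝ) ≤ (C.Ov ω U : ℝ) := Nat.cast_nonneg _
  have hF5 : C.tg ^ 5 ≤ C.f U z0 := by
    by_contra hlt
    refine ar_richLB hp6 hu hOv0 hTL hgrid ?_ hT0 hovc
    exact_mod_cast (Nat.le_of_lt (Nat.not_le.mp hlt))
  have hsub : C.linesIn U z0 ⊆ U := Finset.filter_subset _ _
  have hc : ((U \ C.linesIn U z0).card : ℝ) = (U.card : ℝ) - (C.f U z0 : ℝ) := by
    rw [Finset.card_sdiff_of_subset hsub, Nat.cast_sub (Finset.card_le_card hsub)]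
    rfl
  have hpen : (97 / 100 : ℝ) * ((U.card : ℝ) - (C.f U z0 : ℝ)) * (C.f U z0 : ℝ) / 128
      ≤ (C.Ov ω U : ℝ) := by
    rw [← hc]
    refine hP C h hset (by omega) ω hEv U (C.linesIn U z0) (U \ C.linesIn U z0) hUo hsub
      Finset.sdiff_subset Finset.disjoint_sdiff z0 (fun m hm => (Finset.mem_filter.mp hm).2)
      (fun l hl hz => (Finset.mem_sdiff.mp hl).2
        (Finset.mem_filter.mpr ⟨(Finset.mem_sdiff.mp hl).1, hz⟩)) hF5 ?_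
    intro m _ w _
    have h2 : C.f (U \ C.linesIn U z0) w ≤ C.f U z0 :=
      le_trans (Finset.card_le_card (Finset.filter_subset_filter _ Finset.sdiff_subset)) (hmax' w)
    refine le_trans (Nat.mul_le_mul_right _ h2) ?_
    have h3 : (C.f U z0 : ℝ) * (C.tg : ℝ) ^ 5 ≤ ((U \ C.linesIn U z0).card : ℝ) := by
      have h4 : 0 ≤ (C.f U z0 : ℝ) * (C.tg : ℝ) ^ 5 :=
        mul_nonneg (Nat.cast_nonneg _) (pow_nonneg hT0 5)
      linarith
    exact_mod_cast h3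
  have huF : 0.98 * (C.p : ℝ) ^ 2 ≤ (U.card : ℝ) - (C.f U z0 : ℝ) := by linarith
  have hFp := ar_Fp hp6 hlgb (Nat.cast_nonneg _) huF hpen hovc
  have hqu : C.q ≤ 2 * U.card := by
    have : (C.q : ℝ) ≤ 2 * (U.card : ℝ) := by rw [hq]; linarith
    exact_mod_cast this
  have huq : U.card ≤ 2 * C.q := by
    have : (U.card : ℝ) ≤ 2 * (C.q : ℝ) := by rw [hq]; linarith
    exact_mod_cast this
  have hlp := hL C h hset (by omega) ω hEv U hUo hqu huq (by rw [hs, hq]; exact hovc)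
  have hD := hS C h hset (by omega) ω hEv U hUo (by rw [hs, hq]; exact hlow) hupp (fun z => by
      rw [hs]
      exact le_trans (by exact_mod_cast hmax' z) hFp) hlp
  rw [hs, hq] at hD
  rw [Cfg.nn, hq] at hov
  have hup := ar_upper hp6 hhR hD hov
  have hlo := ar_lower hp6 hu huF hOv0 hgrid hpen
  have : 0 < (C.p : ℝ) ^ 3 := pow_pos (by linarith) 3
  linarith

end Vale.P045.Baer
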