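import Vale.Agent.P045.Baer.Pins
import Vale.Agent.P045.Baer.Pencil.Count

/-!
# P045: crossings of a pencil and of a line set without rich point

`EvGrid` averaged over random tuples: a random pair of tuples is a clean grid with high
probability, since a crossing on one of at most four lines of `A ∪ B` is unlikely.
-/

namespace Vale.P045.Baer

open Finset Function

namespace Pencil

variable {C : Cfg}

lemma meetPt_mem [Nonempty C.Pt] (hV : C.Valid) {l m : C.Ln} (h : l ≠ m) :
    C.meetPt l m ∈ C.pts l ∧ C.meetPt l m ∈ C.pts m := by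
  obtain ⟨z, ⟨hz, hz'⟩, -⟩ := hV.meet l m h
  have hne : (C.pts l ∩ C.pts m).Nonempty := ⟨z, mem_inter.2 ⟨hz, hz'⟩⟩
  rw [Cfg.meetPt, dif_pos hne]
  exact mem_inter.1 hne.choose_spec

lemma meetPt_eq [Nonempty C.Pt] (hV : C.Valid) {l m : C.Ln} (h : l ≠ m) {z : C.Pt}
    (hl : z ∈ C.pts l) (hm : z ∈ C.pts m) : C.meetPt l m = z :=
  (hV.meet l m h).unique (meetPt_mem hV h) ⟨hl, hm⟩

lemma line_eq (hV : C.Valid) {l m : C.Ln} {z w : C.Pt} (h : z ≠ w) (hz : z ∈ C.pts l)
    (hw : w ∈ C.pts l) (hz' : z ∈ C.pts m) (hw' : w ∈ C.pts m) : l = m :=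
  (hV.join z w h).unique ⟨hz, hw⟩ ⟨hz', hw'⟩

lemma ordinary_ne {l g : C.Ln} (hl : l ∈ C.ordinary) (hg : g ∈ C.A ∪ C.B) : l ≠ g := by
  rintro rfl
  simp only [Cfg.ordinary, mem_filter, mem_union] at hl hg
  tauto

/-- An ordinary line has at most three points that are not good. -/
lemma bad_card (hV : C.Valid) (hf : Facts C) {l : C.Ln} (hl : l ∈ C.ordinary) :
    (C.pts l \ C.good).card ≤ 3 := by
  have h1 := hf.good_line l hl
  have h2 := card_sdiff_add_card_inter (C.pts l) C.good
  rw [hV.card_pts] at h2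
  omega

lemma tg_large (C : Cfg) (hp : 3 ≤ C.p) : 10 ^ 8 ≤ C.tg := by
  have h9 : 9 ≤ C.q := by
    have := Nat.pow_le_pow_left hp 2
    simpa [Cfg.q] using this
  have hlg : 1 ≤ C.lg := by
    rw [Cfg.lg, Real.le_log_iff_exp_le (by exact_mod_cast (by omega : 0 < C.q))]
    have : (9 : ℝ) ≤ C.q := by exact_mod_cast h9
    linarith [Real.exp_one_lt_d9]
  have h : ((10 ^ 8 : ℕ) : ℝ) ≤ C.tg := by
    have h1 := Nat.le_ceil ((10 : ℝ) ^ 8 * C.lg)
    change ((10 ^ 8 : ℕ) : ℝ) ≤ (⌈(10 : ℝ) ^ 8 * C.lg⌉₊ : ℝ)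
    push_cast at h1 ⊢
    linarith
  exact_mod_cast h

/-- A crossing of `l` and `m`. -/
def Cross [Nonempty C.Pt] (S : Finset C.Pt) (l m : C.Ln) : Prop := l ≠ m ∧ C.meetPt l m ∈ S

open Classical in
/-- **Core.** If crossings avoid bad points and lines of `A ∪ B` in both directions, the pairs
crossing in `X` are as many as `EvGrid` predicts. -/
theorem core [Nonempty C.Pt] {h : ℕ} (ω : Omega C h) (hg : C.EvGrid ω) (hf : Facts C)
    (O F : Finset C.Ln) (ht : 10 ^ 8 ≤ C.tg)
    (hbad : ∀ l ∈ O, (F.filter fun m => ¬ Cross C.good l m).card * C.tg ^ 5 ≤ 4 * F.card)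
    (hF : ∀ l ∈ O, ∀ g ∈ C.A ∪ C.B,
      (F.filter fun m => Cross (C.pts g) l m).card * C.tg ^ 5 ≤ F.card)
    (hO : ∀ m ∈ F, ∀ g ∈ C.A ∪ C.B,
      (O.filter fun l => Cross (C.pts g) l m).card * C.tg ^ 5 ≤ O.card) :
    (97 / 100 : ℝ) * O.card * F.card / 128 ≤
      (((O ×ˢ F).filter fun p => Cross (C.X ω) p.1 p.2).card : ℝ) := by
  set t := C.tg with htd
  have ht0 : 0 < t := by omega
  rcases O.eq_empty_or_nonempty with rfl | hO0
  · simp
  rcases F.eq_empty_or_nonempty with rfl | hF0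
  · simp
  set T := (Fin t → ↥O) × (Fin t → ↥F) with hT
  set cr : T → Fin t × Fin t → C.Pt := fun z x => C.meetPt (z.1 x.1 : C.Ln) (z.2 x.2 : C.Ln) with hcr
  set crd : C.Pt → Finset C.Var := fun w => {C.v1 w, C.v2 w} with hcrd
  set B1 : Fin t × Fin t → Finset T := fun x =>
    univ.filter fun z => ¬ Cross C.good (z.1 x.1 : C.Ln) (z.2 x.2) with hB1
  set B2 : (Fin t × Fin t) × (Fin t × Fin t) → Finset T := fun y =>
    univ.filter fun z => y.1 ≠ y.2 ∧ Cross C.good (z.1 y.1.1 : C.Ln) (z.2 y.1.2) ∧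
      Cross C.good (z.1 y.2.1 : C.Ln) (z.2 y.2.2) ∧ ¬ Disjoint (crd (cr z y.1)) (crd (cr z y.2)) with hB2
  set Bad := univ.biUnion B1 ∪ univ.biUnion B2 with hBad
  have hcardT : Fintype.card T = Fintype.card (Fin t → ↥O) * Fintype.card (Fin t → ↥F) :=
    Fintype.card_prod _ _
  have hcardO : Fintype.card ↥O = O.card := Fintype.card_coe O
  have hcardF : Fintype.card ↥F = F.card := Fintype.card_coe F
  -- resampling a coordinate of the second tuple
  have resF : ∀ (P : T → Prop) [DecidablePred P] (j : Fin t) (c : ℕ),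
      (∀ L M, (univ.filter fun x => P (L, update M j x)).card * t ^ 5 ≤ c * F.card) →
      (univ.filter P).card * t ^ 5 ≤ c * Fintype.card T := by
    intro P _ j c hc
    have hfib : (univ.filter P).card =
        ∑ L : Fin t → ↥O, (univ.filter fun M => P (L, M)).card := by
      simp only [card_filter]
      rw [Fintype.sum_prod_type]
    rw [hfib, sum_mul, hcardT]
    calc ∑ L : Fin t → ↥O, (univ.filter fun M => P (L, M)).card * t ^ 5
        ≤ ∑ _L : Fin t → ↥O, c * Fintype.card (Fin t → ↥F) := by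
          refine sum_le_sum fun L _ => ?_
          have h1 := card_mul_le (fun M => P (L, M)) j (c * F.card / t ^ 5) fun M =>
            (Nat.le_div_iff_mul_le (by positivity)).2 (hc L M)
          rw [hcardF] at h1
          refine Nat.le_of_mul_le_mul_right ?_ hF0.card_pos
          calc (univ.filter fun M => P (L, M)).card * t ^ 5 * F.card
              = (univ.filter fun M => P (L, M)).card * F.card * t ^ 5 := by ring
            _ ≤ c * F.card / t ^ 5 * Fintype.card (Fin t → ↥F) * t ^ 5 :=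
                Nat.mul_le_mul_right _ h1
            _ = c * F.card / t ^ 5 * t ^ 5 * Fintype.card (Fin t → ↥F) := by ring
            _ ≤ c * F.card * Fintype.card (Fin t → ↥F) :=
                Nat.mul_le_mul_right _ (Nat.div_mul_le_self _ _)
            _ = _ := by ring
      _ = _ := by simp; ring
  -- resampling a coordinate of the first tuple
  have resO : ∀ (P : T → Prop) [DecidablePred P] (i : Fin t) (c : ℕ),
      (∀ L M, (univ.filter fun x => P (update L i x, M)).card * t ^ 5 ≤ c * O.card) →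
      (univ.filter P).card * t ^ 5 ≤ c * Fintype.card T := by
    intro P _ i c hc
    have hfib : (univ.filter P).card =
        ∑ M : Fin t → ↥F, (univ.filter fun L => P (L, M)).card := by
      simp only [card_filter]
      rw [Fintype.sum_prod_type, sum_comm]
    rw [hfib, sum_mul, hcardT]
    calc ∑ M : Fin t → ↥F, (univ.filter fun L => P (L, M)).card * t ^ 5
        ≤ ∑ _M : Fin t → ↥F, c * Fintype.card (Fin t → ↥O) := by
          refine sum_le_sum fun M _ => ?_
          have h1 := card_mul_le (fun L => P (L, M)) i (c * O.card / t ^ 5) fun L =>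
            (Nat.le_div_iff_mul_le (by positivity)).2 (hc L M)
          rw [hcardO] at h1
          refine Nat.le_of_mul_le_mul_right ?_ hO0.card_pos
          calc (univ.filter fun L => P (L, M)).card * t ^ 5 * O.card
              = (univ.filter fun L => P (L, M)).card * O.card * t ^ 5 := by ring
            _ ≤ c * O.card / t ^ 5 * Fintype.card (Fin t → ↥O) * t ^ 5 :=
                Nat.mul_le_mul_right _ h1
            _ = c * O.card / t ^ 5 * t ^ 5 * Fintype.card (Fin t → ↥O) := by ring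
            _ ≤ c * O.card * Fintype.card (Fin t → ↥O) :=
                Nat.mul_le_mul_right _ (Nat.div_mul_le_self _ _)
            _ = _ := by ring
      _ = _ := by simp; ring
  have sub_card : ∀ (S : Finset C.Ln) (P : C.Ln → Prop) [DecidablePred P],
      (univ.filter fun x : ↥S => P x).card ≤ (S.filter P).card := fun S P _ =>
    card_le_card_of_injOn Subtype.val
      (fun x hx => mem_filter.2 ⟨x.2, (mem_filter.1 hx).2⟩) Subtype.val_injective.injOn
  have b1 : ∀ x, (B1 x).card * t ^ 5 ≤ 4 * Fintype.card T := fun x => by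
    refine resF _ x.2 4 fun L M => ?_
    refine le_trans (Nat.mul_le_mul_right _ ?_) (hbad _ (L x.1).2)
    simpa only [update_self] using sub_card F (fun m => ¬ Cross C.good (L x.1 : C.Ln) m)
  -- four lines through which the second crossing must pass
  have four : ∀ w, ∃ G : Finset C.Ln, G ⊆ C.A ∪ C.B ∧ G.card ≤ 4 ∧
      ∀ w' ∈ C.good, ¬ Disjoint (crd w) (crd w') → ∃ g ∈ G, w' ∈ C.pts g := fun w => by
    obtain ⟨g1, g2, h1, h2, hg12⟩ := hf.v_lines (C.v1 w)
    obtain ⟨g3, g4, h3, h4, hg34⟩ := hf.v_lines (C.v2 w)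
    refine ⟨{g1, g2, g3, g4}, ?_, card_le_four, fun w' hw' hd => ?_⟩
    · simp only [insert_subset_iff, singleton_subset_iff]
      exact ⟨h1, h2, h3, h4⟩
    obtain ⟨v, hv, hv'⟩ := not_disjoint_iff.1 hd
    simp only [hcrd, mem_insert, mem_singleton] at hv hv'
    rcases hv with rfl | rfl
    · rcases hg12 w' hw' (hv'.imp Eq.symm Eq.symm) with h | h
      · exact ⟨g1, by simp, h⟩
      · exact ⟨g2, by simp, h⟩
    · rcases hg34 w' hw' (hv'.imp Eq.symm Eq.symm) with h | h
      · exact ⟨g3, by simp, h⟩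
      · exact ⟨g4, by simp, h⟩
  have four_card : ∀ (S : Finset C.Ln) (Q : C.Ln → C.Ln → Prop) (G : Finset C.Ln),
      G ⊆ C.A ∪ C.B → G.card ≤ 4 →
      (∀ g ∈ C.A ∪ C.B, (S.filter (Q g)).card * t ^ 5 ≤ S.card) →
      (S.filter fun m => ∃ g ∈ G, Q g m).card * t ^ 5 ≤ 4 * S.card := fun S Q G hG hG4 hS => by
    have e : (S.filter fun m => ∃ g ∈ G, Q g m) ⊆ G.biUnion fun g => S.filter (Q g) := fun m hm => by
      obtain ⟨hm1, g, hg, hgm⟩ := mem_filter.1 hm
      exact mem_biUnion.2 ⟨g, hg, mem_filter.2 ⟨hm1, hgm⟩⟩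
    calc (S.filter fun m => ∃ g ∈ G, Q g m).card * t ^ 5
        ≤ (∑ g ∈ G, (S.filter (Q g)).card) * t ^ 5 :=
          Nat.mul_le_mul_right _ ((card_le_card e).trans card_biUnion_le)
      _ = ∑ g ∈ G, (S.filter (Q g)).card * t ^ 5 := sum_mul _ _ _
      _ ≤ ∑ _g ∈ G, S.card := sum_le_sum fun g hg => hS g (hG hg)
      _ ≤ _ := by rw [sum_const, smul_eq_mul]; exact Nat.mul_le_mul_right _ hG4
  have b2 : ∀ y, (B2 y).card * t ^ 5 ≤ 4 * Fintype.card T := by
    rintro ⟨⟨i, j⟩, ⟨i', j'⟩⟩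
    by_cases hne : (i, j) = (i', j')
    · have e : B2 ((i, j), (i', j')) = ∅ := by simp [hB2, hne]
      rw [e]; simp
    by_cases hj : j = j'
    · have hi : i ≠ i' := fun hi => hne (by rw [hi, hj])
      refine resO _ i' 4 fun L M => ?_
      obtain ⟨G, hG, hG4, hG'⟩ := four (C.meetPt (L i : C.Ln) (M j : C.Ln))
      refine le_trans (Nat.mul_le_mul_right _ ?_)
        (four_card O (fun g l => Cross (C.pts g) l (M j' : C.Ln)) G hG hG4
          fun g hg => hO _ (M j').2 g hg)
      refine le_trans (card_le_card fun x hx => ?_) (sub_card O _)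
      obtain ⟨-, -, -, ⟨hne', hgood⟩, hd⟩ := mem_filter.1 hx
      simp only [hcr, update_self, update_of_ne hi] at hd hne' hgood
      obtain ⟨g, hg, hgw⟩ := hG' _ hgood hd
      exact mem_filter.2 ⟨mem_univ _, g, hg, hne', hgw⟩
    · refine resF _ j' 4 fun L M => ?_
      obtain ⟨G, hG, hG4, hG'⟩ := four (C.meetPt (L i : C.Ln) (M j : C.Ln))
      refine le_trans (Nat.mul_le_mul_right _ ?_)
        (four_card F (fun g m => Cross (C.pts g) (L i' : C.Ln) m) G hG hG4
          fun g hg => hF _ (L i').2 g hg)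
      refine le_trans (card_le_card fun x hx => ?_) (sub_card F _)
      obtain ⟨-, -, -, ⟨hne', hgood⟩, hd⟩ := mem_filter.1 hx
      simp only [hcr, update_self, update_of_ne hj] at hd hne' hgood
      obtain ⟨g, hg, hgw⟩ := hG' _ hgood hd
      exact mem_filter.2 ⟨mem_univ _, g, hg, hne', hgw⟩
  have hbadN : Bad.card * t ≤ 8 * Fintype.card T := by
    have s1 : (univ.biUnion B1).card * t ^ 5 ≤ t ^ 2 * (4 * Fintype.card T) := by
      refine (Nat.mul_le_mul_right _ card_biUnion_le).trans ?_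
      rw [sum_mul]
      exact (sum_le_sum fun x _ => b1 x).trans_eq (by simp [sq])
    have s2 : (univ.biUnion B2).card * t ^ 5 ≤ t ^ 4 * (4 * Fintype.card T) := by
      refine (Nat.mul_le_mul_right _ card_biUnion_le).trans ?_
      rw [sum_mul]
      exact (sum_le_sum fun y _ => b2 y).trans_eq (by rw [sum_const, smul_eq_mul, card_univ]; simp only [Fintype.card_prod, Fintype.card_fin]; ring)
    refine Nat.le_of_mul_le_mul_right ?_ (pow_pos ht0 4)
    calc Bad.card * t * t ^ 4 = Bad.card * t ^ 5 := by ring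
      _ ≤ ((univ.biUnion B1).card + (univ.biUnion B2).card) * t ^ 5 :=
          Nat.mul_le_mul_right _ (card_union_le _ _)
      _ ≤ t ^ 4 * (4 * Fintype.card T) + t ^ 4 * (4 * Fintype.card T) := by
          rw [add_mul]
          exact add_le_add (s1.trans (Nat.mul_le_mul_right _
            (Nat.pow_le_pow_right ht0 (by norm_num)))) s2
      _ = _ := by ring
  have hclean : ∀ z : T, z ∉ Bad → (99 / 100 : ℝ) * (t : ℝ) ^ 2 / 128 ≤
      ((univ.filter fun x : Fin t × Fin t =>
        Cross (C.X ω) (z.1 x.1 : C.Ln) (z.2 x.2)).card : ℝ) := by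
    intro z hz
    have hgood : ∀ x : Fin t × Fin t, Cross C.good (z.1 x.1 : C.Ln) (z.2 x.2) := fun x => by
      by_contra hx
      exact hz (mem_union_left _ (mem_biUnion.2 ⟨x, mem_univ _, mem_filter.2 ⟨mem_univ _, hx⟩⟩))
    have hdis : ∀ x y : Fin t × Fin t, x ≠ y → Disjoint (crd (cr z x)) (crd (cr z y)) := by
      intro x y hxy
      by_contra hd
      exact hz (mem_union_right _ (mem_biUnion.2 ⟨(x, y), mem_univ _,
        mem_filter.2 ⟨mem_univ _, hxy, hgood x, hgood y, hd⟩⟩))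
    have hinj : Injective (fun x : (Fin t × Fin t) × Bool =>
        if x.2 then C.v1 (cr z x.1) else C.v2 (cr z x.1)) := by
      rintro ⟨x, b⟩ ⟨y, c⟩ e
      simp only at e
      have hxy : x = y := by
        by_contra hxy
        refine not_disjoint_iff.2 ⟨if b then C.v1 (cr z x) else C.v2 (cr z x), ?_, ?_⟩ (hdis x y hxy)
        · cases b <;> simp [hcrd]
        · rw [e]; cases c <;> simp [hcrd]
      subst hxy
      have hv := hf.v_ne _ (hgood x).2
      cases b <;> cases c <;> simp only [if_true, Bool.false_eq_true, if_false] at e <;>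
        first | rfl | exact absurd e hv | exact absurd e.symm hv
    have hE := hg (fun i => (z.1 i : C.Ln)) (fun j => (z.2 j : C.Ln))
      ⟨fun i j => hgood (i, j), hinj⟩
    refine hE.trans (le_of_eq (congrArg Nat.cast ?_))
    refine congrArg card (filter_congr fun x _ => ?_)
    exact ⟨fun h => ⟨(hgood x).1, h⟩, fun h => h.2⟩
  have key := avg (fun (l : ↥O) (m : ↥F) => Cross (C.X ω) (l : C.Ln) m) Bad _ hclean
  have hS : ((univ.filter fun p : ↥O × ↥F => Cross (C.X ω) (p.1 : C.Ln) p.2).card) ≤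
      ((O ×ˢ F).filter fun p => Cross (C.X ω) p.1 p.2).card :=
    card_le_card_of_injOn (fun p => ((p.1 : C.Ln), (p.2 : C.Ln)))
      (fun p hp => mem_filter.2 ⟨mem_product.2 ⟨p.1.2, p.2.2⟩, (mem_filter.1 hp).2⟩)
      (fun p _ q _ e => by
        simp only [Prod.mk.injEq] at e
        exact Prod.ext (Subtype.ext e.1) (Subtype.ext e.2))
  have hS' : ((univ.filter fun p : ↥O × ↥F => Cross (C.X ω) (p.1 : C.Ln) p.2).card : ℝ) ≤
      ((O ×ˢ F).filter fun p => Cross (C.X ω) p.1 p.2).card := Nat.cast_le.2 hS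
  rw [hcardO, hcardF] at key
  have hbR : (Bad.card : ℝ) * t ≤ 8 * Fintype.card T := by exact_mod_cast hbadN
  have htR : (10 : ℝ) ^ 8 ≤ t := by exact_mod_cast ht
  have hTpos : (0 : ℝ) < Fintype.card T := by
    have : Nonempty ↥O := hO0.coe_sort
    have : Nonempty ↥F := hF0.coe_sort
    exact_mod_cast Fintype.card_pos
  have hBsmall : (Bad.card : ℝ) ≤ Fintype.card T / 100 := by
    rw [le_div_iff₀ (by norm_num)]
    nlinarith [Nat.cast_nonneg (α := ℝ) Bad.card]
  refine le_trans ?_ hS'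
  set S := ((univ.filter fun p : ↥O × ↥F => Cross (C.X ω) (p.1 : C.Ln) p.2).card : ℝ)
  have h1 : (97 / 100 : ℝ) * O.card * F.card / 128 * ((t : ℝ) ^ 2 * Fintype.card T) ≤
      S * ((t : ℝ) ^ 2 * Fintype.card T) := by
    refine le_trans (le_trans ?_ key) (le_of_eq (by ring))
    have h2 : (97 / 100 : ℝ) * Fintype.card T ≤
        99 / 100 * ((Fintype.card T : ℝ) - Bad.card) := by linarith
    have h3 := mul_le_mul_of_nonneg_left h2
      (show (0 : ℝ) ≤ (O.card : ℝ) * F.card * (t : ℝ) ^ 2 / 128 by positivity)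
    linarith
  exact le_of_mul_le_mul_right h1 (mul_pos (pow_pos (by linarith) 2) hTpos)

end Pencil

open Pencil in
open Classical in
/-- Crossings of a pencil with other lines of a cover give excess. -/
theorem pencil (hf : FactsStmt) : PencilStmt := by
  refine ⟨3, fun C h _ _ hS hp ω hω U F O hU hFU hOU hdis z0 hz0 hO0 hF5 hrich => ?_⟩
  have hV := hS.valid
  have hfc := hf C hV
  have ht := tg_large C hp
  have ht5 : 0 < C.tg ^ 5 := pow_pos (by omega) 5
  have hne : ∀ l ∈ O, ∀ m ∈ F, l ≠ m := fun l hl m hm e => disjoint_left.1 hdis (e ▸ hm) hl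
  -- at most one line of the pencil at each point other than `z0`
  have huniq : ∀ l ∈ O, ∀ w ∈ C.pts l, ∀ m ∈ F, ∀ m' ∈ F, w ∈ C.pts m → w ∈ C.pts m' → m = m' :=
    fun l hl w hw m hm m' hm' h1 h2 =>
      line_eq hV (fun (e : w = z0) => hO0 l hl (by rw [← e]; exact hw)) h1 (hz0 m hm) h2 (hz0 m' hm')
  have hinj : ∀ l ∈ O, Set.InjOn (C.meetPt l) (F : Set C.Ln) := fun l hl m hm m' hm' e => by
    obtain ⟨a1, a2⟩ := meetPt_mem hV (hne l hl m hm)
    exact huniq l hl _ a1 m hm m' hm' a2 (e ▸ (meetPt_mem hV (hne l hl m' hm')).2)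
  have key := core ω hω.grid hfc O F ht ?_ ?_ ?_
  · refine key.trans (Nat.cast_le.2 ?_)
    rw [card_eq_sum_card_fiberwise (f := fun p : C.Ln × C.Ln => C.meetPt p.1 p.2) (t := C.X ω)
      fun p hp => (mem_filter.1 hp).2.2]
    refine sum_le_sum fun w _ => ?_
    set P := ((O ×ˢ F).filter fun p => Cross (C.X ω) p.1 p.2).filter
      fun p => C.meetPt p.1 p.2 = w
    have hmem : ∀ p ∈ P, p.1 ∈ O ∧ p.2 ∈ F ∧ w ∈ C.pts p.1 ∧ w ∈ C.pts p.2 := fun p hp => by
      obtain ⟨hp', rfl⟩ := mem_filter.1 hp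
      obtain ⟨hp'', hc, -⟩ := mem_filter.1 hp'
      obtain ⟨h1, h2⟩ := mem_product.1 hp''
      exact ⟨h1, h2, meetPt_mem hV hc⟩
    rcases P.eq_empty_or_nonempty with he | ⟨p0, hp0⟩
    · simp [he]
    obtain ⟨ho, hm0, hw, hw0⟩ := hmem p0 hp0
    have h1 : P.card ≤ (C.linesIn O w).card := by
      refine card_le_card_of_injOn Prod.fst (fun p hp => ?_) fun p hp p' hp' e => ?_
      · obtain ⟨a, -, b, -⟩ := hmem p hp
        exact mem_filter.2 ⟨a, b⟩
      · obtain ⟨a, b, c, d⟩ := hmem p hp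
        obtain ⟨-, b', -, d'⟩ := hmem p' hp'
        exact Prod.ext e (huniq p.1 a w c _ b _ b' d d')
    have h2 : insert p0.2 (C.linesIn O w) ⊆ C.linesIn U w := by
      refine insert_subset (mem_filter.2 ⟨hFU hm0, hw0⟩) fun l hl => ?_
      obtain ⟨a, b⟩ := mem_filter.1 hl
      exact mem_filter.2 ⟨hOU a, b⟩
    have h3 := card_le_card h2
    rw [card_insert_of_notMem (show p0.2 ∉ C.linesIn O w from fun hc => disjoint_left.1 hdis hm0 (mem_filter.1 hc).1)] at h3
    show P.card ≤ (C.linesIn U w).card - 1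
    omega
  · intro l hl
    have h1 : (F.filter fun m => ¬ Cross C.good l m).card ≤ (C.pts l \ C.good).card :=
      card_le_card_of_injOn (C.meetPt l)
        (fun m hm => by
          obtain ⟨hm1, hm2⟩ := mem_filter.1 hm
          exact mem_sdiff.2 ⟨(meetPt_mem hV (hne l hl m hm1)).1, fun hg => hm2 ⟨hne l hl m hm1, hg⟩⟩)
        ((hinj l hl).mono (coe_subset.2 (filter_subset _ _)))
    calc (F.filter fun m => ¬ Cross C.good l m).card * C.tg ^ 5 ≤ 3 * C.tg ^ 5 :=
          Nat.mul_le_mul_right _ (h1.trans (bad_card hV hfc (hU (hOU hl))))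
      _ ≤ 4 * F.card := Nat.mul_le_mul (by norm_num) hF5
  · intro l hl g hg
    have h1 : (F.filter fun m => Cross (C.pts g) l m).card ≤ 1 := by
      refine card_le_one.2 fun m hm m' hm' => ?_
      obtain ⟨a, hc, hc'⟩ := mem_filter.1 hm
      obtain ⟨a', hd, hd'⟩ := mem_filter.1 hm'
      have hlg := ordinary_ne (hU (hOU hl)) hg
      refine hinj l hl a a' ?_
      exact ((meetPt_eq hV hlg (meetPt_mem hV hc).1 hc').symm).trans
        (meetPt_eq hV hlg (meetPt_mem hV hd).1 hd')
    exact (Nat.mul_le_mul_right _ h1).trans (by rw [one_mul]; exact hF5)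
  · intro m hm g hg
    have hmg := ordinary_ne (hU (hFU hm)) hg
    refine le_trans (Nat.mul_le_mul_right _ (card_le_card fun l hl => ?_))
      (hrich m hm (C.meetPt m g) (meetPt_mem hV hmg).1)
    obtain ⟨a, hc, hc'⟩ := mem_filter.1 hl
    refine mem_filter.2 ⟨a, ?_⟩
    rw [meetPt_eq hV hmg (meetPt_mem hV hc).2 hc']
    exact (meetPt_mem hV hc).1

open Pencil in
open Classical in
/-- Crossings of a line set without rich point. -/
theorem grid (hf : FactsStmt) : GridStmt := by
  refine ⟨3, fun C h _ _ hS hp ω hω U hU hU5 hrich => ?_⟩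
  have hV := hS.valid
  have hfc := hf C hV
  have ht := tg_large C hp
  have hside : ∀ l ∈ U, ∀ g ∈ C.A ∪ C.B, ∀ S : Finset C.Ln, S ⊆ U →
      (∀ m ∈ S, m ≠ l ∧ ∀ w, w ∈ C.pts m → w ∈ C.pts l → w ∈ C.pts g) →
      S.card * C.tg ^ 5 ≤ U.card := by
    intro l hl g hg S hSU hS
    have hlg := ordinary_ne (hU hl) hg
    refine le_trans (Nat.mul_le_mul_right _ (card_le_card fun m hm => ?_)) (hrich (C.meetPt l g))
    obtain ⟨hne, hw⟩ := hS m hm
    obtain ⟨a, b⟩ := meetPt_mem hV hne.symm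
    refine mem_filter.2 ⟨hSU hm, ?_⟩
    rw [meetPt_eq hV hlg a (hw _ b a)]
    exact b
  have key := core ω hω.grid hfc U U ht ?_ ?_ ?_
  · rw [show (97 / 100 : ℝ) * (U.card : ℝ) ^ 2 / 128 = 97 / 100 * U.card * U.card / 128 by ring]
    refine key.trans (Nat.cast_le.2 ?_)
    rw [card_eq_sum_card_fiberwise (f := fun p : C.Ln × C.Ln => C.meetPt p.1 p.2) (t := C.X ω)
      fun p hp => (mem_filter.1 hp).2.2]
    refine sum_le_sum fun w _ => ?_
    refine le_trans (card_le_card (t := (C.linesIn U w).offDiag) fun p hp => ?_) (le_of_eq ?_)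
    · obtain ⟨hp', rfl⟩ := mem_filter.1 hp
      obtain ⟨hp'', hc, -⟩ := mem_filter.1 hp'
      obtain ⟨h1, h2⟩ := mem_product.1 hp''
      obtain ⟨a, b⟩ := meetPt_mem hV hc
      exact mem_offDiag.2 ⟨mem_filter.2 ⟨h1, a⟩, mem_filter.2 ⟨h2, b⟩, hc⟩
    · show _ = (C.linesIn U w).card * ((C.linesIn U w).card - 1)
      rw [offDiag_card, Nat.mul_sub_one]
  · intro l hl
    have e : (U.filter fun m => ¬ Cross C.good l m) ⊆
        insert l ((C.pts l \ C.good).biUnion fun w => C.linesIn U w) := fun m hm => by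
      obtain ⟨hm1, hm2⟩ := mem_filter.1 hm
      by_cases he : m = l
      · exact he ▸ mem_insert_self _ _
      obtain ⟨a, b⟩ := meetPt_mem hV (Ne.symm he)
      exact mem_insert_of_mem (mem_biUnion.2 ⟨_, mem_sdiff.2 ⟨a, fun hg => hm2 ⟨Ne.symm he, hg⟩⟩,
        mem_filter.2 ⟨hm1, b⟩⟩)
    calc (U.filter fun m => ¬ Cross C.good l m).card * C.tg ^ 5
        ≤ (∑ w ∈ C.pts l \ C.good, C.f U w + 1) * C.tg ^ 5 :=
          Nat.mul_le_mul_right _ ((card_le_card e).trans
            ((card_insert_le _ _).trans (Nat.succ_le_succ card_biUnion_le)))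
      _ ≤ (C.pts l \ C.good).card * U.card + U.card := by
          rw [add_mul, one_mul, sum_mul]
          exact add_le_add ((sum_le_sum fun w _ => hrich w).trans_eq (by simp)) hU5
      _ ≤ _ := by
          have := Nat.mul_le_mul_right U.card (bad_card hV hfc (hU hl))
          omega
  · intro l hl g hg
    refine hside l hl g hg _ (filter_subset _ _) fun m hm => ?_
    obtain ⟨-, hne, hw⟩ := mem_filter.1 hm
    exact ⟨Ne.symm hne, fun w h1 h2 => by rw [← meetPt_eq hV hne h2 h1]; exact hw⟩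
  · intro m hm g hg
    refine hside m hm g hg _ (filter_subset _ _) fun l hl => ?_
    obtain ⟨-, hne, hw⟩ := mem_filter.1 hl
    exact ⟨hne, fun w h1 h2 => by rw [← meetPt_eq hV hne h1 h2]; exact hw⟩

end Vale.P045.Baer
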