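import Vale.Agent.P045.Baer.Events

/-!
# P045: statements of the modules

Each module proves one of these propositions, e.g. `theorem lowStmt : LowStmt := ...`.
-/

namespace Vale.P045.Baer

open Finset

/-- An intersecting `r`-partite `r`-uniform hypergraph with covering number at least `r`. -/
def Counter (r : ℕ) : Prop :=
  ∃ (m : ℕ) (part : Fin m → Fin r) (E : Finset (Finset (Fin m))),
    E.Nonempty ∧
    (∀ e ∈ E, ∀ i : Fin r, ∃! v, v ∈ e ∧ part v = i) ∧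
    (∀ e ∈ E, ∀ e' ∈ E, ∃ v, v ∈ e ∧ v ∈ e') ∧
    (∀ T : Finset (Fin m), (∀ e ∈ E, ∃ v ∈ T, v ∈ e) → r ≤ T.card)

/-- Product inequality for functions in which each coordinate is used at most `k` times. -/
def FinnerStmt : Prop :=
  ∀ (ι κ α : Type) [Fintype ι] [DecidableEq ι] [Fintype κ] [Fintype α] [Nonempty α]
    (g : κ → (ι → α) → ℝ) (S : κ → Finset ι) (k : ℕ),
    0 < k → (∀ e x, 0 ≤ g e x) →
    (∀ e x y, (∀ i ∈ S e, x i = y i) → g e x = g e y) →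
    (∀ i, (univ.filter fun e => i ∈ S e).card ≤ k) →
    (∑ x, ∏ e, g e x) / (Fintype.card (ι → α) : ℝ) ≤
      ∏ e, ((∑ x, g e x ^ k) / (Fintype.card (ι → α) : ℝ)) ^ ((1 : ℝ) / (k : ℝ))

open Classical in
/-- Lower tail, upper tail and large-deviation tail for families with read number `k`. -/
def ChernoffStmt : Prop :=
  ∀ (ι κ α : Type) [Fintype ι] [DecidableEq ι] [Fintype κ] [Fintype α] [Nonempty α]
    (Y : κ → (ι → α) → Prop) (S : κ → Finset ι) (k : ℕ) (μ : κ → ℝ),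
    0 < k →
    (∀ e x y, (∀ i ∈ S e, x i = y i) → (Y e x ↔ Y e y)) →
    (∀ i, (univ.filter fun e => i ∈ S e).card ≤ k) →
    (∀ e, ((univ.filter fun x => Y e x).card : ℝ) = μ e * (Fintype.card (ι → α) : ℝ)) →
    (∀ d : ℝ, 0 < d → d ≤ 1 →
      (((univ.filter fun x =>
          ((univ.filter fun e => Y e x).card : ℝ) ≤ (1 - d) * ∑ e, μ e).card : ℝ)
        ≤ Real.exp (-(d ^ 2 * ∑ e, μ e) / (3 * k)) * (Fintype.card (ι → α) : ℝ)) ∧
      (((univ.filter fun x =>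
          (1 + d) * ∑ e, μ e ≤ ((univ.filter fun e => Y e x).card : ℝ)).card : ℝ)
        ≤ Real.exp (-(d ^ 2 * ∑ e, μ e) / (3 * k)) * (Fintype.card (ι → α) : ℝ))) ∧
    (∀ R : ℝ, 0 < R → 8 * (∑ e, μ e) ≤ R →
      ((univ.filter fun x => R ≤ ((univ.filter fun e => Y e x).card : ℝ)).card : ℝ)
        ≤ Real.exp (-R / (2 * k)) * (Fintype.card (ι → α) : ℝ))

/-- Existence of configurations. -/
def GeoStmt : Prop := ∀ p : ℕ, p.Prime → ∃ C : Cfg, C.p = p ∧ C.Valid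

/-- The parameters of the construction. -/
structure Setting (C : Cfg) (h : ℕ) : Prop where
  valid : C.Valid
  h_prime : h.Prime
  h_lower : C.p < 4 * h
  h_upper : 2 * h ≤ C.p

/-- A property of all large settings. -/
def ForLarge (Q : ∀ (C : Cfg) (h : ℕ) [NeZero h] [Nonempty C.Pt], Prop) : Prop :=
  ∃ P0 : ℕ, ∀ (C : Cfg) (h : ℕ) [NeZero h] [Nonempty C.Pt],
    Setting C h → P0 ≤ C.p → Q C h

/-- Counting facts on configurations. -/
structure Facts (C : Cfg) : Prop where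
  good_line : ∀ l ∈ C.ordinary, C.q + 1 ≤ (C.pts l ∩ C.good).card + 3
  good_baer : ∀ l ∈ C.A ∪ C.B, C.q + 1 ≤ (C.pts l ∩ C.good).card + C.p + 3
  good_card : C.q ^ 2 ≤ C.good.card + 2 * (C.q + C.p + 1)
  aOf_mem : ∀ z, C.aOf z ∈ C.A ∧ z ∈ C.pts (C.aOf z)
  bOf_mem : ∀ z, C.bOf z ∈ C.B ∧ z ∈ C.pts (C.bOf z)
  aOf_unique : ∀ z, C.deg C.A z = 1 → ∀ a ∈ C.A, z ∈ C.pts a → C.aOf z = a
  bOf_unique : ∀ z, C.deg C.B z = 1 → ∀ b ∈ C.B, z ∈ C.pts b → C.bOf z = b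
  pair_inj : ∀ z ∈ C.good, ∀ w ∈ C.good, C.aOf z = C.aOf w → C.bOf z = C.bOf w → z = w
  var_inj : ∀ b ∈ C.B, ∀ b' ∈ C.B, C.var b = C.var b' → b = b'
  v_ne : ∀ z ∈ C.good, C.v1 z ≠ C.v2 z
  v_lines : ∀ v : C.Var, ∃ g g' : C.Ln, g ∈ C.A ∪ C.B ∧ g' ∈ C.A ∪ C.B ∧
    ∀ z ∈ C.good, (C.v1 z = v ∨ C.v2 z = v) → z ∈ C.pts g ∨ z ∈ C.pts g'
  var_inf : ∀ z ∈ C.pts C.inf, C.deg C.A z = 1 → C.deg C.B z = 1 → C.v1 z = C.v2 z

/-- Counting facts hold. -/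
def FactsStmt : Prop := ∀ C : Cfg, C.Valid → Facts C

/-- A cover bound gives a counterexample. -/
def ModelStmt : Prop :=
  ∀ (C : Cfg) (h : ℕ) [NeZero h], C.Valid → h.Prime → ∀ ω : Omega C h,
    (C.X ω).Nonempty →
    (∀ K : Finset (Vx C h), C.IsCover ω K → C.q + 1 + h ≤ K.card) →
    Counter (C.q + 1 + h)

/-- The basic events are likely. -/
def EvBasicStmt : Prop :=
  ForLarge fun C h _ _ =>
    5 * Nat.card {ω : Omega C h // ¬ C.EvBasic ω} ≤ Nat.card (Omega C h)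

/-- The grid event is likely. -/
def EvGridStmt : Prop :=
  ForLarge fun C h _ _ =>
    5 * Nat.card {ω : Omega C h // ¬ C.EvGrid ω} ≤ Nat.card (Omega C h)

/-- The sampling event is likely. -/
def EvSampleStmt : Prop :=
  ForLarge fun C h _ _ =>
    5 * Nat.card {ω : Omega C h // ¬ C.EvSample ω} ≤ Nat.card (Omega C h)

/-- The pair event is likely. -/
def EvPairsStmt : Prop :=
  ForLarge fun C h _ _ =>
    5 * Nat.card {ω : Omega C h // ¬ C.EvPairs ω} ≤ Nat.card (Omega C h)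

/-- Crossings of a pencil with other lines of a cover give excess. -/
def PencilStmt : Prop :=
  ForLarge fun C h _ _ => ∀ ω : Omega C h, C.Ev ω →
    ∀ U F O : Finset C.Ln, U ⊆ C.ordinary → F ⊆ U → O ⊆ U → Disjoint F O →
    ∀ z0 : C.Pt, (∀ m ∈ F, z0 ∈ C.pts m) → (∀ l ∈ O, z0 ∉ C.pts l) →
    C.tg ^ 5 ≤ F.card →
    (∀ m ∈ F, ∀ w ∈ C.pts m, C.f O w * C.tg ^ 5 ≤ O.card) →
    (97 / 100 : ℝ) * (O.card : ℝ) * (F.card : ℝ) / 128 ≤ (C.Ov ω U : ℝ)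

/-- Crossings of a line set without rich point meet the edges as expected. -/
def GridStmt : Prop :=
  ForLarge fun C h _ _ => ∀ ω : Omega C h, C.Ev ω →
    ∀ U : Finset C.Ln, U ⊆ C.ordinary → C.tg ^ 5 ≤ U.card →
    (∀ z, C.f U z * C.tg ^ 5 ≤ U.card) →
    (97 / 100 : ℝ) * (U.card : ℝ) ^ 2 / 128 ≤
      ((∑ z ∈ C.X ω, C.f U z * (C.f U z - 1) : ℕ) : ℝ)

/-- What counting gives for a small cover. -/
structure CountFacts (C : Cfg) {h : ℕ} (ω : Omega C h) (U : Finset C.Ln) : Prop where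
  lower : (C.q : ℝ) ≤ (U.card : ℝ) + Real.sqrt (C.q : ℝ) * C.lg ^ 2
  upper : U.card ≤ C.q + h
  ov : (C.Ov ω U : ℝ) ≤ (h : ℝ) * C.nn + C.Dev ω U + (C.q : ℝ) * Real.sqrt (C.p : ℝ)
  ov_crude : (C.Ov ω U : ℝ) ≤ 3 * (C.q : ℝ) * Real.sqrt (C.q : ℝ) * C.lg

/-- Counting for a small cover. -/
def CountStmt : Prop :=
  ForLarge fun C h _ _ => ∀ ω : Omega C h, C.Ev ω →
    ∀ K : Finset (Vx C h), C.IsCover ω K → K.card ≤ C.q + h →
    CountFacts C ω (C.linesOf K)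

/-- No small cover has a very rich point. -/
def CasePStmt : Prop :=
  ForLarge fun C h _ _ => ∀ ω : Omega C h, C.Ev ω →
    ∀ K : Finset (Vx C h), C.IsCover ω K → K.card ≤ C.q + h →
    ∀ z : C.Pt, (C.f (C.linesOf K) z : ℝ) < (C.q : ℝ) / C.lg ^ 20

open Classical in
/-- Number of ordered pairs of lines of `U` crossing at low points. -/
noncomputable def lowPairs (C : Cfg) (U : Finset C.Ln) : ℕ :=
  ∑ z ∈ univ.filter (fun z : C.Pt => (C.f U z : ℝ) ≤ C.th), C.f U z * (C.f U z - 1)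

/-- Few crossings at low points. -/
def LowStmt : Prop :=
  ForLarge fun C h _ _ => ∀ ω : Omega C h, C.Ev ω →
    ∀ U : Finset C.Ln, U ⊆ C.ordinary → C.q ≤ 2 * U.card → U.card ≤ 2 * C.q →
    (C.Ov ω U : ℝ) ≤ 3 * (C.q : ℝ) * Real.sqrt (C.q : ℝ) * C.lg →
    (lowPairs C U : ℝ) ≤ (U.card : ℝ) ^ 2 / C.lg ^ 6

/-- The total deviation of a structured line set is small. -/
def SpecStmt : Prop :=
  ForLarge fun C h _ _ => ∀ ω : Omega C h, C.Ev ω →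
    ∀ U : Finset C.Ln, U ⊆ C.ordinary →
    (C.q : ℝ) ≤ (U.card : ℝ) + Real.sqrt (C.q : ℝ) * C.lg ^ 2 → U.card ≤ C.q + h →
    (∀ z, (C.f U z : ℝ) ≤ Real.sqrt (C.q : ℝ) * C.lg ^ 2) →
    (lowPairs C U : ℝ) ≤ (U.card : ℝ) ^ 2 / C.lg ^ 6 →
    C.Dev ω U ≤ (C.q : ℝ) * Real.sqrt (C.q : ℝ) / 100000

/-- No small cover at all. -/
def NoCoverStmt : Prop :=
  ForLarge fun C h _ _ => ∀ ω : Omega C h, C.Ev ω →
    ∀ K : Finset (Vx C h), C.IsCover ω K → C.q + 1 + h ≤ K.card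

/-- The main theorem. -/
def MainStmt : Prop := ∀ R : ℕ, ∃ r, R ≤ r ∧ Counter r

end Vale.P045.Baer
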