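import Vale.Agent.P045.Baer.Spec.Mass
import Vale.Agent.P045.Baer.Spec.Terms

/-!
# P045: the spectral step
-/

namespace Vale.P045.Baer

open Finset

namespace Spec

lemma core {C : Cfg} {h : ℕ} [NeZero h] (hV : C.Valid) (hh : h ≤ C.p) (ω : Omega C h)
    (hB : C.EvBasic ω) (hPr : C.EvPairs ω) (U : Finset C.Ln) (hU : U ⊆ C.ordinary)
    (hlow : (C.q : ℝ) ≤ (U.card : ℝ) + Real.sqrt (C.q : ℝ) * C.lg ^ 2) (hup : U.card ≤ C.q + h)
    (hlp : (lowPairs C U : ℝ) ≤ (U.card : ℝ) ^ 2 / C.lg ^ 6)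
    (P : Par (C.p : ℝ) (Real.sqrt (C.p : ℝ)) C.lg) :
    C.Dev ω U ≤ (C.q : ℝ) * Real.sqrt (C.q : ℝ) / 100000 := by
  have hs := P.s_one
  have hL := P.L_pos
  have ha := P.a_one
  have hs0 : (0 : ℝ) ≤ (C.p : ℝ) := Nat.cast_nonneg _
  have hq : (C.q : ℝ) = (C.p : ℝ) ^ 2 := by rw [Cfg.q]; push_cast; rfl
  have hsq : Real.sqrt (C.q : ℝ) = (C.p : ℝ) := by rw [hq, Real.sqrt_sq hs0]
  have hq1 : (1 : ℝ) ≤ (C.q : ℝ) := by rw [hq]; exact one_le_pow₀ hs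
  have hu0 : (0 : ℝ) ≤ (U.card : ℝ) := Nat.cast_nonneg _
  have Z : Size (C.p : ℝ) C.lg (U.card : ℝ) := by
    refine size_mk P (h : ℝ) (by exact_mod_cast hh) ?_ ?_
    · rw [← hq]; exact_mod_cast hup
    · rw [hsq, hq] at hlow; exact hlow
  have hT10 : 0 ≤ ∑ z, trunc C U z := Finset.sum_nonneg fun z _ => trunc_nonneg U z
  have hT1 : ∑ z, trunc C U z ≤ 8 * (C.p : ℝ) ^ 3 * C.lg ^ 20 := by
    refine T1_bound P Z hu0 hT10 ?_
    have := th_mul_mass hV U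
    rwa [Cfg.th, hsq] at this
  have hT2hi := sq_mass_hi hV U
  have hT2' : ∑ z, trunc C U z ^ 2 ≤ 8 * (C.p : ℝ) ^ 4 := by
    have h1 := pow_le_pow_left₀ hu0 Z.hi 2
    have h2 := mul_le_mul_of_nonneg_left (P.s_pow (m := 20) (by norm_num)) (pow_nonneg hs0 3)
    have h3 : (0 : ℝ) ≤ (C.p : ℝ) ^ 3 * C.lg ^ 20 := by positivity
    linarith
  have hT2lo := sq_mass_lo hV U
  have hμ0 : 0 ≤ (∑ z, trunc C U z) / (C.q : ℝ) := div_nonneg hT10 (Nat.cast_nonneg _)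
  have hμ : (∑ z, trunc C U z) / (C.q : ℝ) ≤ 8 * (C.p : ℝ) * C.lg ^ 20 := by
    rw [hq, div_le_iff₀ (by positivity)]; linarith
  have hEle := energy hV U (trunc C U) hq1 _ rfl
  rw [sum_lsum_trunc] at hEle
  have hE0 : 0 ≤ (∑ l ∈ univ \ U, (lsum C (trunc C U) l - (∑ z, trunc C U z) / C.q) ^ 2)
      + ∑ l ∈ U, (lsum C (trunc C U) l - (∑ z, trunc C U z) / C.q - (U.card : ℝ)) ^ 2 :=
    add_nonneg (Finset.sum_nonneg fun _ _ => sq_nonneg _)
      (Finset.sum_nonneg fun _ _ => sq_nonneg _)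
  have hE := E_bound P Z hu0 hT1 hμ0 hμ (by linarith) hT2hi (le_of_le_of_eq hEle (by rw [hq]))
  have hd : ∀ l, l ≠ C.inf → |dev C ω l| ≤ (C.p : ℝ) * C.lg := by
    intro l hl; have := hB.load l hl; rwa [hsq] at this
  have hsd : 0 ≤ (C.p : ℝ) * C.lg := by positivity
  have hmass := hB.mass
  have hTB := lin_term (trunc C U) (trunc_nonneg U) (lines' C) (dev C ω) _
    (thru_dev ω hV _ ha hmass)
  have hTC : |∑ l ∈ lines' C, dev C ω l|
      ≤ ((C.p : ℝ) ^ 2 + 1) * ((C.p : ℝ) ^ 2 * Real.sqrt (C.p : ℝ)) := by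
    rw [sum_dev ω hV, hq, abs_mul, abs_of_nonneg (by positivity)]
    refine mul_le_mul_of_nonneg_left ?_ (by positivity)
    rwa [hq] at hmass
  have hABU : C.A ∪ C.B ⊆ univ \ U := by
    intro l hl
    simp only [mem_sdiff, mem_univ, true_and]
    exact fun hlU => Finset.disjoint_left.1 disj_ord hl (hU hlU)
  have hABc : (((C.A ∪ C.B).card : ℕ) : ℝ) ≤ 4 * (C.p : ℝ) ^ 2 := by
    have h1 : (C.A ∪ C.B).card ≤ (C.q + C.p + 1) + (C.q + C.p + 1) :=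
      (Finset.card_union_le _ _).trans (by rw [hV.baerA.card_eq, hV.baerB.card_eq])
    have h2 : (((C.A ∪ C.B).card : ℕ) : ℝ) ≤ (((C.q + C.p + 1) + (C.q + C.p + 1) : ℕ) : ℝ) := by
      exact_mod_cast h1
    push_cast at h2; rw [hq] at h2
    have h3 : (2 : ℝ) ≤ (C.p : ℝ) := by
      have := P.s_pow (m := 0) (by norm_num); simp at this; linarith
    have h4 := mul_le_mul_of_nonneg_right h3 hs0
    linarith
  have hTAB := baer_term (trunc C U) (dev C ω) ((∑ z, trunc C U z) / (C.q : ℝ)) _ _ _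
    (C.A ∪ C.B) hsd (fun l hl => hd l (ne_inf hV (mem_union_left _ hl)))
    (le_trans (Finset.sum_le_sum_of_subset_of_nonneg hABU fun _ _ _ => sq_nonneg _)
      (le_add_of_nonneg_right (Finset.sum_nonneg (s := U) fun l _ =>
        sq_nonneg (lsum C (trunc C U) l - (∑ z, trunc C U z) / C.q - (U.card : ℝ))))) hABc
  have ht84 : (3 : ℝ) ≤ C.lg ^ 84 := by
    have := P.L_pow (m := 1) (n := 84) (by norm_num)
    rw [pow_one] at this
    linarith [P.L_big]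
  have ht_hi : (C.tp : ℝ) ≤ 2 * C.lg ^ 84 := by
    have := Nat.ceil_lt_add_one (show (0 : ℝ) ≤ C.lg ^ 84 by positivity)
    rw [Cfg.tp]; linarith
  have ht3 : 3 ≤ C.tp := by
    have : (3 : ℝ) ≤ (C.tp : ℝ) := ht84.trans (Nat.le_ceil _)
    exact_mod_cast this
  have hP' : ∀ Q : Fin C.tp → C.Pt,
      ∑ l ∈ C.spanned Q, dev C ω l ≤ (C.tp : ℝ) ^ 2 * (C.p : ℝ) / C.lg ^ 41 := by
    intro Q; have := hPr Q; rwa [hsq] at this
  have hS4 : ∀ l ∈ C.ordinary, ∑ z ∈ C.pts l, trunc C U z ≤ 4 * (C.p : ℝ) ^ 2 := by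
    intro l _
    refine (lsum_trunc_le hV U l).trans ?_
    rw [hq]; linarith [Z.hi, sq_nonneg (C.p : ℝ)]
  have hO2 := off_diag hV (trunc C U) (trunc_nonneg U) (dev C ω) (C.p : ℝ) C.lg _ _ hs0 P.L_one
    hsd (by positivity) ht3 (fun l hl => hd l (ne_inf hV (mem_union_right _ hl))) hP' hS4
  have hdiag : ∑ z, trunc C U z ^ 2 * ∑ l ∈ C.linesIn C.ordinary z, dev C ω l
      ≤ (∑ z, trunc C U z ^ 2) * (3 * (C.p : ℝ) ^ 2 * Real.sqrt (C.p : ℝ)
        + 4 * (C.p : ℝ) * ((C.p : ℝ) * C.lg)) := by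
    rw [Finset.sum_mul]
    refine Finset.sum_le_sum fun z _ => mul_le_mul_of_nonneg_left ?_ (sq_nonneg _)
    refine (le_abs_self _).trans ((thru_ord ω hV _ _ ha hsd hmass hd hs z).trans ?_)
    rw [hq]
  have htr := transfer (fun l => lsum C (trunc C U) l - (∑ z, trunc C U z) / (C.q : ℝ)) (dev C ω)
    (lines' C) U (by rw [lines'_eq hV]; exact hU.trans subset_union_right) _ _ (C.lg ^ 3) _
    (pow_pos hL 3) hsd (fun l hl => hd l (ne_of_mem_erase hl)) rfl le_rfl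
  have hexp : ∑ l ∈ lines' C, (lsum C (trunc C U) l - (∑ z, trunc C U z) / (C.q : ℝ)) ^ 2
        * dev C ω l
      = (∑ l ∈ C.A ∪ C.B, lsum C (trunc C U) l ^ 2 * dev C ω l
          + ∑ l ∈ C.ordinary, lsum C (trunc C U) l ^ 2 * dev C ω l)
        - 2 * ((∑ z, trunc C U z) / (C.q : ℝ)) * ∑ l ∈ lines' C, lsum C (trunc C U) l * dev C ω l
        + ((∑ z, trunc C U z) / (C.q : ℝ)) ^ 2 * ∑ l ∈ lines' C, dev C ω l := by
    rw [← Finset.sum_union disj_ord, ← lines'_eq hV, Finset.mul_sum, Finset.mul_sum,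
      ← Finset.sum_sub_distrib, ← Finset.sum_add_distrib]
    exact Finset.sum_congr rfl fun l _ => by ring
  rw [hexp, sq_split] at htr
  rw [hsq, hq]
  exact final_bound P Z hu0 hT10 hT1 hT2' hμ0 hμ hE0 hE (Nat.cast_nonneg _) ht_hi hTAB hO2
    (by rw [hq] at hTB; exact hTB) hTC (htr.trans (by linarith))

end Spec

/-- The spectral step: a structured line set has small total deviation. -/
theorem spec (_hf : FactsStmt) : SpecStmt := by
  obtain ⟨P0, hP0⟩ := Spec.asymp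
  refine ⟨P0, fun C h _ _ hS hp ω hEv U hU hlow hup _ hlp => ?_⟩
  obtain ⟨hL, ha⟩ := hP0 C.p hp
  exact Spec.core hS.valid (by have := hS.h_upper; omega) ω hEv.basic hEv.pairs U hU hlow hup hlp
    ⟨hL, Real.sq_sqrt (Nat.cast_nonneg _), ha⟩

end Vale.P045.Baer
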