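import Vale.Agent.P045.Baer.Pins

/-!
# P045: product inequality and tail bounds for bounded read number
-/

namespace Vale.P045.Baer

open Finset

namespace Tool

variable {ι κ α : Type} [Fintype ι] [DecidableEq ι] [Fintype α]

/-- Average over the coordinates in `T`, the others being read from `x`. -/
noncomputable def avg (T : Finset ι) (f : (ι → α) → ℝ) (x : ι → α) : ℝ :=
  (∑ y, f (T.piecewise y x)) / (Fintype.card (ι → α) : ℝ)

lemma avg_empty [Nonempty α] (f : (ι → α) → ℝ) (x : ι → α) : avg ∅ f x = f x := by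
  simp [avg]

lemma avg_univ (f : (ι → α) → ℝ) (x : ι → α) :
    avg univ f x = (∑ y, f y) / (Fintype.card (ι → α) : ℝ) := by
  simp [avg]

lemma avg_nonneg (T : Finset ι) {f : (ι → α) → ℝ} (hf : ∀ x, 0 ≤ f x) (x : ι → α) :
    0 ≤ avg T f x :=
  div_nonneg (sum_nonneg fun _ _ => hf _) (Nat.cast_nonneg _)

lemma avg_update {T : Finset ι} {i : ι} {f : (ι → α) → ℝ} (S : Finset ι) (hi : i ∉ S)
    (hf : ∀ x y, (∀ j ∈ S, x j = y j) → f x = f y) (x : ι → α) (a : α) :
    avg T f (Function.update x i a) = avg T f x := by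
  simp only [avg]
  congr 1
  refine sum_congr rfl fun y _ => hf _ _ fun j hj => ?_
  have hji : j ≠ i := fun h => hi (h ▸ hj)
  by_cases hT : j ∈ T <;> simp [hT, hji]

lemma avg_insert [Nonempty α] {T : Finset ι} {i : ι} (hi : i ∉ T) (f : (ι → α) → ℝ)
    (x : ι → α) :
    avg (insert i T) f x =
      (∑ a, avg T f (Function.update x i a)) / (Fintype.card α : ℝ) := by
  classical
  have hpt : ∀ y : ι → α, (insert i T).piecewise y x =
      T.piecewise y (Function.update x i (y i)) := fun y => by
    funext j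
    rcases eq_or_ne j i with rfl | hne
    · simp [hi]
    · by_cases hT : j ∈ T <;> simp [hT, hne]
  have hind : ∀ (y : ι → α) (b : α) (z : ι → α),
      T.piecewise (Function.update y i b) z = T.piecewise y z := fun y b z => by
    funext j
    by_cases hT : j ∈ T
    · have : j ≠ i := fun h => hi (h ▸ hT)
      simp [hT, this]
    · simp [hT]
  let swap : (ι → α) × α → (ι → α) × α := fun q => (Function.update q.1 i q.2, q.1 i)
  have hswap : Function.Involutive swap := fun q => by simp [swap]
  have key : ∑ q : (ι → α) × α, f (T.piecewise q.1 (Function.update x i (q.1 i))) =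
      ∑ q : (ι → α) × α, f (T.piecewise q.1 (Function.update x i q.2)) := by
    refine Fintype.sum_bijective swap hswap.bijective _ _ fun q => ?_
    simp [swap, hind]
  have hA : (Fintype.card α : ℝ) ≠ 0 := by simp
  simp only [avg, hpt, ← sum_div]
  rw [Fintype.sum_prod_type, Fintype.sum_prod_type, Finset.sum_comm (γ := ι → α) (f := fun y a =>
    f (T.piecewise y (Function.update x i a)))] at key
  simp only [sum_const, card_univ, nsmul_eq_mul, ← mul_sum] at key
  rw [← key, div_right_comm, mul_div_cancel_left₀ _ hA]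

variable [Fintype κ]

omit [Fintype ι] [DecidableEq ι] [Fintype κ] in
/-- Hölder for at most `k` factors. -/
lemma holder (E : Finset κ) (k : ℕ) (hk : 0 < k) (hE : E.card ≤ k) [Nonempty α]
    (h : κ → α → ℝ) (h0 : ∀ e a, 0 ≤ h e a) :
    (∑ a, ∏ e ∈ E, h e a ^ ((1 : ℝ) / k)) / (Fintype.card α : ℝ) ≤
      ∏ e ∈ E, ((∑ a, h e a) / (Fintype.card α : ℝ)) ^ ((1 : ℝ) / k) := by
  classical
  have hA : (0 : ℝ) < Fintype.card α := by exact_mod_cast Fintype.card_pos
  have hk' : (0 : ℝ) < k := by exact_mod_cast hk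
  set A : κ → ℝ := fun e => (∑ a, h e a) / (Fintype.card α : ℝ) with hAd
  have hA0 : ∀ e, 0 ≤ A e := fun e => div_nonneg (sum_nonneg fun _ _ => h0 _ _) hA.le
  by_cases hz : ∃ e ∈ E, A e = 0
  · obtain ⟨e, he, hez⟩ := hz
    have : ∀ a, h e a = 0 := fun a => by
      rw [hAd] at hez
      simp only [div_eq_zero_iff, hA.ne', or_false] at hez
      exact (sum_eq_zero_iff_of_nonneg fun _ _ => h0 _ _).1 hez a (mem_univ a)
    have hzero : ∀ a, ∏ e ∈ E, h e a ^ ((1 : ℝ) / k) = 0 := fun a =>
      prod_eq_zero he (by rw [this a, Real.zero_rpow (by positivity)])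
    simp only [hzero, sum_const_zero, zero_div]
    exact prod_nonneg fun _ _ => Real.rpow_nonneg (hA0 _) _
  · push Not at hz
    have hpos : ∀ e ∈ E, 0 < A e := fun e he => lt_of_le_of_ne (hA0 e) (Ne.symm (hz e he))
    have hrest : 0 ≤ 1 - (E.card : ℝ) / k := by
      have : (E.card : ℝ) ≤ k := by exact_mod_cast hE
      rw [sub_nonneg, div_le_one hk']
      exact this
    have hpt : ∀ a, ∏ e ∈ E, (h e a / A e) ^ ((1 : ℝ) / k) ≤
        ∑ e ∈ E, (1 : ℝ) / k * (h e a / A e) + (1 - (E.card : ℝ) / k) := fun a => by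
      have hw : ∀ o ∈ insertNone E,
          (0 : ℝ) ≤ Option.elim o (1 - (E.card : ℝ) / k) fun _ => (1 : ℝ) / k := by
        rintro (_ | e) -
        · exact hrest
        · exact (one_div_pos.2 hk').le
      have hw1 : ∑ o ∈ insertNone E,
          (Option.elim o (1 - (E.card : ℝ) / k) fun _ => (1 : ℝ) / k) = 1 := by
        rw [sum_insertNone]
        simp only [Option.elim_none, Option.elim_some, sum_const, nsmul_eq_mul]
        ring
      have hz0 : ∀ o ∈ insertNone E,
          (0 : ℝ) ≤ Option.elim o 1 fun e => h e a / A e := by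
        rintro (_ | e) -
        · exact zero_le_one
        · exact div_nonneg (h0 _ _) (hA0 _)
      have := Real.geom_mean_le_arith_mean_weighted (insertNone E) _ _ hw hw1 hz0
      simpa [sum_insertNone, prod_insertNone, add_comm] using this
    have hsplit : ∀ a, ∏ e ∈ E, h e a ^ ((1 : ℝ) / k) =
        (∏ e ∈ E, A e ^ ((1 : ℝ) / k)) * ∏ e ∈ E, (h e a / A e) ^ ((1 : ℝ) / k) := fun a => by
      rw [← prod_mul_distrib]
      refine prod_congr rfl fun e he => ?_
      rw [← Real.mul_rpow (hA0 e) (div_nonneg (h0 _ _) (hA0 _)),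
        mul_div_cancel₀ _ (hpos e he).ne']
    simp only [hsplit, ← mul_sum, mul_div_assoc]
    refine mul_le_of_le_one_right (prod_nonneg fun _ _ => Real.rpow_nonneg (hA0 _) _) ?_
    rw [div_le_one hA]
    refine (sum_le_sum fun a _ => hpt a).trans_eq ?_
    rw [sum_add_distrib, sum_comm]
    have : ∀ e ∈ E, ∑ a, (1 : ℝ) / k * (h e a / A e) = (Fintype.card α : ℝ) / k := fun e he => by
      rw [← mul_sum, ← sum_div]
      have hAe : ∑ a, h e a = A e * (Fintype.card α : ℝ) := by
        simp only [hAd]; field_simp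
      have := (hpos e he).ne'
      rw [hAe]
      field_simp
    rw [sum_congr rfl this, sum_const, sum_const, card_univ, nsmul_eq_mul, nsmul_eq_mul]
    ring

/-- The inductive form of the product inequality. -/
lemma finner_aux [Nonempty α] (g : κ → (ι → α) → ℝ) (S : κ → Finset ι) (k : ℕ) (hk : 0 < k)
    (h0 : ∀ e x, 0 ≤ g e x) (hS : ∀ e x y, (∀ i ∈ S e, x i = y i) → g e x = g e y)
    (hread : ∀ i, (univ.filter fun e => i ∈ S e).card ≤ k) (T : Finset ι) :
    ∀ x, avg T (fun y => ∏ e, g e y) x ≤
      ∏ e, avg T (fun y => g e y ^ k) x ^ ((1 : ℝ) / k) := by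
  classical
  induction T using Finset.induction_on with
  | empty =>
    intro x
    refine le_of_eq ?_
    rw [avg_empty]
    refine prod_congr rfl fun e _ => ?_
    rw [avg_empty, one_div, Real.pow_rpow_inv_natCast (h0 e x) hk.ne']
  | insert i T hi ih =>
    intro x
    set E := univ.filter fun e => i ∈ S e with hE
    set H : κ → α → ℝ := fun e a => avg T (fun y => g e y ^ k) (Function.update x i a) with hH
    have hH0 : ∀ e a, 0 ≤ H e a := fun e a => avg_nonneg _ (fun y => pow_nonneg (h0 e y) _) _
    have hA : (0 : ℝ) < Fintype.card α := by exact_mod_cast Fintype.card_pos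
    have hconst : ∀ e ∈ univ.filter (fun e => i ∉ S e), ∀ a,
        H e a = avg (insert i T) (fun y => g e y ^ k) x := by
      intro e he a
      have hi' : i ∉ S e := (mem_filter.1 he).2
      have hu := fun b => avg_update (T := T) (S e) hi'
        (f := fun y => g e y ^ k) (fun u v huv => by rw [hS e u v huv]) x b
      rw [avg_insert hi]
      simp only [hH, hu, sum_const, card_univ, nsmul_eq_mul]
      field_simp
    rw [avg_insert hi, ← prod_filter_mul_prod_filter_not univ (fun e => i ∈ S e)]
    calc (∑ a, avg T (fun y => ∏ e, g e y) (Function.update x i a)) / (Fintype.card α : ℝ)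
        ≤ (∑ a, ∏ e, H e a ^ ((1 : ℝ) / k)) / (Fintype.card α : ℝ) :=
          div_le_div_of_nonneg_right (sum_le_sum fun a _ => ih _) hA.le
      _ = (∑ a, ∏ e ∈ E, H e a ^ ((1 : ℝ) / k)) / (Fintype.card α : ℝ) *
          ∏ e ∈ univ.filter (fun e => i ∉ S e),
            avg (insert i T) (fun y => g e y ^ k) x ^ ((1 : ℝ) / k) := by
          rw [div_mul_eq_mul_div, sum_mul]
          congr 1
          refine sum_congr rfl fun a _ => ?_
          rw [← prod_filter_mul_prod_filter_not univ (fun e => i ∈ S e), ← hE]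
          congr 1
          exact prod_congr rfl fun e he => by rw [hconst e he a]
      _ ≤ _ := by
          refine mul_le_mul_of_nonneg_right ?_ (prod_nonneg fun _ _ => Real.rpow_nonneg
            (avg_nonneg _ (fun y => pow_nonneg (h0 _ y) _) _) _)
          refine (holder E k hk (hread i) H hH0).trans_eq ?_
          refine prod_congr rfl fun e _ => ?_
          rw [avg_insert hi]

end Tool

/-- The product inequality. -/
theorem finner : FinnerStmt := by
  intro ι κ α _ _ _ _ _ g S k hk h0 hS hread
  have h := Tool.finner_aux g S k hk h0 hS hread univ (fun _ => Classical.arbitrary α)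
  simpa only [Tool.avg_univ] using h

open Classical in
/-- The tail bounds. -/
theorem chernoff : ChernoffStmt := by
  intro ι κ α _ _ _ _ _ Y S k μ hk hY hread hμ
  set N : ℝ := (Fintype.card (ι → α) : ℝ) with hNd
  have hN : 0 < N := by rw [hNd]; exact_mod_cast Fintype.card_pos
  have hk' : (0 : ℝ) < k := by exact_mod_cast hk
  have hμ0 : ∀ e, 0 ≤ μ e := fun e => by
    have h := hμ e
    have h2 : (0 : ℝ) ≤ μ e * N := h ▸ Nat.cast_nonneg _
    exact (mul_nonneg_iff_of_pos_right hN).1 h2
  set M : ℝ := ∑ e, μ e with hMd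
  have hM : 0 ≤ M := sum_nonneg fun e _ => hμ0 e
  set c : (ι → α) → ℝ := fun x => ((univ.filter fun e => Y e x).card : ℝ) with hc
  have mgf : ∀ s : ℝ, ∑ x, Real.exp (s / k * c x) ≤ N * Real.exp (M * (Real.exp s - 1) / k) := by
    intro s
    have hf := finner ι κ α (fun e x => if Y e x then Real.exp (s / k) else 1) S k hk
      (fun e x => by split_ifs <;> positivity)
      (fun e x y h => by simp only [hY e x y h]) hread
    have hprod : ∀ x : ι → α,
        ∏ e, (if Y e x then Real.exp (s / k) else 1) = Real.exp (s / k * c x) := fun x => by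
      rw [← prod_filter, prod_const, ← Real.exp_nat_mul, mul_comm]
    have hone : ∀ e,
        (∑ x : ι → α, (if Y e x then Real.exp (s / k) else 1) ^ k) / N =
          1 + μ e * (Real.exp s - 1) := fun e => by
      have e1 : ∀ x : ι → α, (if Y e x then Real.exp (s / k) else 1) ^ k =
          1 + (if Y e x then Real.exp s - 1 else 0) := fun x => by
        split_ifs
        · rw [← Real.exp_nat_mul, mul_div_cancel₀ _ hk'.ne']; ring
        · simp
      rw [sum_congr rfl fun x _ => e1 x, sum_add_distrib, ← sum_filter, sum_const, sum_const,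
        card_univ, nsmul_eq_mul, nsmul_eq_mul, hμ e, ← hNd]
      field_simp
    rw [sum_congr rfl fun x _ => hprod x] at hf
    rw [← hNd] at hf
    have hb : ∏ e, ((∑ x : ι → α, (if Y e x then Real.exp (s / k) else 1) ^ k) / N) ^
        ((1 : ℝ) / k) ≤ ∏ e, Real.exp (μ e * (Real.exp s - 1) / k) := by
      refine prod_le_prod (fun e _ => Real.rpow_nonneg ?_ _) fun e _ => ?_
      · exact div_nonneg (sum_nonneg fun x _ => pow_nonneg (by split_ifs <;> positivity) _) hN.le
      · rw [hone e]
        have h0 : 0 ≤ 1 + μ e * (Real.exp s - 1) := by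
          rw [← hone e]
          exact div_nonneg (sum_nonneg fun x _ => pow_nonneg (by split_ifs <;> positivity) _) hN.le
        refine (Real.rpow_le_rpow h0 (by linarith [Real.add_one_le_exp (μ e * (Real.exp s - 1))]
          : _ ≤ Real.exp (μ e * (Real.exp s - 1))) (by positivity)).trans_eq ?_
        rw [← Real.exp_mul, mul_one_div]
    have h := hf.trans hb
    rw [← Real.exp_sum, ← sum_div, ← sum_mul, ← hMd, div_le_iff₀ hN] at h
    linarith
  have tail : ∀ (s a : ℝ) (P : (ι → α) → Prop), (∀ x, P x → s * a ≤ s * c x) →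
      ((univ.filter P).card : ℝ) ≤ N * Real.exp ((M * (Real.exp s - 1) - s * a) / k) := by
    intro s a P hP
    have h1 : ((univ.filter P).card : ℝ) * Real.exp (s / k * a) ≤ ∑ x, Real.exp (s / k * c x) := by
      calc ((univ.filter P).card : ℝ) * Real.exp (s / k * a)
          = ∑ _x ∈ univ.filter P, Real.exp (s / k * a) := by rw [sum_const, nsmul_eq_mul]
        _ ≤ ∑ x ∈ univ.filter P, Real.exp (s / k * c x) := sum_le_sum fun x hx => by
            have := hP x (mem_filter.1 hx).2
            rw [Real.exp_le_exp, div_mul_eq_mul_div, div_mul_eq_mul_div]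
            exact div_le_div_of_nonneg_right this hk'.le
        _ ≤ _ := sum_le_sum_of_subset_of_nonneg (filter_subset _ _) fun x _ _ => (Real.exp_pos _).le
    have h2 := h1.trans (mgf s)
    rw [← le_div_iff₀ (Real.exp_pos _)] at h2
    refine h2.trans_eq ?_
    rw [mul_div_assoc, ← Real.exp_sub]
    congr 2
    ring
  refine ⟨fun d hd hd1 => ⟨?_, ?_⟩, fun R hR hR8 => ?_⟩
  · refine (tail (-d) ((1 - d) * M) _ fun x hx => ?_).trans ?_
    · exact mul_le_mul_of_nonpos_left hx (by linarith)
    rw [mul_comm N, ← div_div]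
    refine mul_le_mul_of_nonneg_right (Real.exp_le_exp.2
      (div_le_div_of_nonneg_right ?_ hk'.le)) hN.le
    have h1 : Real.exp (-d) ≤ 1 - d + d ^ 2 / 2 := by
      have h := Real.quadratic_le_exp_of_nonneg hd.le
      have hmul : Real.exp (-d) * Real.exp d = 1 := by rw [← Real.exp_add]; simp
      have hp : 0 < Real.exp (-d) := Real.exp_pos _
      have h' := mul_le_mul_of_nonneg_left h hp.le
      rw [hmul] at h'
      nlinarith [mul_nonneg (sq_nonneg d) (sq_nonneg d), sq_nonneg d,
        mul_le_mul_of_nonneg_left h' (by nlinarith : (0 : ℝ) ≤ 1 - d + d ^ 2 / 2)]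
    have := mul_le_mul_of_nonneg_left h1 hM
    nlinarith [mul_nonneg hM (sq_nonneg d)]
  · have h1d : 0 < 1 + d := by linarith
    refine (tail (Real.log (1 + d)) ((1 + d) * M) _ fun x hx => ?_).trans ?_
    · exact mul_le_mul_of_nonneg_left hx (Real.log_nonneg (by linarith))
    rw [mul_comm N, ← div_div, Real.exp_log h1d]
    refine mul_le_mul_of_nonneg_right (Real.exp_le_exp.2
      (div_le_div_of_nonneg_right ?_ hk'.le)) hN.le
    have hl := Real.le_log_one_add_of_nonneg hd.le
    rw [div_le_iff₀ (by linarith)] at hl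
    have h2 : d ^ 2 / 3 ≤ Real.log (1 + d) * (1 + d) - d := by
      nlinarith [mul_le_mul_of_nonneg_left hl h1d.le, pow_pos hd 3,
        mul_nonneg (sq_nonneg d) (by linarith : 0 ≤ 1 - d)]
    nlinarith [mul_le_mul_of_nonneg_left h2 hM]
  · refine (tail 1 R _ fun x hx => ?_).trans ?_
    · simpa using hx
    rw [mul_comm N, ← div_div]
    refine mul_le_mul_of_nonneg_right (Real.exp_le_exp.2
      (div_le_div_of_nonneg_right ?_ hk'.le)) hN.le
    nlinarith [Real.exp_one_lt_d9, mul_le_mul_of_nonneg_left Real.exp_one_lt_d9.le hM]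

end Vale.P045.Baer
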